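import Vale.Agent.P267.H378.NFloc

/-!
# P267 / H378: normal families, coordinate level: coefficients with respect to a frame
-/

set_option linter.all false

open Set Filter Topology Metric Complex
open scoped ContDiff Real ComplexConjugate

namespace Vale.Agent.P267.H378

open Vale.Agent.P267.FL

noncomputable section

section Coef

variable {E : Type*} [NormedAddCommGroup E] [InnerProductSpace ℂ E]

/-- coefficient of `s` with respect to the frame `F` -/
def coef (F s : C2 → E) (z : C2) : ℂ := inner ℂ (F z) (s z) / inner ℂ (F z) (F z)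

theorem coef_smul {F s : C2 → E} {z : C2} {a : ℂ} (h : s z = a • F z) (hF : F z ≠ 0) :
    coef F s z = a := by
  have h0 : inner ℂ (F z) (F z) ≠ 0 := by simpa using hF
  rw [coef, h, inner_smul_right, mul_div_cancel_right₀ _ h0]

theorem coef_contDiffOn {F s : C2 → E} {U : Set C2} {n : WithTop ℕ∞} (hF : ContDiffOn ℝ n F U)
    (hs : ContDiffOn ℝ n s U) (h0 : ∀ z ∈ U, F z ≠ 0) : ContDiffOn ℝ n (coef F s) U := by
  have h1 : ContDiffOn ℝ n (fun z => inner ℂ (F z) (F z)) U := hF.inner ℂ hF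
  have h2 : ContDiffOn ℝ n (fun z => (inner ℂ (F z) (F z))⁻¹) U := h1.inv fun z hz => by
    simpa using h0 z hz
  exact (hF.inner ℂ hs).mul h2

theorem norm_coef_le {F s : C2 → E} {z : C2} {m : ℝ} (hm : 0 < m) (h : m ≤ ‖F z‖) :
    ‖coef F s z‖ ≤ m⁻¹ * ‖s z‖ := by
  have hF : 0 < ‖F z‖ := hm.trans_le h
  rw [coef, norm_div]
  have h1 : ‖inner ℂ (F z) (F z)‖ = ‖F z‖ * ‖F z‖ := by
    rw [inner_self_eq_norm_sq_to_K]
    simp [sq]
  rw [h1]
  calc ‖inner ℂ (F z) (s z)‖ / (‖F z‖ * ‖F z‖) ≤ (‖F z‖ * ‖s z‖) / (‖F z‖ * ‖F z‖) := by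
        gcongr
        exact norm_inner_le_norm _ _
    _ = ‖F z‖⁻¹ * ‖s z‖ := by field_simp
    _ ≤ m⁻¹ * ‖s z‖ := by gcongr

theorem coef_sub {F s t : C2 → E} {z : C2} :
    coef F (fun w => s w - t w) z = coef F s z - coef F t z := by
  simp only [coef, inner_sub_right, sub_div]

/-- equicontinuity of almost holomorphic multiples of a frame -/
theorem equi_of_coef {z0 : C2} {R : ℝ} (hR : 0 < R) {F W : C2 → E}
    (hFc : ContinuousOn F (closedBall z0 R)) (hWc : ContinuousOn W (closedBall z0 R))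
    {s : ℕ → C2 → E} {c : ℕ → C2 → ℂ} {M : ℝ}
    (hc : ∀ᶠ n in atTop, ContDiffOn ℝ 1 (c n) (ball z0 R) ∧ (∀ z ∈ ball z0 R, ‖c n z‖ ≤ M) ∧
      (∀ z ∈ ball z0 R, ∀ i, ‖dzb i (c n) z‖ ≤ 1) ∧ ∀ z ∈ ball z0 R, s n z = c n z • F z + W z) :
    ∀ ε > 0, ∃ δ > 0, ∀ᶠ n in atTop, ∀ x ∈ closedBall z0 (R / 12), ∀ y ∈ closedBall z0 (R / 12),
      dist x y < δ → dist (s n x) (s n y) < ε := by
  intro ε hε
  have hM : 0 ≤ M := by
    obtain ⟨n, hn⟩ := hc.exists
    exact (norm_nonneg _).trans (hn.2.1 z0 (mem_ball_self hR))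
  obtain ⟨C, hC, hH⟩ := holder_ball hR
  have hK : IsCompact (closedBall z0 R) := isCompact_closedBall _ _
  obtain ⟨B, hB⟩ := hK.exists_bound_of_continuousOn hFc
  have hB0 : 0 ≤ B := (norm_nonneg _).trans (hB z0 (mem_closedBall_self hR.le))
  have hFu := Metric.uniformContinuousOn_iff.1 (hK.uniformContinuousOn_of_continuous hFc)
  have hWu := Metric.uniformContinuousOn_iff.1 (hK.uniformContinuousOn_of_continuous hWc)
  obtain ⟨δ1, hδ1, h1⟩ := hFu (ε / (3 * (M + 1))) (by positivity)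
  obtain ⟨δ2, hδ2, h2⟩ := hWu (ε / 3) (by positivity)
  set A : ℝ := C * (M + 4) * (B + 1) with hA
  have hA0 : 0 < A := by positivity
  set δ3 : ℝ := (ε / (3 * A)) ^ 2 with hδ3
  have hδ30 : 0 < δ3 := by positivity
  refine ⟨min δ1 (min δ2 δ3), by positivity, ?_⟩
  filter_upwards [hc] with n hn x hx y hy hxy
  obtain ⟨hn1, hn2, hn3, hn4⟩ := hn
  have hxb : x ∈ ball z0 (R / 6) := closedBall_subset_ball (by linarith) hx
  have hyb : y ∈ ball z0 (R / 6) := closedBall_subset_ball (by linarith) hy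
  have hxB : x ∈ ball z0 R := ball_subset_ball (by linarith) hxb
  have hyB : y ∈ ball z0 R := ball_subset_ball (by linarith) hyb
  have hxC := ball_subset_closedBall hxB
  have hyC := ball_subset_closedBall hyB
  have hxy1 : dist x y < δ1 := hxy.trans_le (min_le_left _ _)
  have hxy2 : dist x y < δ2 := hxy.trans_le ((min_le_right _ _).trans (min_le_left _ _))
  have hxy3 : dist x y < δ3 := hxy.trans_le ((min_le_right _ _).trans (min_le_right _ _))
  have hh := hH z0 (c n) M 4 hM (by norm_num) hn1 hn2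
    (fun w hw v => (norm_dbv_le (fun i => hn3 w hw i) v).trans (by linarith)) x hxb y hyb
  have e1 : s n x - s n y = (c n x - c n y) • F x + c n y • (F x - F y) + (W x - W y) := by
    rw [hn4 x hxB, hn4 y hyB]
    module
  have e2 : ‖c n x - c n y‖ * ‖F x‖ < ε / 3 := by
    have h3 : ‖x - y‖ ^ (1 / 2 : ℝ) < ε / (3 * A) := by
      have : ‖x - y‖ < (ε / (3 * A)) ^ 2 := by rw [← dist_eq_norm]; exact hxy3
      calc ‖x - y‖ ^ (1 / 2 : ℝ) < ((ε / (3 * A)) ^ 2) ^ (1 / 2 : ℝ) :=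
            Real.rpow_lt_rpow (norm_nonneg _) this (by norm_num)
        _ = ε / (3 * A) := by
            rw [← Real.rpow_natCast, ← Real.rpow_mul (by positivity)]
            norm_num
    have h4 : ‖c n x - c n y‖ ≤ C * (M + 4) * ‖x - y‖ ^ (1 / 2 : ℝ) := hh
    have h5 : 0 ≤ C * (M + 4) := by positivity
    calc ‖c n x - c n y‖ * ‖F x‖ ≤ (C * (M + 4) * ‖x - y‖ ^ (1 / 2 : ℝ)) * (B + 1) := by
          refine mul_le_mul h4 ((hB x hxC).trans (by linarith)) (norm_nonneg _) ?_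
          exact mul_nonneg h5 (Real.rpow_nonneg (norm_nonneg _) _)
      _ = A * ‖x - y‖ ^ (1 / 2 : ℝ) := by rw [hA]; ring
      _ < A * (ε / (3 * A)) := by gcongr
      _ = ε / 3 := by field_simp
  have e3 : ‖c n y‖ * ‖F x - F y‖ < ε / 3 := by
    have h3 := h1 x hxC y hyC hxy1
    rw [dist_eq_norm] at h3
    calc ‖c n y‖ * ‖F x - F y‖ ≤ (M + 1) * ‖F x - F y‖ := by
          refine mul_le_mul_of_nonneg_right ((hn2 y hyB).trans (by linarith)) (norm_nonneg _)
      _ < (M + 1) * (ε / (3 * (M + 1))) := by gcongr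
      _ = ε / 3 := by field_simp
  have e4 : ‖W x - W y‖ < ε / 3 := by
    rw [← dist_eq_norm]
    exact h2 x hxC y hyC hxy2
  rw [dist_eq_norm, e1]
  calc ‖(c n x - c n y) • F x + c n y • (F x - F y) + (W x - W y)‖
      ≤ ‖(c n x - c n y) • F x‖ + ‖c n y • (F x - F y)‖ + ‖W x - W y‖ := norm_add₃_le
    _ = ‖c n x - c n y‖ * ‖F x‖ + ‖c n y‖ * ‖F x - F y‖ + ‖W x - W y‖ := by
        rw [norm_smul, norm_smul]
    _ < ε := by linarith

/-- limits of almost holomorphic multiples of a frame -/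
theorem limit_coef {z0 : C2} {r m : ℝ} (hm : 0 < m) {F W : C2 → E}
    (hFm : ∀ z ∈ ball z0 r, m ≤ ‖F z‖)
    {s : ℕ → C2 → E} {S : C2 → E} {c : ℕ → C2 → ℂ}
    (hc : ∀ᶠ n in atTop, ContDiffOn ℝ 1 (c n) (ball z0 r) ∧
      ∀ z ∈ ball z0 r, s n z = c n z • F z + W z)
    (hdb : ∀ ε > 0, ∀ᶠ n in atTop, ∀ z ∈ ball z0 r, ∀ i, ‖dzb i (c n) z‖ ≤ ε)
    (hlim : TendstoUniformlyOn s S atTop (ball z0 r)) :
    ∃ C : C2 → ℂ, DifferentiableOn ℂ C (ball z0 r) ∧
      ∀ z ∈ ball z0 r, S z = C z • F z + W z := by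
  set C : C2 → ℂ := coef F (fun w => S w - W w) with hCdef
  have hcC : TendstoUniformlyOn c C atTop (ball z0 r) := by
    rw [Metric.tendstoUniformlyOn_iff] at hlim ⊢
    intro ε hε
    filter_upwards [hc, hlim (m * ε) (by positivity)] with n hn h1 z hz
    have hFz : F z ≠ 0 := by
      intro h0
      have := hFm z hz
      rw [h0, norm_zero] at this
      linarith
    have e1 : c n z = coef F (fun w => s n w - W w) z := by
      refine (coef_smul ?_ hFz).symm
      rw [hn.2 z hz]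
      abel
    have e2 : C z - c n z = coef F (fun w => S w - s n w) z := by
      rw [e1, hCdef]
      rw [coef_sub, coef_sub, coef_sub]
      ring
    rw [dist_eq_norm, e2]
    have h2 := h1 z hz
    rw [dist_eq_norm] at h2
    calc ‖coef F (fun w => S w - s n w) z‖ ≤ m⁻¹ * ‖S z - s n z‖ := norm_coef_le hm (hFm z hz)
      _ < m⁻¹ * (m * ε) := by gcongr
      _ = ε := by field_simp
  refine ⟨C, limit_open isOpen_ball (hc.mono fun n hn => hn.1) hcC ?_, ?_⟩
  · intro ε hε
    filter_upwards [hdb (ε / 4) (by positivity)] with n hn z hz v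
    exact (norm_dbv_le (fun i => hn z hz i) v).trans (by rw [mul_div_cancel₀ _ (by norm_num)])
  · intro z hz
    have h1 : Tendsto (fun n => s n z) atTop (𝓝 (S z)) := hlim.tendsto_at hz
    have h2 : Tendsto (fun n => c n z • F z + W z) atTop (𝓝 (C z • F z + W z)) :=
      ((hcC.tendsto_at hz).smul_const _).add_const _
    refine tendsto_nhds_unique h1 (h2.congr' ?_)
    filter_upwards [hc] with n hn
    exact (hn.2 z hz).symm

end Coef

section Act

variable {ι : Type} [Fintype ι] [DecidableEq ι]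

theorem rank_one' {P : Matrix ι ι ℂ} (hh : P.conjTranspose = P) (hP : P * P = P) (ht : P.trace = 1)
    {F s : C2 → EuclideanSpace ℂ ι} {z : C2} (hf : LB.act P (F z) = F z) (hf0 : F z ≠ 0)
    (hs : LB.act P (s z) = s z) : s z = coef F s z • F z := by
  have h := rank_one hh hP ht hf hf0 hs
  rw [coef, inner_self_eq_norm_sq_to_K]
  exact h

/-- the `∂̄`-operator of the bundle on a multiple of a holomorphic frame -/
theorem db_coef {P : Matrix ι ι ℂ} {A : ℂ} {F s : C2 → EuclideanSpace ℂ ι} {c : C2 → ℂ} {z : C2}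
    {i : Fin 2} (hs : s =ᶠ[𝓝 z] fun w => c w • F w) (hc : DifferentiableAt ℝ c z)
    (hF : DifferentiableAt ℝ F z) (hP : LB.act P (F z) = F z)
    (hF' : LB.act P (dzb i F z) + A • F z = 0) :
    LB.act P (dzb i s z) + A • s z = dzb i c z • F z := by
  rw [dzb_congr hs i, dzb_smul hc hF i, hs.eq_of_nhds, act_add, act_smul, act_smul, hP]
  have : LB.act P (dzb i F z) = -(A • F z) := eq_neg_of_add_eq_zero_left hF'
  rw [this]
  module

end Act

end

end Vale.Agent.P267.H378
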