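import Vale.Agent.P267.H399.Calc
import Vale.Agent.P267.H378.NFcoord
import Vale.Agent.P281.MF.Hol

/-!
# P267 / H378: normal families of sections of line bundles (package XT-NF)
-/

set_option linter.all false

open Set Filter Topology Metric Complex
open scoped ContDiff Real ComplexConjugate Manifold

namespace Vale.Agent.P267.H378

open Vale.Agent.P267.FL

noncomputable section

section Db

variable {X : Type*} [TopologicalSpace X] [ChartedSpace C2 X] [IsManifold 𝓘(ℂ, C2) ω X]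
variable {ι : Type} [Fintype ι] [DecidableEq ι]

theorem act_sum {σ : Type*} (M : Matrix ι ι ℂ) (t : Finset σ) (v : σ → EuclideanSpace ℂ ι) :
    LB.act M (∑ i ∈ t, v i) = ∑ i ∈ t, LB.act M (v i) := by
  classical
  induction t using Finset.induction_on with
  | empty =>
    simp only [Finset.sum_empty]
    have := act_smul M 0 0
    simpa using this
  | insert i t hi ih => rw [Finset.sum_insert hi, Finset.sum_insert hi, act_add, ih]

theorem act_neg (M : Matrix ι ι ℂ) (v : EuclideanSpace ℂ ι) : LB.act M (-v) = -LB.act M v := by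
  have := act_smul M (-1) v
  simpa using this

theorem act_sub (M : Matrix ι ι ℂ) (v w : EuclideanSpace ℂ ι) :
    LB.act M (v - w) = LB.act M v - LB.act M w := by
  rw [sub_eq_add_neg, act_add, act_neg, ← sub_eq_add_neg]

omit [IsManifold 𝓘(ℂ, C2) ω X] in
theorem continuous_act (M : Matrix ι ι ℂ) : Continuous (LB.act M) := by
  have : LB.act M = fun v => Matrix.toEuclideanLin M v := by
    funext v
    rfl
  rw [this]
  exact LinearMap.continuous_of_finiteDimensional _

/-- the `∂̄`-operator of a bundle in a chart -/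
theorem loc1_db0 (L : LB X ι) (a : X → Fin 2 → ℂ) {κ : ℤ} {e : Ch X} (he : e ∈ atlas C2 X) {z : C2}
    (hz : z ∈ e.target) {s : X → EuclideanSpace ℂ ι} (hd : DifferentiableAt ℝ (loc0 κ e s) z)
    (i : Fin 2) : loc1 κ e (LB.db0 L a κ s) z i =
      LB.act (L.P (e.symm z)) (dzb i (loc0 κ e s) z) + loc1 0 e a z i • loc0 κ e s z := by
  rw [← loc1_dbar0 he hz hd i]
  simp only [loc1, loc0, LB.db0, act_smul, act_sum, zpow_zero, one_smul, smul_eq_mul, one_mul,
    Finset.sum_smul, Finset.smul_sum, smul_add, Finset.sum_add_distrib]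
  congr 1
  refine Finset.sum_congr rfl fun p _ => ?_
  module

theorem sec_loc0 {L : LB X ι} {s : X → EuclideanSpace ℂ ι} (hs : L.Sec s) (κ : ℤ) (e : Ch X)
    (z : C2) : LB.act (L.P (e.symm z)) (loc0 κ e s z) = loc0 κ e s z := by
  rw [loc0, act_smul, hs]

/-- local holomorphic frames -/
def HasFrames (L : LB X ι) (a : X → Fin 2 → ℂ) : Prop :=
  ∀ x, ∃ f : X → EuclideanSpace ℂ ι, Reg0 ∞ 0 f ∧ L.Sec f ∧
    ∀ᶠ y in 𝓝 x, f y ≠ 0 ∧ LB.db0 L a 0 f y = 0

/-- local solutions of `∂̄ w = g` -/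
def LocSol (L : LB X ι) (a : X → Fin 2 → ℂ) (κ : ℤ) (g : X → Fin 2 → EuclideanSpace ℂ ι) : Prop :=
  ∀ x, ∃ w : X → EuclideanSpace ℂ ι, Reg0 ∞ κ w ∧ L.Sec w ∧
    ∀ᶠ y in 𝓝 x, LB.db0 L a κ w y = g y

theorem reg0_zero {n : WithTop ℕ∞} {κ : ℤ} :
    Reg0 n κ (fun _ : X => (0 : EuclideanSpace ℂ ι)) := by
  intro e _
  have : loc0 κ e (fun _ : X => (0 : EuclideanSpace ℂ ι)) = fun _ => 0 := by
    funext z
    simp [loc0]
  rw [this]
  exact contDiffOn_const

theorem db0_zero (L : LB X ι) (a : X → Fin 2 → ℂ) (κ : ℤ) :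
    LB.db0 L a κ (fun _ : X => (0 : EuclideanSpace ℂ ι)) = 0 := by
  funext x i
  have h : loc0 κ (chartAt C2 x) (fun _ : X => (0 : EuclideanSpace ℂ ι)) = fun _ => 0 := by
    funext z
    simp [loc0]
  have h2 : LB.act (L.P x) (0 : EuclideanSpace ℂ ι) = 0 := by
    have := act_smul (L.P x) 0 0
    simpa using this
  simp [LB.db0, dbar0, h, h2]

theorem locSol_zero (L : LB X ι) (a : X → Fin 2 → ℂ) (κ : ℤ) : LocSol L a κ 0 := by
  intro x
  refine ⟨fun _ => 0, reg0_zero, ?_, Eventually.of_forall fun y => ?_⟩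
  · intro y
    have := act_smul (L.P y) 0 0
    simpa using this
  · rw [db0_zero]

end Db

/-- hypotheses of the normal families theorem -/
structure NFHyp {X : Type*} [TopologicalSpace X] [ChartedSpace C2 X] [IsManifold 𝓘(ℂ, C2) ω X]
    {ι : Type} [Fintype ι] [DecidableEq ι]
    (L : LB X ι) (a : X → Fin 2 → ℂ) (κ : ℤ) (g : X → Fin 2 → EuclideanSpace ℂ ι)
    (Ln : ℕ → LB X ι) (an : ℕ → X → Fin 2 → ℂ) (u : ℕ → X → EuclideanSpace ℂ ι) : Prop where
  frames : HasFrames L a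
  sol : LocSol L a κ g
  eqL : ∀ K, IsCompact K → ∀ᶠ n in atTop, ∀ x ∈ K, (Ln n).P x = L.P x
  lima : ∀ e ∈ atlas C2 X, ∀ K ⊆ e.target, IsCompact K →
    TendstoUniformlyOn (fun n => loc1 0 e (an n)) (loc1 0 e a) atTop K
  reg : ∀ n, Reg0 1 κ (u n)
  sec : ∀ n, (Ln n).Sec (u n)
  bdd : ∀ e ∈ atlas C2 X, ∀ K ⊆ e.target, IsCompact K →
    ∃ M, ∀ᶠ n in atTop, ∀ z ∈ K, ‖loc0 κ e (u n) z‖ ≤ M
  db : ∀ e ∈ atlas C2 X, ∀ K ⊆ e.target, IsCompact K →
    TendstoUniformlyOn (fun n => loc1 κ e (LB.db0 (Ln n) (an n) κ (u n))) (loc1 κ e g) atTop K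

namespace NFHyp

variable {X : Type*} [TopologicalSpace X] [ChartedSpace C2 X] [IsManifold 𝓘(ℂ, C2) ω X]
  {ι : Type} [Fintype ι] [DecidableEq ι]
  {L : LB X ι} {a : X → Fin 2 → ℂ} {κ : ℤ} {g : X → Fin 2 → EuclideanSpace ℂ ι}
  {Ln : ℕ → LB X ι} {an : ℕ → X → Fin 2 → ℂ} {u : ℕ → X → EuclideanSpace ℂ ι}

theorem comp (H : NFHyp L a κ g Ln an u) {φ : ℕ → ℕ} (hφ : StrictMono φ) :
    NFHyp L a κ g (fun n => Ln (φ n)) (fun n => an (φ n)) (fun n => u (φ n)) where
  frames := H.frames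
  sol := H.sol
  eqL K hK := hφ.tendsto_atTop.eventually (H.eqL K hK)
  lima e he K hK hK' := fun U hU => hφ.tendsto_atTop.eventually (H.lima e he K hK hK' U hU)
  reg n := H.reg _
  sec n := H.sec _
  bdd e he K hK hK' := by
    obtain ⟨M, hM⟩ := H.bdd e he K hK hK'
    exact ⟨M, hφ.tendsto_atTop.eventually hM⟩
  db e he K hK hK' := fun U hU => hφ.tendsto_atTop.eventually (H.db e he K hK hK' U hU)

/-- local data: frame `F`, particular solution `W`, coefficients `c n` -/
theorem local_data (H : NFHyp L a κ g Ln an u) {e : Ch X} (he : e ∈ atlas C2 X) {z0 : C2}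
    (hz0 : z0 ∈ e.target) : ∃ R > 0, closedBall z0 R ⊆ e.target ∧
      ∃ (F W : C2 → EuclideanSpace ℂ ι) (c : ℕ → C2 → ℂ) (m M : ℝ), 0 < m ∧
      ContDiffOn ℝ ∞ F e.target ∧ ContDiffOn ℝ ∞ W e.target ∧
      (∀ z ∈ closedBall z0 R, m ≤ ‖F z‖ ∧ LB.act (L.P (e.symm z)) (F z) = F z ∧
        (∀ i, LB.act (L.P (e.symm z)) (dzb i F z) + loc1 0 e a z i • F z = 0) ∧
        (∀ i, LB.act (L.P (e.symm z)) (dzb i W z) + loc1 0 e a z i • W z = loc1 κ e g z i)) ∧
      (∀ᶠ n in atTop, ContDiffOn ℝ 1 (c n) (ball z0 R) ∧ (∀ z ∈ ball z0 R, ‖c n z‖ ≤ M) ∧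
        ∀ z ∈ ball z0 R, loc0 κ e (u n) z = c n z • F z + W z) ∧
      (∀ ε > 0, ∀ᶠ n in atTop, ∀ z ∈ ball z0 R, ∀ i, ‖dzb i (c n) z‖ ≤ ε) := by
  obtain ⟨f, hf, hfs, hf0⟩ := H.frames (e.symm z0)
  obtain ⟨w, hw, hws, hw0⟩ := H.sol (e.symm z0)
  have hO : ∀ᶠ z in 𝓝 z0, z ∈ e.target ∧ (f (e.symm z) ≠ 0 ∧ LB.db0 L a 0 f (e.symm z) = 0) ∧
      LB.db0 L a κ w (e.symm z) = g (e.symm z) := by
    have hcont : Tendsto e.symm (𝓝 z0) (𝓝 (e.symm z0)) := e.continuousAt_symm hz0
    have h1 : ∀ᶠ z in 𝓝 z0, z ∈ e.target := e.open_target.mem_nhds hz0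
    exact h1.and ((hcont.eventually hf0).and (hcont.eventually hw0))
  obtain ⟨R, hR, hRO⟩ := Metric.nhds_basis_closedBall.eventually_iff.1 hO
  have hRt : closedBall z0 R ⊆ e.target := fun z hz => (hRO hz).1
  set F : C2 → EuclideanSpace ℂ ι := loc0 0 e f with hFdef
  set W : C2 → EuclideanSpace ℂ ι := loc0 κ e w with hWdef
  have hFs : ContDiffOn ℝ ∞ F e.target := hf e he
  have hWs : ContDiffOn ℝ ∞ W e.target := hw e he
  have hFd : ∀ z ∈ e.target, DifferentiableAt ℝ F z := fun z hz =>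
    (hFs.contDiffAt (e.open_target.mem_nhds hz)).differentiableAt (by norm_num)
  have hWd : ∀ z ∈ e.target, DifferentiableAt ℝ W z := fun z hz =>
    (hWs.contDiffAt (e.open_target.mem_nhds hz)).differentiableAt (by norm_num)
  have hK : IsCompact (closedBall z0 R) := isCompact_closedBall _ _
  have hF0 : ∀ z ∈ closedBall z0 R, F z ≠ 0 := by
    intro z hz
    have h1 := (hRO hz).2.1.1
    simpa [hFdef, loc0] using h1
  obtain ⟨m, hm, hmF⟩ : ∃ m > 0, ∀ z ∈ closedBall z0 R, m ≤ ‖F z‖ := by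
    obtain ⟨z1, hz1, hmin⟩ := hK.exists_isMinOn ⟨z0, mem_closedBall_self hR.le⟩
      ((hFs.continuousOn.mono hRt).norm)
    exact ⟨‖F z1‖, norm_pos_iff.2 (hF0 z1 hz1), fun z hz => hmin hz⟩
  have hPF : ∀ z, LB.act (L.P (e.symm z)) (F z) = F z := fun z => sec_loc0 hfs 0 e z
  have hPW : ∀ z, LB.act (L.P (e.symm z)) (W z) = W z := fun z => sec_loc0 hws κ e z
  have hdF : ∀ z ∈ closedBall z0 R, ∀ i,
      LB.act (L.P (e.symm z)) (dzb i F z) + loc1 0 e a z i • F z = 0 := by
    intro z hz i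
    rw [← loc1_db0 L a he (hRt hz) (hFd z (hRt hz)) i]
    simp only [loc1, (hRO hz).2.1.2]
    simp
  have hdW : ∀ z ∈ closedBall z0 R, ∀ i,
      LB.act (L.P (e.symm z)) (dzb i W z) + loc1 0 e a z i • W z = loc1 κ e g z i := by
    intro z hz i
    rw [← loc1_db0 L a he (hRt hz) (hWd z (hRt hz)) i]
    simp only [loc1, (hRO hz).2.2]
  obtain ⟨Mu, hMu⟩ := H.bdd e he _ hRt hK
  obtain ⟨MW, hMW⟩ := hK.exists_bound_of_continuousOn (hWs.continuousOn.mono hRt)
  set s : ℕ → C2 → EuclideanSpace ℂ ι := fun n => loc0 κ e (u n) with hsdef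
  set c : ℕ → C2 → ℂ := fun n => coef F (fun z => s n z - W z) with hcdef
  have hsC1 : ∀ n, ContDiffOn ℝ 1 (s n) e.target := fun n => H.reg n e he
  have hcC1 : ∀ n, ContDiffOn ℝ 1 (c n) (closedBall z0 R) := by
    intro n
    refine coef_contDiffOn ((hFs.of_le (by norm_num)).mono hRt)
      (((hsC1 n).sub (hWs.of_le (by norm_num))).mono hRt) hF0
  have hcC1' : ∀ n, ContDiffOn ℝ 1 (c n) (ball z0 R) := fun n =>
    (hcC1 n).mono ball_subset_closedBall
  have hKc : IsCompact (e.symm '' closedBall z0 R) :=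
    hK.image_of_continuousOn (e.continuousOn_symm.mono hRt)
  have hrank : ∀ᶠ n in atTop, ∀ z ∈ closedBall z0 R, (Ln n).P (e.symm z) = L.P (e.symm z) ∧
      s n z - W z = c n z • F z := by
    filter_upwards [H.eqL _ hKc] with n hn z hz
    have h1 := hn (e.symm z) ⟨z, hz, rfl⟩
    refine ⟨h1, ?_⟩
    have h2 : LB.act (L.P (e.symm z)) (s n z - W z) = s n z - W z := by
      rw [act_sub, hPW, ← h1]
      rw [hsdef]
      simp only
      rw [sec_loc0 (H.sec n) κ e z]
    exact rank_one' (s := fun z => s n z - W z) (L.herm _) (L.idem _) (L.tr _) (hPF z) (hF0 z hz) h2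
  refine ⟨R, hR, hRt, F, W, c, m, m⁻¹ * (Mu + MW), hm, hFs, hWs, ?_, ?_, ?_⟩
  · intro z hz
    exact ⟨hmF z hz, hPF z, hdF z hz, hdW z hz⟩
  · filter_upwards [hrank, hMu] with n hn hb
    refine ⟨hcC1' n, ?_, ?_⟩
    · intro z hz
      have hz' := ball_subset_closedBall hz
      refine (norm_coef_le hm (hmF z hz')).trans ?_
      gcongr
      exact (norm_sub_le _ _).trans (add_le_add (hb z hz') (hMW z hz'))
    · intro z hz
      have h1 := (hn z (ball_subset_closedBall hz)).2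
      rw [← h1]
      simp [hsdef]
  · intro ε hε
    have hMu0 : 0 ≤ |Mu| := abs_nonneg _
    have h1 := Metric.tendstoUniformlyOn_iff.1 (H.db e he _ hRt hK) (m * ε / 2) (by positivity)
    have h2 := Metric.tendstoUniformlyOn_iff.1 (H.lima e he _ hRt hK) (m * ε / (2 * (|Mu| + 1)))
      (by positivity)
    filter_upwards [hrank, hMu, h1, h2] with n hn hb hdb ha z hz i
    have hz' := ball_subset_closedBall hz
    have hzt := hRt hz'
    have hsd : DifferentiableAt ℝ (s n) z :=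
      ((hsC1 n).contDiffAt (e.open_target.mem_nhds hzt)).differentiableAt (by norm_num)
    have hcd : DifferentiableAt ℝ (c n) z :=
      ((hcC1' n).contDiffAt (isOpen_ball.mem_nhds hz)).differentiableAt (by norm_num)
    have hev : (fun w => s n w - W w) =ᶠ[𝓝 z] fun w => c n w • F w := by
      filter_upwards [isOpen_ball.mem_nhds hz] with w hw
      exact (hn w (ball_subset_closedBall hw)).2
    have e1 := db_coef (P := L.P (e.symm z)) (A := loc1 0 e a z i) (i := i) hev hcd (hFd z hzt)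
      (hPF z) (hdF z hz' i)
    have e2 : dzb i (fun w => s n w - W w) z = dzb i (s n) z - dzb i W z :=
      dzb_sub hsd (hWd z hzt) i
    have e3 : loc1 κ e (LB.db0 (Ln n) (an n) κ (u n)) z i =
        LB.act (L.P (e.symm z)) (dzb i (s n) z) + loc1 0 e (an n) z i • s n z := by
      have := loc1_db0 (Ln n) (an n) he hzt hsd i
      rw [(hn z hz').1] at this
      exact this
    have e4 : dzb i (c n) z • F z = (loc1 κ e (LB.db0 (Ln n) (an n) κ (u n)) z i -
        loc1 κ e g z i) + (loc1 0 e a z i - loc1 0 e (an n) z i) • s n z := by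
      rw [← e1, e2, act_sub, e3, ← hdW z hz' i]
      module
    have h3 : ‖loc1 κ e (LB.db0 (Ln n) (an n) κ (u n)) z i - loc1 κ e g z i‖ ≤ m * ε / 2 := by
      have h4 := hdb z hz'
      rw [dist_eq_norm] at h4
      have h5 := norm_le_pi_norm (loc1 κ e g z - loc1 κ e (LB.db0 (Ln n) (an n) κ (u n)) z) i
      rw [norm_sub_rev]
      exact h5.trans h4.le
    have h4 : ‖loc1 0 e a z i - loc1 0 e (an n) z i‖ ≤ m * ε / (2 * (|Mu| + 1)) := by
      have h4 := ha z hz'
      rw [dist_eq_norm] at h4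
      have h5 := norm_le_pi_norm (loc1 0 e a z - loc1 0 e (an n) z) i
      exact h5.trans h4.le
    have h5 : ‖dzb i (c n) z‖ * m ≤ m * ε := by
      calc ‖dzb i (c n) z‖ * m ≤ ‖dzb i (c n) z‖ * ‖F z‖ := by
            gcongr
            exact hmF z hz'
        _ = ‖dzb i (c n) z • F z‖ := (norm_smul _ _).symm
        _ ≤ m * ε / 2 + m * ε / (2 * (|Mu| + 1)) * (|Mu| + 1) := by
            rw [e4]
            refine (norm_add_le _ _).trans (add_le_add h3 ?_)
            rw [norm_smul]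
            refine mul_le_mul h4 ((hb z hz').trans ?_) (norm_nonneg _) (by positivity)
            exact (le_abs_self _).trans (by linarith)
        _ = m * ε := by field_simp; ring
    nlinarith [h5]

/-- pointwise convergence of an equicontinuous sequence is uniform on compact sets -/
theorem _root_.Vale.Agent.P267.H378.unif_of_equi {E F : Type*} [PseudoMetricSpace E]
    [PseudoMetricSpace F] {K : Set E} (hK : IsCompact K) {s : ℕ → E → F} {S : E → F}
    (he : ∀ ε > 0, ∃ δ > 0, ∀ᶠ n in atTop, ∀ x ∈ K, ∀ y ∈ K, dist x y < δ →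
      dist (s n x) (s n y) < ε)
    (hp : ∀ x ∈ K, Tendsto (fun n => s n x) atTop (𝓝 (S x))) :
    TendstoUniformlyOn s S atTop K := by
  rw [Metric.tendstoUniformlyOn_iff]
  intro ε hε
  obtain ⟨δ, hδ, hev⟩ := he (ε / 4) (by positivity)
  obtain ⟨T, hTK, hTf, hT⟩ := hK.elim_finite_subcover_image (b := K) (c := fun x => ball x δ)
    (fun x _ => isOpen_ball) (fun x hx => mem_biUnion hx (mem_ball_self hδ))
  have hTev : ∀ᶠ n in atTop, ∀ t ∈ T, dist (S t) (s n t) < ε / 4 := by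
    rw [hTf.eventually_all]
    intro t ht
    have := (Metric.tendsto_nhds.1 (hp t (hTK ht))) (ε / 4) (by positivity)
    filter_upwards [this] with n hn
    rwa [dist_comm]
  have hS : ∀ x ∈ K, ∀ y ∈ K, dist x y < δ → dist (S x) (S y) ≤ ε / 4 := by
    intro x hx y hy hxy
    refine le_of_tendsto ((hp x hx).dist (hp y hy)) ?_
    filter_upwards [hev] with n hn
    exact (hn x hx y hy hxy).le
  filter_upwards [hev, hTev] with n hn hTn x hx
  obtain ⟨t, ht, hxt⟩ := mem_iUnion₂.1 (hT hx)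
  have hxt' : dist x t < δ := hxt
  have h1 := hn x hx t (hTK ht) hxt'
  have h2 := hTn t ht
  have h3 := hS x hx t (hTK ht) hxt'
  calc dist (S x) (s n x) ≤ dist (S x) (S t) + dist (S t) (s n t) + dist (s n t) (s n x) :=
        dist_triangle4 _ _ _ _
    _ < ε := by
        rw [dist_comm (s n t)]
        linarith

/-- local equicontinuity -/
theorem equi (H : NFHyp L a κ g Ln an u) {e : Ch X} (he : e ∈ atlas C2 X) {z0 : C2}
    (hz0 : z0 ∈ e.target) : ∃ r > 0, closedBall z0 r ⊆ e.target ∧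
      ∀ ε > 0, ∃ δ > 0, ∀ᶠ n in atTop, ∀ x ∈ closedBall z0 r, ∀ y ∈ closedBall z0 r,
        dist x y < δ → dist (loc0 κ e (u n) x) (loc0 κ e (u n) y) < ε := by
  obtain ⟨R, hR, hRt, F, W, c, m, M, hm, hF, hW, hloc, hc, hdb⟩ := H.local_data he hz0
  refine ⟨R / 12, by positivity, (closedBall_subset_closedBall (by linarith)).trans hRt, ?_⟩
  refine equi_of_coef (M := M) hR (hF.continuousOn.mono hRt) (hW.continuousOn.mono hRt)
    (s := fun n => loc0 κ e (u n)) (c := c) ?_
  filter_upwards [hc, hdb 1 one_pos] with n h1 h2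
  exact ⟨h1.1, h1.2.1, h2, h1.2.2⟩

/-- the limit of a pointwise convergent sequence -/
theorem limit (H : NFHyp L a κ g Ln an u) {v : X → EuclideanSpace ℂ ι}
    (hv : ∀ x, Tendsto (fun n => u n x) atTop (𝓝 (v x))) :
    Reg0 ∞ κ v ∧ L.Sec v ∧ LB.db0 L a κ v = g ∧ ∀ e ∈ atlas C2 X, ∀ K ⊆ e.target, IsCompact K →
      TendstoUniformlyOn (fun n => loc0 κ e (u n)) (loc0 κ e v) atTop K := by
  have hpt : ∀ (e : Ch X) (z : C2), Tendsto (fun n => loc0 κ e (u n) z) atTop
      (𝓝 (loc0 κ e v z)) := fun e z => (hv (e.symm z)).const_smul _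
  -- local analysis
  have hloc : ∀ e ∈ atlas C2 X, ∀ z0 ∈ e.target, ContDiffAt ℝ ∞ (loc0 κ e v) z0 ∧
      loc1 κ e (LB.db0 L a κ v) z0 = loc1 κ e g z0 := by
    intro e he z0 hz0
    obtain ⟨R, hR, hRt, F, W, c, m, M, hm, hF, hW, hloc, hc, hdb⟩ := H.local_data he hz0
    have hRb : ball z0 (R / 12) ⊆ ball z0 R := ball_subset_ball (by linarith)
    have hRc : closedBall z0 (R / 12) ⊆ closedBall z0 R :=
      closedBall_subset_closedBall (by linarith)
    have heq := equi_of_coef (M := M) hR (hF.continuousOn.mono hRt) (hW.continuousOn.mono hRt)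
      (s := fun n => loc0 κ e (u n)) (c := c) (by
        filter_upwards [hc, hdb 1 one_pos] with n h1 h2
        exact ⟨h1.1, h1.2.1, h2, h1.2.2⟩)
    have hu : TendstoUniformlyOn (fun n => loc0 κ e (u n)) (loc0 κ e v) atTop
        (closedBall z0 (R / 12)) :=
      unif_of_equi (isCompact_closedBall _ _) heq fun x _ => hpt e x
    obtain ⟨C, hC, hCS⟩ := limit_coef (z0 := z0) (r := R / 12) hm
      (fun z hz => (hloc z (ball_subset_closedBall (hRb hz))).1)
      (s := fun n => loc0 κ e (u n)) (S := loc0 κ e v) (c := c) (W := W) (by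
        filter_upwards [hc] with n hn
        exact ⟨hn.1.mono hRb, fun z hz => hn.2.2 z (hRb hz)⟩) (by
        intro ε hε
        filter_upwards [hdb ε hε] with n hn z hz i
        exact hn z (hRb hz) i) (hu.mono ball_subset_closedBall)
    have hb0 : z0 ∈ ball z0 (R / 12) := mem_ball_self (by positivity)
    have hCa : AnalyticAt ℂ C z0 :=
      Vale.Agent.P281.MF.analyticOnNhd_of_differentiableOn isOpen_ball hC z0 hb0
    have hCc : ContDiffAt ℝ ∞ C z0 := hCa.contDiffAt.restrict_scalars ℝ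
    have hFc : ContDiffAt ℝ ∞ F z0 := hF.contDiffAt (e.open_target.mem_nhds hz0)
    have hWc : ContDiffAt ℝ ∞ W z0 := hW.contDiffAt (e.open_target.mem_nhds hz0)
    have hev : loc0 κ e v =ᶠ[𝓝 z0] fun z => C z • F z + W z := by
      filter_upwards [isOpen_ball.mem_nhds hb0] with z hz using hCS z hz
    have hsm : ContDiffAt ℝ ∞ (loc0 κ e v) z0 := by
      refine ContDiffAt.congr_of_eventuallyEq ?_ hev
      exact (hCc.smul hFc).add hWc
    refine ⟨hsm, ?_⟩
    funext i
    have hz0c : z0 ∈ closedBall z0 R := mem_closedBall_self hR.le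
    obtain ⟨-, hPF, hdF, hdW⟩ := hloc z0 hz0c
    have hvd : DifferentiableAt ℝ (loc0 κ e v) z0 := hsm.differentiableAt (by norm_num)
    have hWd : DifferentiableAt ℝ W z0 := hWc.differentiableAt (by norm_num)
    have hev2 : (fun z => loc0 κ e v z - W z) =ᶠ[𝓝 z0] fun z => C z • F z := by
      filter_upwards [hev] with z hz
      rw [hz]
      abel
    have e1 := db_coef (P := L.P (e.symm z0)) (A := loc1 0 e a z0 i) (i := i) hev2
      (hCc.differentiableAt (by norm_num)) (hFc.differentiableAt (by norm_num)) hPF (hdF i)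
    rw [dzb_of_hol hCa.differentiableAt i, zero_smul] at e1
    have e2 : dzb i (fun w => loc0 κ e v w - W w) z0 = dzb i (loc0 κ e v) z0 - dzb i W z0 :=
      dzb_sub hvd hWd i
    rw [e2, act_sub] at e1
    rw [loc1_db0 L a he hz0 hvd i, ← hdW i, ← sub_eq_zero, ← e1]
    module
  refine ⟨fun e he z hz => (hloc e he z hz).1.contDiffWithinAt, ?_, ?_, ?_⟩
  · intro x
    have h1 : Tendsto (fun n => LB.act (L.P x) (u n x)) atTop (𝓝 (LB.act (L.P x) (v x))) :=
      ((continuous_act _).tendsto _).comp (hv x)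
    refine tendsto_nhds_unique h1 ((hv x).congr' ?_)
    filter_upwards [H.eqL {x} isCompact_singleton] with n hn
    have h2 := H.sec n x
    rw [hn x rfl] at h2
    exact h2.symm
  · funext x
    have h1 := (hloc _ (chart_mem_atlas C2 x) _ (mem_chart_target C2 x)).2
    rwa [loc1_chartAt, loc1_chartAt] at h1
  · intro e he
    rw [← tendstoLocallyUniformlyOn_iff_forall_isCompact e.open_target]
    rw [tendstoLocallyUniformlyOn_iff_filter]
    intro z0 hz0
    obtain ⟨r, hr, hrt, heq⟩ := H.equi he hz0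
    have hu : TendstoUniformlyOn (fun n => loc0 κ e (u n)) (loc0 κ e v) atTop
        (closedBall z0 r) :=
      unif_of_equi (isCompact_closedBall _ _) heq fun x _ => hpt e x
    have h2 := (tendstoUniformlyOn_iff_tendstoUniformlyOnFilter.1 hu)
    refine h2.mono_right ?_
    rw [le_principal_iff]
    exact mem_nhdsWithin_of_mem_nhds (closedBall_mem_nhds z0 hr)

/-- **Normal families** for sections of line bundles: an eventually locally bounded sequence of
almost holomorphic sections has a subsequence converging locally uniformly. -/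
theorem exists_subseq [SigmaCompactSpace X] (H : NFHyp L a κ g Ln an u) :
    ∃ φ : ℕ → ℕ, StrictMono φ ∧ ∃ v : X → EuclideanSpace ℂ ι, Reg0 ∞ κ v ∧ L.Sec v ∧
      LB.db0 L a κ v = g ∧ (∀ x, Tendsto (fun n => u (φ n) x) atTop (𝓝 (v x))) ∧
      ∀ e ∈ atlas C2 X, ∀ K ⊆ e.target, IsCompact K →
        TendstoUniformlyOn (fun n => loc0 κ e (u (φ n))) (loc0 κ e v) atTop K := by
  have hch : ∀ x : X, ∃ r > 0, closedBall (chartAt C2 x x) r ⊆ (chartAt C2 x).target ∧
      ∀ ε > 0, ∃ δ > 0, ∀ᶠ n in atTop, ∀ y ∈ closedBall (chartAt C2 x x) r,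
        ∀ z ∈ closedBall (chartAt C2 x x) r, dist y z < δ →
        dist (loc0 κ (chartAt C2 x) (u n) y) (loc0 κ (chartAt C2 x) (u n) z) < ε := fun x =>
    H.equi (chart_mem_atlas C2 x) (mem_chart_target C2 x)
  choose r hr hrt heq using hch
  let N : X → Set X := fun x => (chartAt C2 x).source ∩ chartAt C2 x ⁻¹' ball (chartAt C2 x x) (r x)
  have hN : ∀ x, N x ∈ 𝓝 x := by
    intro x
    refine inter_mem (chart_source_mem_nhds C2 x) ?_
    exact ((chartAt C2 x).continuousAt (mem_chart_source C2 x)).preimage_mem_nhds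
      (ball_mem_nhds _ (hr x))
  obtain ⟨S, hS, hcov⟩ := countable_cover_nhds_of_sigmaCompact hN
  have : Countable S := hS.to_subtype
  obtain ⟨φ, hφ, hlim⟩ := exists_common_subseq
    (K := fun x : S => closedBall (chartAt C2 (x : X) (x : X)) (r x))
    (fun x => isCompact_closedBall _ _)
    (fun (x : S) n => loc0 κ (chartAt C2 (x : X)) (u n))
    (fun x => by
      obtain ⟨M, hM⟩ := H.bdd _ (chart_mem_atlas C2 (x : X)) _ (hrt x) (isCompact_closedBall _ _)
      refine ⟨0, M, ?_⟩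
      filter_upwards [hM] with n hn y hy
      rw [dist_zero_right]
      exact hn y hy)
    (fun x => heq x)
  have hpt : ∀ y : X, ∃ l : EuclideanSpace ℂ ι, Tendsto (fun n => u (φ n) y) atTop (𝓝 l) := by
    intro y
    have hy : y ∈ ⋃ x ∈ S, N x := by rw [hcov]; trivial
    obtain ⟨x, hx, hyx⟩ := mem_iUnion₂.1 hy
    obtain ⟨G, -, hG⟩ := hlim ⟨x, hx⟩
    have h1 := hG.tendsto_at (ball_subset_closedBall hyx.2)
    have hdet : (jac (chartAt C2 x) y).det ^ κ ≠ 0 :=
      zpow_ne_zero _ (jac_det_ne_zero (chart_mem_atlas C2 x) hyx.1)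
    refine ⟨((jac (chartAt C2 x) y).det ^ κ)⁻¹ • G (chartAt C2 x y), ?_⟩
    have h2 := h1.const_smul ((jac (chartAt C2 x) y).det ^ κ)⁻¹
    refine h2.congr fun n => ?_
    simp only
    rw [loc0_source hyx.1, smul_smul, inv_mul_cancel₀ hdet, one_smul]
  choose v hv using hpt
  obtain ⟨h1, h2, h3, h4⟩ := (H.comp hφ).limit hv
  exact ⟨φ, hφ, v, h1, h2, h3, hv, h4⟩

end NFHyp

end

end Vale.Agent.P267.H378
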