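import Vale.Agent.P267.H378.NFfin
import Vale.Agent.P267.H181.Frm

/-!
# P267 / H378: final theorem of XT-NF: `D.NF`
-/

set_option linter.all false

open Set Filter Topology Metric Complex
open scoped ContDiff Real ComplexConjugate Manifold Matrix ComplexOrder

namespace Vale.Agent.P267.H378

open Vale.Agent.P267.FL Vale.Agent.P267.XT

/-- **NF**: compactness of sequences of almost holomorphic sections on the covering. -/
theorem nf {M : Type} [TopologicalSpace M] [T2Space M] [ChartedSpace C2 M]
    [IsManifold 𝓘(ℂ, C2) ω M] (D : XTData M) : D.NF :=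
  nf_of D (fun ι _ _ L a hL => H181.hasFrames hL)
    (fun ι _ _ L a hL κ g h1 h2 h3 => H181.locSol hL h1 h2 h3)

end Vale.Agent.P267.H378
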