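import Vale.Agent.P267.H378.Scal
import Vale.Agent.P267.H781.Comb

/-!
# P267 / H378 (GX-FRAME): existence of the base indices of the recursion
-/

set_option linter.all false

open Set

namespace Vale.Agent.P267.H378

open Vale.Agent.P267.H781 Vale.Agent.P267.H585

noncomputable section

variable {n : ℕ} {s : ℤ → ℕ}

theorem iv_eq_Ico (s : ℤ → ℕ) (l : ℤ) : Iv s l = Finset.Ico (l - s l) l := by
  ext x
  rw [mem_Iv, Finset.mem_Ico]
  omega

theorem ico_nonempty {s : ℤ → ℕ} {l : ℤ} (h : 1 ≤ s l) : (Finset.Ico (l - s l) l).Nonempty := by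
  rw [Finset.nonempty_Ico]
  omega

/-- CASE A -/
theorem base_caseA (hw : Word s) {i : ℤ} (hA : ∀ l, i ∈ Iv s l → l = i + 1) :
    ∃ Bs nn Nn, BaseIn n s i Bs nn Nn 1 1 := by
  classical
  set m := mu s with hm'
  have hm : Mult s m := mu_mult s
  have hp : 1 ≤ m (i + 1 + n) (i + 1) := hm.one_le hw (by omega)
  set nn : ℤ → ℤ → ℕ := fun l c => if c = i + 1 then m l (i + 1) else 0 with hnn
  have hpn : 1 ≤ nn (i + 1 + n) (i + 1) := by simp only [hnn, if_true]; exact hp
  obtain ⟨h1, h2⟩ := one_base (b := i + 1) (nn := nn) (p := n) hpn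
  refine ⟨{i + 1}, nn, _, ?_, ?_, ?_, ?_, ?_, h1, one_pos, h2⟩
  · intro b hb
    rw [Finset.mem_singleton] at hb
    omega
  · intro l hl hlB j hj
    rw [Finset.mem_singleton] at hlB
    rw [← iv_eq_Ico] at hj
    have h3 := lt_of_caseA hA (by omega) hj
    rw [mem_Iv] at hj
    rw [Finset.mem_Ioo]
    omega
  · intro l hl hlB
    exact ico_nonempty (hw.one_le l)
  · intro b hb c
    rw [Finset.mem_singleton] at hb
    subst hb
    simp only [hnn, hm.self]
    by_cases h : c = i + 1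
    · rw [if_pos h, if_pos h.symm]
    · rw [if_neg h, if_neg (Ne.symm h)]
  · intro l hl hlB c
    rw [Finset.mem_singleton] at hlB
    simp only [hnn]
    split_ifs
    · rw [hm.step_ne hlB, iv_eq_Ico]
    · simp

/-- CASE B -/
theorem base_caseB (hw : Word s) (hn : 0 < n) (hper : ∀ l, s (l + n) = s l)
    (hB : ∀ i, ∃ q, i + 2 ≤ q ∧ i ∈ Iv s q) (i : ℤ) :
    ∃ Bs nn Nn lam, BaseIn n s i Bs nn Nn 1 lam := by
  classical
  obtain ⟨q, hq, hiq⟩ := hB i
  have hB' : ∀ l, i ∈ Iv s l → (l = i + 1 ∨ l = q) := by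
    intro l hl
    by_cases h2 : i + 2 ≤ l
    · exact Or.inr (hw.parent_unique hl h2 hiq hq)
    · rw [mem_Iv] at hl
      exact Or.inl (by omega)
  set m := mu s with hm'
  have hm : Mult s m := mu_mult s
  -- multiplicities relative to the two base indices
  have hI : ∀ l, i < l → l ∉ ({i + 1, q} : Finset ℤ) → Finset.Ico (l - s l) l ⊆
      Finset.Ioo i l := by
    intro l hl hlB j hj
    rw [Finset.mem_insert, Finset.mem_singleton, not_or] at hlB
    rw [← iv_eq_Ico] at hj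
    have h3 := lt_of_caseB hB' (by omega) hlB.2 hj
    rw [mem_Iv] at hj
    rw [Finset.mem_Ioo]
    omega
  have hex : ∀ c : ℤ, ∃ f : ℤ → ℕ, (∀ b ∈ ({i + 1, q} : Finset ℤ), f b = if b = c then 1 else 0) ∧
      ∀ l, i < l → l ∉ ({i + 1, q} : Finset ℤ) → f l = ∑ j ∈ Finset.Ico (l - s l) l, f j + 0 :=
    fun c => DSys.exists_solution i {i + 1, q} (fun l => Finset.Ico (l - s l) l) hI
      (fun b => if b = c then 1 else 0) 0
  choose f hf0 hf1 using hex
  -- relations with the multiplicities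
  have hmem1 : i + 1 ∈ ({i + 1, q} : Finset ℤ) := by simp
  have hmem2 : q ∈ ({i + 1, q} : Finset ℤ) := by simp
  have e1 : ∀ l, i < l → f q l = m l q := by
    refine DSys.ind_above fun l hl ih => ?_
    by_cases h1 : l = i + 1
    · subst h1
      rw [hf0 q _ hmem1, if_neg (by omega), hm.zero _ _ (by omega)]
    by_cases h2 : l = q
    · subst h2
      rw [hf0 l _ hmem2, if_pos rfl, hm.self]
    · have h3 : l ∉ ({i + 1, q} : Finset ℤ) := by simp [h1, h2]
      rw [hf1 q l hl h3, hm.step_ne h2, add_zero, ← iv_eq_Ico]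
      refine Finset.sum_congr rfl fun j hj => ?_
      have h4 := lt_of_caseB hB' (by omega) h2 hj
      rw [mem_Iv] at hj
      exact ih j h4 (by omega)
  have e2 : ∀ l, i < l → f (i + 1) l + m l q * m q (i + 1) = m l (i + 1) := by
    refine DSys.ind_above fun l hl ih => ?_
    by_cases h1 : l = i + 1
    · subst h1
      rw [hf0 _ _ hmem1, if_pos rfl, hm.zero _ _ (by omega), zero_mul, hm.self, add_zero]
    by_cases h2 : l = q
    · subst h2
      rw [hf0 _ _ hmem2, if_neg (by omega), hm.self, one_mul, zero_add]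
    · have h3 : l ∉ ({i + 1, q} : Finset ℤ) := by simp [h1, h2]
      rw [hf1 _ l hl h3, hm.step_ne h2, hm.step_ne h1, add_zero, ← iv_eq_Ico, Finset.sum_mul,
        ← Finset.sum_add_distrib]
      refine Finset.sum_congr rfl fun j hj => ?_
      have h4 := lt_of_caseB hB' (by omega) h2 hj
      rw [mem_Iv] at hj
      exact ih j h4 (by omega)
  set P : Matrix ({i + 1, q} : Finset ℤ) ({i + 1, q} : Finset ℤ) ℂ :=
    DSys.perM {i + 1, q} (fun l c => f c l) n with hP
  -- the determinant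
  have hiqn : i + n ∈ Iv s (q + n) := by
    rw [mem_Iv] at hiq ⊢
    rw [hper]
    omega
  have hdet := hm.det hw hB hq hiq n (q + n) (by omega) hiqn
  set a11 : ℤ := (f (i + 1) (i + 1 + n) : ℤ) with ha11
  set a12 : ℤ := (f q (i + 1 + n) : ℤ) with ha12
  set a21 : ℤ := (f (i + 1) (q + n) : ℤ) with ha21
  set a22 : ℤ := (f q (q + n) : ℤ) with ha22
  have hd : a11 * a22 - a12 * a21 = 1 ∨ a11 * a22 - a12 * a21 = -1 := by
    have b1 : (m (i + 1 + n) q : ℤ) = a12 := by rw [ha12, e1 _ (by omega)]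
    have b2 : (m (q + n) q : ℤ) = a22 := by rw [ha22, e1 _ (by omega)]
    have b3 : (m (i + 1 + n) (i + 1) : ℤ) = a11 + a12 * m q (i + 1) := by
      rw [← e2 _ (by omega), ← b1]; push_cast; ring
    have b4 : (m (q + n) (i + 1) : ℤ) = a21 + a22 * m q (i + 1) := by
      rw [← e2 _ (by omega), ← b2]; push_cast; ring
    rw [show i + (n : ℤ) + 1 = i + 1 + n by ring, b1, b2, b3, b4] at hdet
    rcases hdet with h | h
    · left; linear_combination h
    · right; linear_combination h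
  have hne : i + 1 ≠ q := by omega
  -- the inverse
  set u1 : ({i + 1, q} : Finset ℤ) := ⟨i + 1, hmem1⟩ with hu1
  set u2 : ({i + 1, q} : Finset ℤ) := ⟨q, hmem2⟩ with hu2
  have hu12 : u1 ≠ u2 := fun h => hne (congrArg Subtype.val h)
  have hall : ∀ c : ({i + 1, q} : Finset ℤ), c = u1 ∨ c = u2 := by
    intro c
    have := c.2
    rw [Finset.mem_insert, Finset.mem_singleton] at this
    rcases this with h | h
    · exact Or.inl (Subtype.ext h)
    · exact Or.inr (Subtype.ext h)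
  have huniv : (Finset.univ : Finset ({i + 1, q} : Finset ℤ)) = {u1, u2} := by
    ext c
    simp only [Finset.mem_univ, Finset.mem_insert, Finset.mem_singleton, true_iff]
    exact hall c
  have hsum : ∀ g : ({i + 1, q} : Finset ℤ) → ℂ, ∑ c, g c = g u1 + g u2 := by
    intro g
    rw [huniv, Finset.sum_pair hu12]
  set δ : ℂ := ((a11 * a22 - a12 * a21 : ℤ) : ℂ) with hδ
  have hδ2 : δ * δ = 1 := by
    rcases hd with h | h <;> rw [hδ, h] <;> norm_num
  set Nn : Matrix ({i + 1, q} : Finset ℤ) ({i + 1, q} : Finset ℤ) ℂ := Matrix.of fun b c =>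
    if b = u1 then (if c = u1 then δ * a22 else -(δ * a12))
    else (if c = u1 then -(δ * a21) else δ * a11) with hNn
  have p11 : P u1 u1 = (a11 : ℂ) := by rw [hP, DSys.perM, Matrix.of_apply, ha11]; simp [hu1]
  have p12 : P u1 u2 = (a12 : ℂ) := by rw [hP, DSys.perM, Matrix.of_apply, ha12]; simp [hu1, hu2]
  have p21 : P u2 u1 = (a21 : ℂ) := by rw [hP, DSys.perM, Matrix.of_apply, ha21]; simp [hu1, hu2]
  have p22 : P u2 u2 = (a22 : ℂ) := by rw [hP, DSys.perM, Matrix.of_apply, ha22]; simp [hu2]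
  have n11 : Nn u1 u1 = δ * a22 := by rw [hNn, Matrix.of_apply, if_pos rfl, if_pos rfl]
  have n12 : Nn u1 u2 = -(δ * a12) := by
    rw [hNn, Matrix.of_apply, if_pos rfl, if_neg hu12.symm]
  have n21 : Nn u2 u1 = -(δ * a21) := by
    rw [hNn, Matrix.of_apply, if_neg hu12.symm, if_pos rfl]
  have n22 : Nn u2 u2 = δ * a11 := by
    rw [hNn, Matrix.of_apply, if_neg hu12.symm, if_neg hu12.symm]
  have hδe : δ = a11 * a22 - a12 * a21 := by rw [hδ]; push_cast; ring
  have hinv : Nn * P = 1 := by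
    ext b c
    rw [Matrix.mul_apply, hsum]
    rcases hall b with rfl | rfl <;> rcases hall c with rfl | rfl
    · rw [n11, n12, p11, p21, Matrix.one_apply_eq]
      rw [← hδ2]
      nth_rewrite 4 [hδe]
      ring
    · rw [n11, n12, p12, p22, Matrix.one_apply_ne hu12]
      ring
    · rw [n21, n22, p11, p21, Matrix.one_apply_ne hu12.symm]
      ring
    · rw [n21, n22, p12, p22, Matrix.one_apply_eq]
      rw [← hδ2]
      nth_rewrite 4 [hδe]
      ring
  obtain ⟨M, hM⟩ : ∃ M : ℝ, ∀ b c, ‖Nn b c‖ ≤ M := by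
    refine ⟨∑ b, ∑ c, ‖Nn b c‖, fun b c => ?_⟩
    refine (Finset.single_le_sum (f := fun c => ‖Nn b c‖) (fun _ _ => norm_nonneg _)
      (Finset.mem_univ c)).trans ?_
    exact Finset.single_le_sum (f := fun b => ∑ c, ‖Nn b c‖)
      (fun _ _ => Finset.sum_nonneg fun _ _ => norm_nonneg _) (Finset.mem_univ b)
  refine ⟨{i + 1, q}, fun l c => f c l, Nn, _, ?_, hI, fun l _ _ => ico_nonempty (hw.one_le l),
    fun b hb c => hf0 c b hb, fun l hl hlB c => ?_, hinv, lt_of_lt_of_le one_pos (le_max_left _ _),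
    pow_entry_le Nn hM⟩
  · intro b hb
    rw [Finset.mem_insert, Finset.mem_singleton] at hb
    omega
  · rw [hf1 c l hl hlB, add_zero]

/-- **the base indices** -/
theorem exists_base (hn : 0 < n) (h1 : ∀ l, 1 ≤ s l) (hper : ∀ l, s (l + n) = s l)
    (hw : ∀ l j : ℤ, l - s l + 2 ≤ j → j ≤ l - 1 → s j = 1) :
    ∃ i Bs nn Nn K lam, BaseIn n s i Bs nn Nn K lam ∧ (lam = 1 ∨ ∃ l, 2 ≤ s l) := by
  have hW : Word s := ⟨h1, hw⟩
  by_cases hA : ∃ i, ∀ l, i ∈ Iv s l → l = i + 1
  · obtain ⟨i, hi⟩ := hA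
    obtain ⟨Bs, nn, Nn, h⟩ := base_caseA (n := n) hW hi
    exact ⟨i, Bs, nn, Nn, 1, 1, h, Or.inl rfl⟩
  · push Not at hA
    have hB : ∀ i, ∃ q, i + 2 ≤ q ∧ i ∈ Iv s q := by
      intro i
      obtain ⟨q, hq, hne⟩ := hA i
      refine ⟨q, ?_, hq⟩
      rw [mem_Iv] at hq
      omega
    obtain ⟨Bs, nn, Nn, lam, h⟩ := base_caseB hW hn hper hB 0
    obtain ⟨q, hq, hiq⟩ := hB 0
    exact ⟨0, Bs, nn, Nn, 1, lam, h, Or.inr ⟨q, Word.two_le hiq hq⟩⟩

end

end Vale.Agent.P267.H378
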