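import Vale.Agent.P267.H378.Gauge
import Vale.Agent.P267.H646.Ex
import Vale.Agent.P267.H457.Chain

/-!
# P267 / H378 (GX-FRAME): the scalar data of a `Chain`
-/

set_option linter.all false

open Set Filter Topology Metric Complex
open scoped ContDiff Real ComplexConjugate Manifold Matrix ComplexOrder

namespace Vale.Agent.P267.H378

open Vale.Agent.P267.FL Vale.Agent.P267.XT Vale.Agent.P267.H585 Vale.Agent.P267.LineX
open Vale.Agent.P267.H158

noncomputable section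

variable {X : Type} [TopologicalSpace X] [ChartedSpace C2 X] [IsManifold 𝓘(ℂ, C2) ω X] {n : ℕ}

section block

variable (O : BlockOut X n)

/-- the component of the section `α_b` at the inner end -/
def zb (b : Fin n × ℤ) (x : Cov O.B.hh) : ℂ := O.bα b x (O.i₀ b.1)

theorem zb_shift (b : Fin n × ℤ) (x : Cov O.B.hh) :
    zb O (b.1, b.2 + 1) x = zb O b (O.B.D.sh (-1) x) := by
  simp only [zb, BlockOut.bα]
  rw [← O.B.D.sh_add, show -(b.2 + 1) = -b.2 + -1 by ring]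

theorem ba_shift (b : Fin n × ℤ) (x : Cov O.B.hh) :
    O.ba (b.1, b.2 + 1) x = O.ba b (O.B.D.sh (-1) x) := by
  simp only [BlockOut.ba]
  rw [← O.B.D.sh_add, show -(b.2 + 1) = -b.2 + -1 by ring]

theorem zb_at (b : Fin n × ℤ) (x : Cov O.B.hh) : At0 ∞ 0 (zb O b) x := by
  have h1 : At0 ∞ 0 (fun y => H706.pr (O.i₀ b.1) (O.α b.1 y)) (O.B.D.sh (-b.2) x) :=
    ((O.cone b.1).α_reg.at _).clm (H706.pr (O.i₀ b.1))
  exact at0_sh O.B.D (-b.2) h1

theorem zb_eq (b : Fin n × ℤ) {x : Cov O.B.hh} (hx : O.R ≤ |O.B.D.f x - b.2|) :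
    (∀ i, dbar0 0 (zb O b) x i = -(O.ba b x i) * zb O b x) ∧ ‖O.bα b x‖ = ‖zb O b x‖ := by
  have hC := O.cone b.1
  have hf : O.B.D.f (O.B.D.sh (-b.2) x) = O.B.D.f x - b.2 := by
    rw [O.B.D.f_sh]; push_cast; ring
  have h1 := end_eq (a := O.a b.1) hC.α_reg hC.α_sec hC.α_hol
    ((O.full b.1).ends.ends (O.B.D.sh (-b.2) x) (by rw [hf]; exact hx))
  refine ⟨fun i => ?_, h1.2⟩
  have h2 : dbar0 0 (zb O b) x i =
      dbar0 0 (fun y => O.α b.1 y (O.i₀ b.1)) (O.B.D.sh (-b.2) x) i := by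
    have := (O.B.D.chartMap_sh (-b.2)).dbar0_comp 0 (fun y => O.α b.1 y (O.i₀ b.1)) x
    exact congrFun this i
  rw [h2, h1.1 i]
  rfl

theorem ba_at (b : Fin n × ℤ) (x : Cov O.B.hh) : At1 ∞ 0 (O.ba b) x :=
  at1_sh O.B.D (-b.2) (((O.cone b.1).hol.smooth).at _)

theorem ba_closed (b : Fin n × ℤ) {x : Cov O.B.hh} (hx : O.R < |O.B.D.f x - b.2|) :
    dbar1 0 (O.ba b) x = 0 := by
  have hf : O.B.D.f (O.B.D.sh (-b.2) x) = O.B.D.f x - b.2 := by
    rw [O.B.D.f_sh]; push_cast; ring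
  have h1 := (O.B.D.chartMap_sh (-b.2)).dbar1_comp 0 (O.a b.1) x
  have h2 := (O.cone b.1).hol.integrable (O.B.D.sh (-b.2) x)
  rw [H646.F02_end O.B.D (O.full b.1).ends.ends (by rw [hf]; exact hx), add_zero] at h2
  rw [← h2, ← h1]
  rfl

theorem ba_bd (b : Fin n × ℤ) : ∃ C : ℝ, 0 ≤ C ∧ ∀ x, O.B.D.f x < b.2 →
    n1 O.B.D.h 0 (O.ba b) x ≤ C * Real.exp (O.N₀ * O.B.D.f x) := by
  obtain ⟨C, hC⟩ := (O.full b.1).ends.decay
  refine ⟨|C| * Real.exp (-(O.N₀ * b.2)), by positivity, fun x hx => ?_⟩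
  have hf : O.B.D.f (O.B.D.sh (-b.2) x) = O.B.D.f x - b.2 := by
    rw [O.B.D.f_sh]; push_cast; ring
  have e0 : n1 O.B.D.h 0 (O.ba b) x = n1 O.B.D.h 0 (O.a b.1) (O.B.D.sh (-b.2) x) :=
    O.B.D.n1_comp_sh 0 (-b.2) _ x
  rw [e0]
  refine (hC _).trans ?_
  rw [hf, abs_of_neg (by linarith), mul_assoc, ← Real.exp_add]
  refine mul_le_mul (le_abs_self _) (Real.exp_le_exp.2 (le_of_eq (by ring))) (Real.exp_pos _).le
    (abs_nonneg _)

theorem bα_dense (b : Fin n × ℤ) : Dense {x | O.bα b x ≠ 0} ∧ IsOpen {x | O.bα b x ≠ 0} := by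
  have hc : Continuous (O.α b.1) := (O.cone b.1).α_reg.continuous
  refine ⟨?_, isOpen_ne_fun (hc.comp (O.B.D.continuous_sh _)) continuous_const⟩
  have h1 := (O.cone b.1).α_dense
  have h2 : {x | O.bα b x ≠ 0} = (O.B.D.γ ^ (-b.2)) ⁻¹' {x | O.α b.1 x ≠ 0} := rfl
  rw [h2]
  exact h1.preimage (O.B.D.γ ^ (-b.2)).isOpenMap

/-- the limit principle with an unspecified rate -/
theorem limP_zero (i : Fin n) : LimP O.B.D 0 (O.d₀ / 4) (O.d₀ / 4) := by
  rintro u hu ⟨C, hC⟩ ⟨C', hC'⟩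
  obtain ⟨b, ε, hε, A, hA⟩ := (O.cone i).A5 u
    ⟨hu, C, fun x => by rw [neg_mul]; exact hC x⟩ (O.d₀ / 4) (O.cone i).d_pos ⟨C', hC'⟩
  exact ⟨b, ε, A, hε, hA⟩

/-- the limit principle with a prescribed rate -/
theorem limP_root {lo ε₁ : ℝ} (hlo : 0 ≤ lo) (hε : lo < ε₁)
    (hroot : O.B.D.RootGap (2 * ε₁)) : LimP O.B.D lo (2 * ε₁) ε₁ := by
  rintro u hu ⟨C, hC⟩ ⟨C', hC'⟩
  have h0 : 0 < ε₁ := lt_of_le_of_lt hlo hε
  obtain ⟨b, A, hA⟩ := H706.lim_in O.B.D hroot h0 (by linarith)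
    (O.t1o _ hroot ε₁ h0 (by linarith)) hu (fun x _ => hC x) (C' := C') hC'
  exact ⟨b, ε₁, A, hε, hA⟩

end block

section chain

variable {O : BlockOut X n} (G : Chain O)

theorem symm_add (l : ℤ) :
    G.ord.symm (l + n) = ((G.ord.symm l).1, (G.ord.symm l).2 + 1) := by
  rw [Equiv.symm_apply_eq, G.ord_shift]
  simp

include G in
theorem n_pos : 0 < n := by
  rcases Nat.eq_zero_or_pos n with h | h
  · subst h
    exact (G.ord.symm 0).1.elim0
  · exact h

/-- the scalar data of the chain, with the given holomorphic structures -/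
theorem scalIn : ScalIn O.B.D n G.s (fun l => zb O (G.ord.symm l))
    (fun l => O.ba (G.ord.symm l)) O.N₀ 0 where
  n_pos := n_pos G
  s_per := G.s_per
  z_per l x := by rw [symm_add, zb_shift]
  A_per l x := by rw [symm_add, ba_shift]
  cl l := ⟨(G.ord.symm l).2 - O.R, fun x hx => ba_closed O _ (by
    rw [abs_of_neg]
    · linarith
    · have := O.R_nonneg (G.ord.symm l).1
      linarith)⟩
  step l := by
    classical
    set I := Finset.Ico (l - G.s l) l with hI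
    obtain ⟨K, hK, hKb⟩ := G.Nc_in l
    obtain ⟨m, hm⟩ : ∃ m : ℝ, ∀ j ∈ insert l I, m ≤ (G.ord.symm j).2 - O.R := by
      obtain ⟨j₀, -, hj₀⟩ := (insert l I).exists_min_image
        (fun j => ((G.ord.symm j).2 : ℝ) - O.R) ⟨l, Finset.mem_insert_self _ _⟩
      exact ⟨_, hj₀⟩
    have hR : 0 ≤ O.R := O.R_nonneg (G.ord.symm l).1
    set c : ℝ := min m (-K) with hc
    have hcb : ∀ j ∈ insert l I, ∀ x, O.B.D.f x < c →
        O.B.D.f x < (G.ord.symm j).2 - O.R := fun j hj x hx =>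
      (hx.trans_le (min_le_left _ _)).trans_le (hm j hj)
    have hab : ∀ j ∈ insert l I, ∀ x, O.B.D.f x < c →
        O.R < |O.B.D.f x - (G.ord.symm j).2| := by
      intro j hj x hx
      have := hcb j hj x hx
      rw [abs_of_neg (by linarith)]
      linarith
    have hlI : l ∈ insert l I := Finset.mem_insert_self _ _
    have hjI : ∀ j ∈ I, j ∈ insert l I := fun j hj => Finset.mem_insert_of_mem hj
    set W : Set (Cov O.B.hh) := {x | O.B.D.f x < c} with hWdef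
    have hW : IsOpen W := isOpen_lt (H706.continuous_f O.B.D) continuous_const
    have hdense : ∀ x, O.B.D.f x < c → ∃ᶠ w in 𝓝 x, ∏ j ∈ I, zb O (G.ord.symm j) w ≠ 0 := by
      intro x hx
      have h1 : Dense {w | ∀ j ∈ I, O.bα (G.ord.symm j) w ≠ 0} ∧
          IsOpen {w | ∀ j ∈ I, O.bα (G.ord.symm j) w ≠ 0} := by
        generalize I = J
        induction J using Finset.induction_on with
        | empty => simp
        | insert a J ha ih =>
          have h2 : {w | ∀ j ∈ insert a J, O.bα (G.ord.symm j) w ≠ 0} =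
              {w | O.bα (G.ord.symm a) w ≠ 0} ∩ {w | ∀ j ∈ J, O.bα (G.ord.symm j) w ≠ 0} := by
            ext w
            simp [Finset.forall_mem_insert]
          rw [h2]
          have h3 := bα_dense O (G.ord.symm a)
          exact ⟨h3.1.inter_of_isOpen_left ih.1 h3.2, h3.2.inter ih.2⟩
      have h2 : ∃ᶠ w in 𝓝 x, w ∈ {w | ∀ j ∈ I, O.bα (G.ord.symm j) w ≠ 0} :=
        mem_closure_iff_frequently.1 (h1.1 x)
      refine (h2.and_eventually (hW.mem_nhds hx)).mono ?_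
      rintro w ⟨hw, hwW⟩
      rw [Finset.prod_ne_zero_iff]
      intro j hj h0
      have h3 := (zb_eq O (G.ord.symm j) (hab j (hjI j hj) w hwW).le).2
      rw [h0, norm_zero] at h3
      exact hw j hj (norm_eq_zero.1 h3)
    have hdiv : ∀ x ∈ W, ‖zb O (G.ord.symm l) x‖ ^ 2 =
        G.Nc l x * ∏ j ∈ I, ‖zb O (G.ord.symm j) x‖ ^ 2 := by
      intro x hx
      have h1 := G.div l x
      simp only [BlockOut.N] at h1
      rw [(zb_eq O (G.ord.symm l) (hab l hlI x hx).le).2] at h1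
      rw [h1]
      congr 1
      exact Finset.prod_congr rfl fun j hj => by
        rw [(zb_eq O (G.ord.symm j) (hab j (hjI j hj) x hx).le).2]
    have hNcb : ∀ x ∈ W, K⁻¹ ≤ G.Nc l x ∧ G.Nc l x ≤ K := fun x hx =>
      hKb x ((show O.B.D.f x < c from hx).le.trans (min_le_right _ _))
    refine ⟨c, fun x hx => ⟨zb_at O _ x, (zb_eq O _ (hab l hlI x hx).le).1⟩,
      fun j hj x hx => ⟨zb_at O _ x, (zb_eq O _ (hab j (hjI j hj) x hx).le).1⟩,
      fun x _ => ba_at O _ x, fun j _ x _ => ba_at O _ x, ?_, fun j hj => ?_, hdense,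
      fun x hx => ?_, ⟨Real.sqrt K, fun x hx => ?_⟩, ⟨Real.sqrt K, fun x hx => ?_⟩⟩
    · obtain ⟨C, -, hC⟩ := ba_bd O (G.ord.symm l)
      exact ⟨C, fun x hx => hC x (by have := hcb l hlI x hx; linarith)⟩
    · obtain ⟨C, -, hC⟩ := ba_bd O (G.ord.symm j)
      exact ⟨C, fun x hx => hC x (by have := hcb j (hjI j hj) x hx; linarith)⟩
    · exact exists_tau hW (fun x hx => ⟨zb_at O _ x, (zb_eq O _ (hab l hlI x hx).le).1⟩)
        (fun j hj x hx => ⟨zb_at O _ x, (zb_eq O _ (hab j (hjI j hj) x hx).le).1⟩)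
        (fun x hx => ⟨ba_at O _ x, ba_closed O _ (hab l hlI x hx)⟩)
        (fun j hj x hx => ⟨ba_at O _ x, ba_closed O _ (hab j (hjI j hj) x hx)⟩)
        (G.Nc_norm l).continuous.continuousOn
        (fun x hx => (inv_pos.2 hK).trans_le (hNcb x hx).1) hdiv
        (fun x hx => hdense x hx) hx
    · rw [zero_mul, neg_zero, Real.exp_zero, mul_one]
      have h1 := hdiv x hx
      have h2 : ‖zb O (G.ord.symm l) x‖ ^ 2 ≤
          (Real.sqrt K * ‖∏ j ∈ I, zb O (G.ord.symm j) x‖) ^ 2 := by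
        rw [h1, mul_pow, Real.sq_sqrt hK.le, norm_prod, Finset.prod_pow]
        exact mul_le_mul_of_nonneg_right (hNcb x hx).2 (sq_nonneg _)
      exact (pow_le_pow_iff_left₀ (norm_nonneg _) (by positivity) two_ne_zero).1 h2
    · rw [zero_mul, neg_zero, Real.exp_zero, mul_one]
      have h1 := hdiv x hx
      have h2 : ‖∏ j ∈ I, zb O (G.ord.symm j) x‖ ^ 2 ≤
          (Real.sqrt K * ‖zb O (G.ord.symm l) x‖) ^ 2 := by
        rw [mul_pow, Real.sq_sqrt hK.le, h1, norm_prod, Finset.prod_pow, ← mul_assoc]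
        refine le_mul_of_one_le_left (sq_nonneg _) ?_
        have h3 := mul_le_mul_of_nonneg_left (hNcb x hx).1 hK.le
        rwa [mul_inv_cancel₀ hK.ne'] at h3
      exact (pow_le_pow_iff_left₀ (norm_nonneg _) (by positivity) two_ne_zero).1 h2

end chain

end

end Vale.Agent.P267.H378
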