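import Vale.Agent.P267.H378.Step
import Vale.Agent.P267.H181.Frm
import Vale.Agent.P267.H338.Riem

/-!
# P267 / H378 (GX-FRAME): the local factorisation from the norms
-/

set_option linter.all false

open Set Filter Topology Metric Complex
open scoped ContDiff Real ComplexConjugate Manifold Matrix ComplexOrder

namespace Vale.Agent.P267.H378

open Vale.Agent.P267.FL Vale.Agent.P267.XT

noncomputable section

variable {M : Type} [TopologicalSpace M] [ChartedSpace C2 M] [IsManifold 𝓘(ℂ, C2) ω M]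

/-- local potentials of closed forms -/
theorem exists_pot_at {A : M → Fin 2 → ℂ} {x : M}
    (hA : ∀ᶠ y in 𝓝 x, At1 ∞ 0 A y ∧ dbar1 0 A y = 0) :
    ∃ φ : M → ℂ, ∀ᶠ y in 𝓝 x, At0 ∞ 0 φ y ∧ dbar0 0 φ y = A y := by
  set e := chartAt C2 x with hed
  have he : e ∈ atlas C2 M := chart_mem_atlas C2 x
  have hx : x ∈ e.source := mem_chart_source C2 x
  obtain ⟨R, hR, hRt, φ, hφ, hφ2⟩ := H181.exists_local_potential he hx hA
  refine ⟨fun y => φ (e y), ?_⟩
  have hev : ∀ᶠ y in 𝓝 x, e y ∈ ball (e x) R :=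
    (e.continuousAt hx).eventually (ball_mem_nhds _ hR)
  filter_upwards [hev, e.open_source.mem_nhds hx] with y hy hys
  have h1 : loc0 0 e (fun y => φ (e y)) =ᶠ[𝓝 (e y)] φ := by
    filter_upwards [e.open_target.mem_nhds (e.map_source hys)] with z hz
    simp [loc0, e.right_inv hz]
  have hat : At0 ∞ 0 (fun y => φ (e y)) y :=
    at0_of_chart he hys (hφ.contDiffAt.congr_of_eventuallyEq h1)
  refine ⟨hat, H181.loc1_inj (κ := 0) he hys ?_⟩
  funext i
  rw [loc1_dbar0 he (e.map_source hys) ((hat.chart he hys).differentiableAt (by norm_num)) i,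
    ← hφ2 _ hy i, dzb, dzb, h1.fderiv_eq]

/-- a function with `∂̄z = -Az` becomes holomorphic after multiplication by `e^φ`, `∂̄φ = A` -/
theorem dbar0_mul_exp {z φ : M → ℂ} {A : M → Fin 2 → ℂ} {x : M} (hz : At0 ∞ 0 z x)
    (he : ∀ i, dbar0 0 z x i = -(A x i) * z x) (hφ : At0 ∞ 0 φ x) (hφ' : dbar0 0 φ x = A x) :
    At0 ∞ 0 (fun y => z y * Complex.exp (φ y)) x ∧
      dbar0 0 (fun y => z y * Complex.exp (φ y)) x = 0 := by
  refine ⟨hz.mul hφ.cexp, ?_⟩
  funext i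
  rw [dbar0_mul (hz.of_le H706.one_le_infty) (hφ.cexp.of_le H706.one_le_infty), he i,
    dbar0_cexp (hφ.of_le H706.one_le_infty), hφ']
  simp only [Pi.zero_apply]
  ring

/-- the local factorisation from the norms -/
theorem exists_tau {W : Set M} (hW : IsOpen W) {S : Finset ℤ} {z : M → ℂ}
    {A : M → Fin 2 → ℂ} {zz : ℤ → M → ℂ} {AA : ℤ → M → Fin 2 → ℂ} {Nc : M → ℝ}
    (hz : ∀ x ∈ W, At0 ∞ 0 z x ∧ ∀ i, dbar0 0 z x i = -(A x i) * z x)
    (hzz : ∀ j ∈ S, ∀ x ∈ W, At0 ∞ 0 (zz j) x ∧ ∀ i, dbar0 0 (zz j) x i = -(AA j x i) * zz j x)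
    (hA : ∀ x ∈ W, At1 ∞ 0 A x ∧ dbar1 0 A x = 0)
    (hAA : ∀ j ∈ S, ∀ x ∈ W, At1 ∞ 0 (AA j) x ∧ dbar1 0 (AA j) x = 0)
    (hNc : ContinuousOn Nc W) (hNc0 : ∀ x ∈ W, 0 < Nc x)
    (hdiv : ∀ x ∈ W, ‖z x‖ ^ 2 = Nc x * ∏ j ∈ S, ‖zz j x‖ ^ 2)
    (hd : ∀ x ∈ W, ∃ᶠ w in 𝓝 x, ∏ j ∈ S, zz j w ≠ 0) {x : M} (hx : x ∈ W) :
    ∃ τ : M → ℂ, At0 ∞ 0 τ x ∧ τ x ≠ 0 ∧ ∀ᶠ w in 𝓝 x, z w = τ w * ∏ j ∈ S, zz j w := by
  classical
  set y : M → ℂ := fun x => ∏ j ∈ S, zz j x with hy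
  set B : M → Fin 2 → ℂ := fun x i => ∑ j ∈ S, AA j x i with hB
  have hy' : ∀ x ∈ W, At0 ∞ 0 y x ∧ ∀ i, dbar0 0 y x i = -(B x i) * y x := fun x hx =>
    dbar0_prod (fun j hj => (hzz j hj x hx).1) (fun j hj => (hzz j hj x hx).2)
  have hBe : B = fun x => ∑ j ∈ S, AA j x := by
    funext x i; simp [hB, Finset.sum_apply]
  have hBs : ∀ x ∈ W, At1 ∞ 0 B x ∧ dbar1 0 B x = 0 := by
    intro x hx
    rw [hBe]
    refine ⟨At1.sum fun j hj => (hAA j hj x hx).1, ?_⟩
    rw [dbar1_sum fun j hj => ((hAA j hj x hx).1).of_le H706.one_le_infty]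
    exact Finset.sum_eq_zero fun j hj => (hAA j hj x hx).2
  obtain ⟨φ, hφ⟩ := exists_pot_at (x := x) (A := A)
    (by filter_upwards [hW.mem_nhds hx] with w hw using hA w hw)
  obtain ⟨φB, hφB⟩ := exists_pot_at (x := x) (A := B)
    (by filter_upwards [hW.mem_nhds hx] with w hw using hBs w hw)
  obtain ⟨U, hU, hUo, hxU⟩ := mem_nhds_iff.1 (Filter.inter_mem (hW.mem_nhds hx) (hφ.and hφB))
  have hUW : ∀ w ∈ U, w ∈ W := fun w hw => (hU hw).1
  have h1 : HolOn 0 (fun y => z y * Complex.exp (φ y)) U := by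
    rw [holOn_iff_dbar0 hUo]
    intro w hw
    obtain ⟨e1, e2⟩ := dbar0_mul_exp (hz w (hUW w hw)).1 (hz w (hUW w hw)).2 (hU hw).2.1.1
      (hU hw).2.1.2
    exact ⟨e1.of_le H706.one_le_infty, e2⟩
  have h2 : HolOn 0 (fun w => y w * Complex.exp (φB w)) U := by
    rw [holOn_iff_dbar0 hUo]
    intro w hw
    obtain ⟨e1, e2⟩ := dbar0_mul_exp (hy' w (hUW w hw)).1 (hy' w (hUW w hw)).2 (hU hw).2.2.1
      (hU hw).2.2.2
    exact ⟨e1.of_le H706.one_le_infty, e2⟩
  set e := chartAt C2 x with hed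
  have he : e ∈ atlas C2 M := chart_mem_atlas C2 x
  have hxs : x ∈ e.source := mem_chart_source C2 x
  set V : Set C2 := e.target ∩ e.symm ⁻¹' U with hV
  have hVo : IsOpen V := e.symm.isOpen_inter_preimage hUo
  have hexV : e x ∈ V := ⟨e.map_source hxs, by simpa [e.left_inv hxs] using hxU⟩
  have g1 : DifferentiableOn ℂ (fun v => z (e.symm v) * Complex.exp (φ (e.symm v))) V := by
    have := h1 e he
    rw [LB.loc0_zero] at this
    exact this
  have g2 : DifferentiableOn ℂ (fun v => y (e.symm v) * Complex.exp (φB (e.symm v))) V := by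
    have := h2 e he
    rw [LB.loc0_zero] at this
    exact this
  have hcs : ContinuousOn e.symm V := e.continuousOn_symm.mono inter_subset_left
  have hmaps : MapsTo e.symm V U := fun v hv => hv.2
  have hφc : ContinuousOn φ U := fun w hw => (hU hw).2.1.1.continuousAt.continuousWithinAt
  have hφBc : ContinuousOn φB U := fun w hw => (hU hw).2.2.1.continuousAt.continuousWithinAt
  set ψ : C2 → ℝ := fun v => Real.log (Nc (e.symm v)) / 2 + (φ (e.symm v)).re -
    (φB (e.symm v)).re with hψ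
  have hψc : ContinuousOn ψ V := by
    have c1 : ContinuousOn (fun v => Nc (e.symm v)) V :=
      (hNc.mono fun w hw => hUW w hw).comp hcs hmaps
    have c2 : ContinuousOn (fun v => Real.log (Nc (e.symm v))) V :=
      c1.log fun v hv => (hNc0 _ (hUW _ (hmaps hv))).ne'
    have c3 : ContinuousOn (fun v => (φ (e.symm v)).re) V :=
      Complex.continuous_re.comp_continuousOn (hφc.comp hcs hmaps)
    have c4 : ContinuousOn (fun v => (φB (e.symm v)).re) V :=
      Complex.continuous_re.comp_continuousOn (hφBc.comp hcs hmaps)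
    exact ((c2.div_const 2).add c3).sub c4
  have hne : ∀ v ∈ V, ∃ᶠ w in 𝓝 v, y (e.symm w) * Complex.exp (φB (e.symm w)) ≠ 0 := by
    intro v hv
    have h3 : ∃ᶠ w in 𝓝 (e.symm v), y w ≠ 0 := hd _ (hUW _ (hmaps hv))
    have hvs : e.symm v ∈ e.source := e.map_target hv.1
    have h4 : ∃ᶠ w in 𝓝 (e.symm v), y (e.symm (e w)) ≠ 0 := by
      refine (h3.and_eventually (e.open_source.mem_nhds hvs)).mono ?_
      rintro w ⟨hw, hws⟩
      rwa [e.left_inv hws]
    have h5 : Tendsto e (𝓝 (e.symm v)) (𝓝 v) := by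
      have := e.continuousAt hvs
      rwa [ContinuousAt, e.right_inv hv.1] at this
    exact (h5.frequently h4).mono fun w hw => mul_ne_zero hw (Complex.exp_ne_zero _)
  have hnorm : ∀ v ∈ V, ‖z (e.symm v) * Complex.exp (φ (e.symm v))‖ =
      ‖y (e.symm v) * Complex.exp (φB (e.symm v))‖ * Real.exp (ψ v) := by
    intro v hv
    have hw : e.symm v ∈ W := hUW _ (hmaps hv)
    have hp := hNc0 _ hw
    rw [norm_mul, norm_mul, Complex.norm_exp, Complex.norm_exp]
    have e1 : ‖z (e.symm v)‖ = Real.exp (Real.log (Nc (e.symm v)) / 2) * ‖y (e.symm v)‖ := by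
      have e2 : Real.exp (Real.log (Nc (e.symm v)) / 2) ^ 2 = Nc (e.symm v) := by
        rw [← Real.exp_nat_mul]
        have : ((2 : ℕ) : ℝ) * (Real.log (Nc (e.symm v)) / 2) = Real.log (Nc (e.symm v)) := by
          push_cast; ring
        rw [this, Real.exp_log hp]
      have e3 : ‖z (e.symm v)‖ ^ 2 =
          (Real.exp (Real.log (Nc (e.symm v)) / 2) * ‖y (e.symm v)‖) ^ 2 := by
        rw [mul_pow, e2, hdiv _ hw, hy, norm_prod, Finset.prod_pow]
      exact (pow_left_inj₀ (norm_nonneg _) (by positivity) two_ne_zero).1 e3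
    rw [e1, hψ]
    simp only
    rw [Real.exp_sub, Real.exp_add]
    field_simp
  obtain ⟨V', hV'o, hexV', hV'V, u, hu, hu'⟩ :=
    H338.exists_unit_of_norm_eq hVo hexV g1 g2 hne hψc hnorm
  have hua : AnalyticAt ℂ u (e x) := P281.MF.analyticAt_of_differentiableOn hV'o hu hexV'
  have hux : At0 ∞ 0 (fun w => u (e w)) x := by
    have e1 : loc0 0 e (fun w => u (e w)) =ᶠ[𝓝 (e x)] u := by
      filter_upwards [e.open_target.mem_nhds (e.map_source hxs)] with v hv
      simp [loc0, e.right_inv hv]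
    exact at0_of_chart he hxs
      (((hua.contDiffAt (n := ∞)).restrict_scalars ℝ).congr_of_eventuallyEq e1)
  refine ⟨fun w => u (e w) * Complex.exp (φB w - φ w),
    hux.mul (((hU hxU).2.2.1.sub (hU hxU).2.1.1).cexp),
    mul_ne_zero (hu' _ hexV').1 (Complex.exp_ne_zero _), ?_⟩
  have hev : ∀ᶠ w in 𝓝 x, e w ∈ V' := (e.continuousAt hxs).eventually (hV'o.mem_nhds hexV')
  filter_upwards [hev, e.open_source.mem_nhds hxs] with w hw hws
  have e1 := (hu' _ hw).2
  simp only [e.left_inv hws] at e1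
  rw [Complex.exp_sub]
  have h0 := Complex.exp_ne_zero (φ w)
  field_simp
  rw [e1]
  ring

end

end Vale.Agent.P267.H378
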