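import Vale.Agent.P267.H378.Bun
import Vale.Agent.P267.H701.NoRoot

/-!
# P267 / H378 (GX-FRAME): exact holomorphic frames from a `Chain`
-/

set_option linter.all false

open Set Filter Topology Metric Complex
open scoped ContDiff Real ComplexConjugate Manifold Matrix ComplexOrder

namespace Vale.Agent.P267.H378

open Vale.Agent.P267.FL Vale.Agent.P267.XT Vale.Agent.P267.H585 Vale.Agent.P267.LineX
open Vale.Agent.P267.H158

noncomputable section

/-! ### a weaker growth condition -/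

section mono

variable {M : Type} [TopologicalSpace M] [ChartedSpace C2 M] {D : XTData M}

theorem StepIn.mono_d {S : Finset ℤ} {N d d' c : ℝ} (hc : c ≤ 0) (hd : d ≤ d')
    {z : M → ℂ} {A : M → Fin 2 → ℂ} {zz : ℤ → M → ℂ} {AA : ℤ → M → Fin 2 → ℂ}
    (H : StepIn D S N d c z A zz AA) : StepIn D S N d' c z A zz AA where
  hz := H.hz
  hzz := H.hzz
  hA := H.hA
  hAA := H.hAA
  bA := H.bA
  bAA := H.bAA
  dense := H.dense
  loc := H.loc
  b1 := by
    obtain ⟨C, hC⟩ := H.b1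
    refine ⟨|C|, fun x hx => (hC x hx).trans (mul_le_mul_of_nonneg_right ?_ (norm_nonneg _))⟩
    have hx0 : D.f x < 0 := hx.trans_le hc
    exact mul_le_mul (le_abs_self _) (Real.exp_le_exp.2 (by nlinarith)) (Real.exp_pos _).le
      (abs_nonneg _)
  b2 := by
    obtain ⟨C, hC⟩ := H.b2
    refine ⟨|C|, fun x hx => (hC x hx).trans (mul_le_mul_of_nonneg_right ?_ (norm_nonneg _))⟩
    have hx0 : D.f x < 0 := hx.trans_le hc
    exact mul_le_mul (le_abs_self _) (Real.exp_le_exp.2 (by nlinarith)) (Real.exp_pos _).le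
      (abs_nonneg _)

theorem ScalIn.mono_d {n : ℕ} {s : ℤ → ℕ} {z : ℤ → M → ℂ} {A : ℤ → M → Fin 2 → ℂ}
    {N d d' : ℝ} (hd : d ≤ d') (H : ScalIn D n s z A N d) : ScalIn D n s z A N d' where
  n_pos := H.n_pos
  s_per := H.s_per
  z_per := H.z_per
  A_per := H.A_per
  cl := H.cl
  step l := by
    obtain ⟨c, hc⟩ := H.step l
    exact ⟨min 0 c, (hc.mono (min_le_right _ _)).mono_d (min_le_left _ _) hd⟩

end mono

variable {X : Type} [TopologicalSpace X] [ChartedSpace C2 X] [IsManifold 𝓘(ℂ, C2) ω X] {n : ℕ}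
  {O : BlockOut X n}

/-- exact primitives of the structure forms of all bundles above the index `i`, on `{f < c}`, with
the exact multiplicative relations between `ζ_l = (α_l)_{i₀} e^{ψ_l}`. -/
structure Exact (G : Chain O) (i : ℤ) (Bs : Finset ℤ) (c ε : ℝ)
    (ψ : ℤ → Cov O.B.hh → ℂ) (κ : ℤ → ℂ) : Prop where
  ε_pos : 0 < ε
  c_le : c ≤ 0
  κ_ne : ∀ l, κ l ≠ 0
  κ_per : ∀ l, κ (l + n) = κ l
  eq : ∀ l, i < l → DbarOn (inner O.B.D c) (ψ l) (O.ba (G.ord.symm l))
  bd : ∀ l, i < l → ∃ C, 0 ≤ C ∧ ∀ x ∈ inner O.B.D c, ‖ψ l x‖ ≤ C * Real.exp (ε * O.B.D.f x)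
  rel : ∀ l, i < l → l ∉ Bs → ∀ x ∈ inner O.B.D c,
    zb O (G.ord.symm l) x * Complex.exp (ψ l x) =
      κ l * ∏ j ∈ Finset.Ico (l - G.s l) l, (zb O (G.ord.symm j) x * Complex.exp (ψ j x))
  per : ∀ b ∈ Bs, ∀ x ∈ inner O.B.D c, ψ (b + n) x = ψ b (O.B.D.sh (-1) x)

/-- CASE A -/
theorem exact_caseA [Nonempty (Cov O.B.hh)] (G : Chain O) {i : ℤ} {Bs : Finset ℤ}
    {nn : ℤ → ℤ → ℕ} {Nn : Matrix Bs Bs ℂ} {K : ℝ} (hB : BaseIn n G.s i Bs nn Nn K 1) :
    ∃ c ε ψ κ, Exact G i Bs c ε ψ κ := by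
  have i₀ : Fin n := ⟨0, n_pos G⟩
  have hd₀ : 0 < O.d₀ := O.leaves.pos
  have hN₀ := O.le_N₀
  have H := (scalIn G).mono_d (d' := O.d₀ / 4) (by linarith)
  obtain ⟨c, ε, ψ, κ, h1, h2, h3, h4, h5, h6, h7, h8⟩ := H.frames (limP_zero O i₀) le_rfl
    (by linarith) (by linarith) hB
    (by rw [one_mul, Real.exp_lt_one_iff]; linarith) (by simp)
  exact ⟨c, ε, ψ, κ, h1, h2, h3, h4, h5, h6, h7, h8⟩

/-- CASE B -/
theorem exact_caseB [T2Space X] [CompactSpace X] [ConnectedSpace X] (G : Chain O)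
    [Nonempty (Cov O.B.hh)] (h2 : ∃ l, 2 ≤ G.s l) {i : ℤ}
    {Bs : Finset ℤ} {nn : ℤ → ℤ → ℕ} {Nn : Matrix Bs Bs ℂ} {K lam : ℝ}
    (hB : BaseIn n G.s i Bs nn Nn K lam) : ∃ c ε ψ κ, Exact G i Bs c ε ψ κ := by
  classical
  set D := O.B.D with hD
  set lo : ℝ := |Real.log lam| with hlo
  have hlo0 : 0 ≤ lo := abs_nonneg _
  set ε₁ : ℝ := lo + 1 with hε₁
  have hε₁0 : 0 < ε₁ := by linarith
  have hroot : D.RootGap (2 * ε₁) := H701.rootGap G h2 (by linarith)
  have hL : LimP D lo (2 * ε₁) ε₁ := limP_root O hlo0 (by linarith) hroot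
  have hlam : lam ≤ Real.exp lo := by
    conv_lhs => rw [← Real.exp_log hB.lam_pos]
    exact Real.exp_le_exp.2 (le_abs_self _)
  have hd₀ : 0 < O.d₀ := O.leaves.pos
  set N' : ℝ := 3 * ε₁ + O.d₀ with hN'
  -- new holomorphic structures with a large rate
  choose a' m₀ Lm am hE _ using fun j : Fin n =>
    O.leaves.ex _ (O.E j).L (O.i₀ j) O.R (O.full j).ends.ends N' (by linarith)
  have hT : H706.T1s D (O.d₀ / 2) :=
    O.t1o O.d₀ (O.leaves.root O.d₀ hd₀ le_rfl) (O.d₀ / 2) (by linarith) le_rfl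
  have hexp : ∀ (N : ℝ) (x : Cov O.B.hh), O.d₀ / 2 ≤ N →
      Real.exp (-(N * |D.f x|)) ≤ Real.exp (O.d₀ / 2 * D.f x) := by
    intro N x hN
    refine Real.exp_le_exp.2 ?_
    rcases le_total 0 (D.f x) with h | h
    · have h1 : 0 ≤ O.d₀ / 2 * D.f x := mul_nonneg (by linarith) h
      have h3 : 0 ≤ N * |D.f x| := mul_nonneg (by linarith) (abs_nonneg _)
      linarith
    · rw [abs_of_nonpos h]
      have := mul_le_mul_of_nonpos_right hN h
      linarith
  have hv : ∀ j : Fin n, ∃ v : Cov O.B.hh → ℂ, Reg0 ∞ 0 v ∧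
      (∃ A, ∀ x, ‖v x‖ ≤ A * Real.exp (O.d₀ / 2 * D.f x)) ∧
      ∀ x k, dbar0 0 v x k = O.a j x k - a' j x k := by
    intro j
    have ha : Reg1 ∞ 0 (O.a j) := (O.cone j).hol.smooth
    have ha' : Reg1 ∞ 0 (a' j) := (hE j).hol.smooth
    refine hT (fun x k => O.a j x k - a' j x k) ?_ ?_ ?_
    · rw [reg1_iff_at]
      intro x
      exact (ha.at x).sub (ha'.at x)
    · obtain ⟨C₁, hC₁⟩ := (O.full j).ends.decay
      obtain ⟨C₂, hC₂⟩ := (hE j).decay
      refine ⟨|C₁| + |C₂|, fun x => ?_⟩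
      have e1 := n1_add_le (D.herm.posDef x) 0 (O.a j) (fun y k => -(a' j y k))
      have e2 : n1 D.h 0 (fun y k => -(a' j y k)) x = n1 D.h 0 (a' j) x := by
        have := n1_smul (h := D.h) (x := x) 0 (fun _ => (-1 : ℂ)) (a' j)
        simp only [norm_neg, norm_one, one_mul, smul_eq_mul, neg_mul] at this
        exact this
      have e3 : n1 D.h 0 (fun y k => O.a j y k - a' j y k) x =
          n1 D.h 0 (fun y k => O.a j y k + -(a' j y k)) x := n1_congr_pt (by funext k; ring)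
      rw [e3]
      refine e1.trans ?_
      rw [e2, add_mul]
      have hN₀ := O.le_N₀
      refine add_le_add ((hC₁ x).trans ?_) ((hC₂ x).trans ?_)
      · exact mul_le_mul (le_abs_self _) (hexp _ x (by linarith)) (Real.exp_pos _).le
          (abs_nonneg _)
      · exact mul_le_mul (le_abs_self _) (hexp _ x (by linarith)) (Real.exp_pos _).le
          (abs_nonneg _)
    · intro x
      have e1 : dbar1 0 (fun y => O.a j y - a' j y) x = dbar1 0 (O.a j) x - dbar1 0 (a' j) x :=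
        dbar1_sub ((ha.at x).of_le H706.one_le_infty) ((ha'.at x).of_le H706.one_le_infty)
      have e2 := (O.cone j).hol.integrable x
      have e3 := (hE j).hol.integrable x
      have e4 : (fun (y : Cov O.B.hh) (k : Fin 2) => O.a j y k - a' j y k) =
          fun y => O.a j y - a' j y := rfl
      rw [e4, e1]
      linear_combination e2 - e3
  choose v hv1 hv2 hv3 using hv
  -- translates
  set V : ℤ → Cov O.B.hh → ℂ := fun l x => v (G.ord.symm l).1 (D.sh (-(G.ord.symm l).2) x) with hV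
  set A' : ℤ → Cov O.B.hh → Fin 2 → ℂ :=
    fun l x => a' (G.ord.symm l).1 (D.sh (-(G.ord.symm l).2) x) with hA'
  have hfs : ∀ (k : ℤ) (x : Cov O.B.hh), D.f (D.sh (-k) x) = D.f x - k := by
    intro k x; rw [D.f_sh]; push_cast; ring
  have hVper : ∀ l x, V (l + n) x = V l (D.sh (-1) x) := by
    intro l x
    simp only [hV, symm_add]
    rw [← D.sh_add, show -((G.ord.symm l).2 + 1) = -(G.ord.symm l).2 + -1 by ring]
  have hAper : ∀ l x, A' (l + n) x = A' l (D.sh (-1) x) := by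
    intro l x
    simp only [hA', symm_add]
    rw [← D.sh_add, show -((G.ord.symm l).2 + 1) = -(G.ord.symm l).2 + -1 by ring]
  have hVat : ∀ l x, At0 ∞ 0 (V l) x := fun l x => at0_sh D _ ((hv1 _).at _)
  have hVeq : ∀ l x k, dbar0 0 (V l) x k = O.ba (G.ord.symm l) x k - A' l x k := by
    intro l x k
    have := (D.chartMap_sh (-(G.ord.symm l).2)).dbar0_comp 0 (v (G.ord.symm l).1) x
    rw [hV]
    simp only
    rw [this]
    exact hv3 _ _ _
  have hVbd : ∀ l, ∃ C, 0 ≤ C ∧ ∀ x, ‖V l x‖ ≤ C * Real.exp (O.d₀ / 2 * D.f x) := by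
    intro l
    obtain ⟨A, hA⟩ := hv2 (G.ord.symm l).1
    refine ⟨|A| * Real.exp (-(O.d₀ / 2 * (G.ord.symm l).2)), by positivity, fun x => ?_⟩
    refine (hA _).trans ?_
    rw [hfs, mul_assoc, ← Real.exp_add]
    exact mul_le_mul (le_abs_self _) (Real.exp_le_exp.2 (le_of_eq (by ring))) (Real.exp_pos _).le
      (abs_nonneg _)
  have hA'at : ∀ l x, At1 ∞ 0 (A' l) x := fun l x => at1_sh D _ (((hE _).hol.smooth).at _)
  have hg : ∀ l, ∃ c : ℝ, GaugeAt D N' c (O.ba (G.ord.symm l)) (A' l) (V l) := by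
    intro l
    refine ⟨min 0 (G.ord.symm l).2, fun x _ => hVat l x, fun x _ => hVeq l x, ?_,
      fun x _ => hA'at l x, ?_⟩
    · obtain ⟨C, hC, hCb⟩ := hVbd l
      refine ⟨C, fun x hx => (hCb x).trans ?_⟩
      refine mul_le_of_le_one_right hC (Real.exp_le_one_iff.2 ?_)
      have : D.f x < 0 := hx.trans_le (min_le_left _ _)
      nlinarith
    · obtain ⟨C, hC⟩ := (hE (G.ord.symm l).1).decay
      refine ⟨|C| * Real.exp (-(N' * (G.ord.symm l).2)), fun x hx => ?_⟩
      have e0 : n1 D.h 0 (A' l) x = n1 D.h 0 (a' (G.ord.symm l).1)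
        (D.sh (-(G.ord.symm l).2) x) := D.n1_comp_sh 0 _ _ x
      rw [e0]
      refine (hC _).trans ?_
      have hx' : D.f x < (G.ord.symm l).2 := hx.trans_le (min_le_right _ _)
      rw [hfs, abs_of_neg (by linarith), mul_assoc, ← Real.exp_add]
      exact mul_le_mul (le_abs_self _) (Real.exp_le_exp.2 (le_of_eq (by ring)))
        (Real.exp_pos _).le (abs_nonneg _)
  have hcl : ∀ l, ∃ c : ℝ, ∀ x, D.f x < c → dbar1 0 (A' l) x = 0 := by
    intro l
    refine ⟨(G.ord.symm l).2 - O.R, fun x hx => ?_⟩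
    have hR := O.R_nonneg (G.ord.symm l).1
    have h1 := (D.chartMap_sh (-(G.ord.symm l).2)).dbar1_comp 0 (a' (G.ord.symm l).1) x
    have h3 := (hE (G.ord.symm l).1).hol.integrable (D.sh (-(G.ord.symm l).2) x)
    rw [H646.F02_end D (hE (G.ord.symm l).1).ends
      (by rw [hfs, abs_of_neg (by linarith)]; linarith), add_zero] at h3
    rw [← h3, ← h1]
  have H := (scalIn G).gauge (N' := N') (d' := 2 * ε₁) (by linarith) hVper hAper hcl hg
  obtain ⟨c, ε, ψ, κ, h1, h2', h3, h4, h5, h6, h7, h8⟩ := H.frames hL hlo0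
    (by linarith) (by linarith) hB
    (by
      rw [Real.exp_neg, ← div_eq_mul_inv, div_lt_one (Real.exp_pos _)]
      exact hlam.trans_lt (Real.exp_lt_exp.2 (by linarith)))
    (by
      rw [Real.exp_neg, ← div_eq_mul_inv, div_le_one (Real.exp_pos _)]
      exact hlam)
  have hε0 : 0 < ε := lt_of_le_of_lt hlo0 h1
  refine ⟨c, min ε (O.d₀ / 2), fun l x => ψ l x + V l x, κ, lt_min hε0 (by linarith), h2', h3, h4,
    fun l hl x hx => ⟨(h5 l hl x hx).1.add (hVat l x), fun k => ?_⟩, fun l hl => ?_,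
    fun l hl hlB x hx => ?_, fun b hb x hx => ?_⟩
  · have e1 := congrFun (dbar0_add ((h5 l hl x hx).1.of_le H706.one_le_infty)
      ((hVat l x).of_le H706.one_le_infty)) k
    rw [e1, Pi.add_apply, (h5 l hl x hx).2 k, hVeq]
    ring
  · obtain ⟨C₁, hC₁, hC₁'⟩ := h6 l hl
    obtain ⟨C₂, hC₂, hC₂'⟩ := hVbd l
    refine ⟨C₁ + C₂, by positivity, fun x hx => ?_⟩
    have hx0 : D.f x < 0 := (show D.f x < c from hx).trans_le h2'
    refine (norm_add_le _ _).trans ?_
    rw [add_mul]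
    refine add_le_add ((hC₁' x hx).trans ?_) ((hC₂' x).trans ?_)
    · refine mul_le_mul_of_nonneg_left (Real.exp_le_exp.2 ?_) hC₁
      exact mul_le_mul_of_nonpos_right (min_le_left _ _) hx0.le
    · refine mul_le_mul_of_nonneg_left (Real.exp_le_exp.2 ?_) hC₂
      exact mul_le_mul_of_nonpos_right (min_le_right _ _) hx0.le
  · have e1 := h7 l hl hlB x hx
    have e2 : ∀ j, zb O (G.ord.symm j) x * Complex.exp (ψ j x + V j x) =
        zb O (G.ord.symm j) x * Complex.exp (V j x) * Complex.exp (ψ j x) := by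
      intro j
      rw [Complex.exp_add]
      ring
    simp only [e2]
    exact e1
  · simp only [h8 b hb x hx, hVper]
    rfl

/-- exact frames of the basic bundles -/
theorem Exact.frames {G : Chain O} {i : ℤ} {Bs : Finset ℤ} {c ε : ℝ}
    {ψ : ℤ → Cov O.B.hh → ℂ} {κ : ℤ → ℂ} (H : Exact G i Bs c ε ψ κ) : ExactFrames O := by
  classical
  set D := O.B.D with hD
  have hn := n_pos G
  -- a translate above `i` for every `j`
  have hk : ∀ j : Fin n, ∃ k : ℕ, i < G.ord (j, (k : ℤ)) := by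
    intro j
    refine ⟨(i + 1 - G.ord (j, 0)).toNat, ?_⟩
    rw [H701.ord_mul G]
    have h1 : i + 1 - G.ord (j, 0) ≤ ((i + 1 - G.ord (j, 0)).toNat : ℤ) := Int.self_le_toNat _
    have h2 : ((i + 1 - G.ord (j, 0)).toNat : ℤ) ≤
        n * ((i + 1 - G.ord (j, 0)).toNat : ℤ) := by
      have : (1 : ℤ) ≤ n := by exact_mod_cast hn
      nlinarith [Int.natCast_nonneg (i + 1 - G.ord (j, 0)).toNat]
    linarith
  choose k hk using hk
  choose C hC hCb using fun j => H.bd _ (hk j)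
  set φ : Fin n → Cov O.B.hh → ℂ := fun j x => ψ (G.ord (j, (k j : ℤ))) (D.sh (k j) x) with hφ
  have hfs : ∀ (j : Fin n) (x : Cov O.B.hh), D.f (D.sh (k j) x) = D.f x + k j := by
    intro j x; rw [D.f_sh]; push_cast; ring
  have hφ1 : ∀ j x, D.f x < c - k j → At0 ∞ 0 (φ j) x ∧ ∀ q, dbar0 0 (φ j) x q = O.a j x q := by
    intro j x hx
    have hx' : D.sh (k j) x ∈ inner D c := by
      show D.f (D.sh (k j) x) < c
      rw [hfs]; linarith
    obtain ⟨e1, e2⟩ := H.eq _ (hk j) _ hx'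
    refine ⟨at0_sh D _ e1, fun q => ?_⟩
    have e3 := congrFun ((D.chartMap_sh (k j)).dbar0_comp 0 (ψ (G.ord (j, (k j : ℤ)))) x) q
    rw [hφ]
    simp only
    rw [e3, e2 q, Equiv.symm_apply_apply]
    simp only [BlockOut.ba]
    rw [← D.sh_add, neg_add_cancel, D.sh_zero]
  have hφ2 : ∀ j x, D.f x < c - k j →
      ‖φ j x‖ ≤ (C j * Real.exp (ε * k j)) * Real.exp (ε * D.f x) := by
    intro j x hx
    have hx' : D.sh (k j) x ∈ inner D c := by
      show D.f (D.sh (k j) x) < c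
      rw [hfs]; linarith
    refine (hCb j _ hx').trans (le_of_eq ?_)
    rw [hfs, mul_assoc, ← Real.exp_add]
    congr 2
    ring
  refine ⟨∑ j, |c - k j - 2|, ε, ∑ j, C j * Real.exp (ε * k j), H.ε_pos, fun j =>
    ⟨fun x => H706.cutI D (c - k j - 2) x * φ j x, ?_, fun x hx q => ?_, fun x hx => ?_⟩⟩
  · rw [reg0_iff_at]
    intro x
    rcases lt_or_ge (D.f x) (c - k j) with hx | hx
    · exact ((H706.reg_cutI D _).at x).mul (hφ1 j x hx).1
    · refine (at0_zero (V := ℂ)).congr ?_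
      filter_upwards [H706.gt_nhds D (show c - k j - 1 < D.f x by linarith)] with y hy
      rw [H706.cutI_eq_zero D (by linarith), zero_mul]
  · have h1 : |c - k j - 2| ≤ ∑ j, |c - k j - 2| :=
      Finset.single_le_sum (f := fun j => |c - (k j : ℝ) - 2|) (fun _ _ => abs_nonneg _)
        (Finset.mem_univ j)
    have h2 : D.f x < c - k j - 2 := by
      have := neg_abs_le (c - k j - 2)
      have hx' : D.f x < -∑ j, |c - (k j : ℝ) - 2| := hx
      linarith
    rw [← (hφ1 j x (by linarith)).2 q]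
    refine congrFun (dbar0_congr ?_) q
    filter_upwards [H706.lt_nhds D h2] with y hy
    rw [H706.cutI_eq_one D hy.le, one_mul]
  · have h1 : C j * Real.exp (ε * k j) ≤ ∑ j, C j * Real.exp (ε * k j) :=
      Finset.single_le_sum (f := fun j => C j * Real.exp (ε * (k j : ℝ)))
        (fun j _ => mul_nonneg (hC j) (Real.exp_pos _).le) (Finset.mem_univ j)
    rcases lt_or_ge (D.f x) (c - k j) with hxc | hxc
    · show ‖H706.cutI D (c - k j - 2) x * φ j x‖ ≤ _
      rw [norm_mul]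
      calc ‖H706.cutI D (c - k j - 2) x‖ * ‖φ j x‖
          ≤ 1 * ((C j * Real.exp (ε * k j)) * Real.exp (ε * D.f x)) :=
            mul_le_mul (H706.norm_cutI_le D _ x) (hφ2 j x hxc) (norm_nonneg _) zero_le_one
        _ ≤ _ := by
            rw [one_mul]
            exact mul_le_mul_of_nonneg_right h1 (Real.exp_pos _).le
    · show ‖H706.cutI D (c - k j - 2) x * φ j x‖ ≤ _
      rw [H706.cutI_eq_zero D (by linarith), zero_mul, norm_zero]
      exact mul_nonneg (Finset.sum_nonneg fun j _ => mul_nonneg (hC j) (Real.exp_pos _).le)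
        (Real.exp_pos _).le

end

end Vale.Agent.P267.H378
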