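import Vale.Agent.P267.H378.FrameThm
import Vale.Agent.P267.H378.Base

/-!
# P267 / H378 (GX-FRAME): `LineX.FrameThm`

Exact holomorphic frames of the basic bundles at the inner end of the infinite cyclic covering.
-/

set_option linter.all false

open Set Filter Topology Metric Complex
open scoped ContDiff Real ComplexConjugate Manifold Matrix ComplexOrder

namespace Vale.Agent.P267.H378

open Vale.Agent.P267.FL Vale.Agent.P267.XT Vale.Agent.P267.H585 Vale.Agent.P267.LineX
open Vale.Agent.P267.H158

noncomputable section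

variable {X : Type} [TopologicalSpace X] [ChartedSpace C2 X] [IsManifold 𝓘(ℂ, C2) ω X] {n : ℕ}
  {O : BlockOut X n}

/-- exact primitives above some index -/
theorem exists_exact [T2Space X] [CompactSpace X] [ConnectedSpace X] (G : Chain O) :
    ∃ i Bs c ε ψ κ, Exact G i Bs c ε ψ κ := by
  have hlc : LocallyConnectedSpace X := ChartedSpace.locallyConnectedSpace C2 X
  have hcs : ConnectedSpace (Cov O.B.hh) := Cov.connectedSpace O.B.prim
  have hne : Nonempty (Cov O.B.hh) := hcs.toNonempty
  obtain ⟨i, Bs, nn, Nn, K, lam, hB, h⟩ := exists_base (n_pos G) G.s_pos G.s_per G.word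
  by_cases h2 : ∃ l, 2 ≤ G.s l
  · exact ⟨i, Bs, exact_caseB G h2 hB⟩
  · obtain rfl : lam = 1 := h.resolve_right h2
    exact ⟨i, Bs, exact_caseA G hB⟩

/-- **GX-FRAME.** -/
theorem frameThm : LineX.FrameThm := by
  intro X _ _ _ _ _ _ n O G
  obtain ⟨i, Bs, c, ε, ψ, κ, H⟩ := exists_exact G
  exact H.frames

end

end Vale.Agent.P267.H378
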