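import Vale.Agent.P267.H378.Scal
import Vale.Agent.P267.H378.Fac

/-!
# P267 / H378 (GX-FRAME): change of gauge, and the scalar data of a bundle at its trivial ends
-/

set_option linter.all false

open Set Filter Topology Metric Complex
open scoped ContDiff Real ComplexConjugate Manifold Matrix ComplexOrder

namespace Vale.Agent.P267.H378

open Vale.Agent.P267.FL Vale.Agent.P267.XT Vale.Agent.P267.H585

noncomputable section

variable {M : Type} [TopologicalSpace M] [ChartedSpace C2 M] [IsManifold 𝓘(ℂ, C2) ω M]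
  {D : XTData M}

/-! ### change of gauge -/

/-- gauge data: `A = A' + ∂̄v`, `v` bounded, `A'` smooth with rate `N'` on `{f < c}` -/
structure GaugeAt (D : XTData M) (N' c : ℝ) (A A' : M → Fin 2 → ℂ) (v : M → ℂ) : Prop where
  reg : ∀ x, D.f x < c → At0 ∞ 0 v x
  eq : ∀ x, D.f x < c → ∀ i, dbar0 0 v x i = A x i - A' x i
  bd : ∃ C : ℝ, ∀ x, D.f x < c → ‖v x‖ ≤ C
  hA' : ∀ x, D.f x < c → At1 ∞ 0 A' x
  bA' : ∃ C : ℝ, ∀ x, D.f x < c → n1 D.h 0 A' x ≤ C * Real.exp (N' * D.f x)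

theorem GaugeAt.mono {N' c c' : ℝ} {A A' : M → Fin 2 → ℂ} {v : M → ℂ}
    (H : GaugeAt D N' c A A' v) (hc : c' ≤ c) : GaugeAt D N' c' A A' v where
  reg x hx := H.reg x (hx.trans_le hc)
  eq x hx := H.eq x (hx.trans_le hc)
  bd := by obtain ⟨C, hC⟩ := H.bd; exact ⟨C, fun x hx => hC x (hx.trans_le hc)⟩
  hA' x hx := H.hA' x (hx.trans_le hc)
  bA' := by obtain ⟨C, hC⟩ := H.bA'; exact ⟨C, fun x hx => hC x (hx.trans_le hc)⟩

theorem GaugeAt.sol {N' c : ℝ} {A A' : M → Fin 2 → ℂ} {v z : M → ℂ}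
    (H : GaugeAt D N' c A A' v) {x : M} (hx : D.f x < c) (hz : At0 ∞ 0 z x)
    (he : ∀ i, dbar0 0 z x i = -(A x i) * z x) :
    At0 ∞ 0 (fun y => z y * Complex.exp (v y)) x ∧
      ∀ i, dbar0 0 (fun y => z y * Complex.exp (v y)) x i =
        -(A' x i) * (z x * Complex.exp (v x)) := by
  have hv := H.reg x hx
  refine ⟨hz.mul hv.cexp, fun i => ?_⟩
  rw [dbar0_mul (hz.of_le H706.one_le_infty) (hv.cexp.of_le H706.one_le_infty), he i,
    dbar0_cexp (hv.of_le H706.one_le_infty), H.eq x hx]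
  ring

theorem StepIn.gauge {S : Finset ℤ} {N N' d d' c : ℝ} (hc : c ≤ 0) (hd : d ≤ d')
    {z : M → ℂ} {A : M → Fin 2 → ℂ} {zz : ℤ → M → ℂ} {AA : ℤ → M → Fin 2 → ℂ}
    (H : StepIn D S N d c z A zz AA) {v : M → ℂ} {A' : M → Fin 2 → ℂ} {vv : ℤ → M → ℂ}
    {AA' : ℤ → M → Fin 2 → ℂ} (h0 : GaugeAt D N' c A A' v)
    (h1 : ∀ j ∈ S, GaugeAt D N' c (AA j) (AA' j) (vv j)) :
    StepIn D S N' d' c (fun x => z x * Complex.exp (v x)) A'
      (fun j x => zz j x * Complex.exp (vv j x)) AA' := by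
  classical
  have hprod : ∀ x, ∏ j ∈ S, (zz j x * Complex.exp (vv j x)) =
      (∏ j ∈ S, zz j x) * Complex.exp (∑ j ∈ S, vv j x) := by
    intro x; rw [Finset.prod_mul_distrib, Complex.exp_sum]
  obtain ⟨C, hC⟩ := h0.bd
  have hsum : ∃ C' : ℝ, ∀ x, D.f x < c → ‖∑ j ∈ S, vv j x‖ ≤ C' := by
    choose! CC hCC using fun j (hj : j ∈ S) => (h1 j hj).bd
    exact ⟨∑ j ∈ S, CC j, fun x hx => (norm_sum_le _ _).trans
      (Finset.sum_le_sum fun j hj => hCC j hj x hx)⟩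
  obtain ⟨C', hC'⟩ := hsum
  have hexp : ∀ x, D.f x < c → Real.exp (-(d * D.f x)) ≤ Real.exp (-(d' * D.f x)) := by
    intro x hx
    have hx0 : D.f x < 0 := hx.trans_le hc
    exact Real.exp_le_exp.2 (by nlinarith)
  have hexpn : ∀ w : ℂ, ∀ K : ℝ, ‖w‖ ≤ K → ‖Complex.exp w‖ ≤ Real.exp K ∧
      1 ≤ Real.exp K * ‖Complex.exp w‖ := by
    intro w K hw
    rw [Complex.norm_exp]
    have h3 : |w.re| ≤ K := (Complex.abs_re_le_norm w).trans hw
    have h4 := abs_le.1 h3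
    refine ⟨Real.exp_le_exp.2 h4.2, ?_⟩
    rw [← Real.exp_add]
    exact Real.one_le_exp (by linarith [h4.1])
  refine ⟨fun x hx => h0.sol hx (H.hz x hx).1 (H.hz x hx).2,
    fun j hj x hx => (h1 j hj).sol hx (H.hzz j hj x hx).1 (H.hzz j hj x hx).2,
    h0.hA', fun j hj => (h1 j hj).hA', h0.bA', fun j hj => (h1 j hj).bA', fun x hx => ?_,
    fun x hx => ?_, ?_, ?_⟩
  · refine (H.dense x hx).mono fun w hw => ?_
    rw [hprod]
    exact mul_ne_zero hw (Complex.exp_ne_zero _)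
  · obtain ⟨τ, h3, h4, h5⟩ := H.loc x hx
    refine ⟨fun y => τ y * Complex.exp (v y - ∑ j ∈ S, vv j y),
      h3.mul ((h0.reg x hx).sub (At0.sum fun j hj => (h1 j hj).reg x hx)).cexp,
      mul_ne_zero h4 (Complex.exp_ne_zero _), ?_⟩
    filter_upwards [h5] with w hw
    rw [hprod, hw, Complex.exp_sub]
    have := Complex.exp_ne_zero (∑ j ∈ S, vv j w)
    field_simp
  · obtain ⟨C₁, hC₁⟩ := H.b1
    refine ⟨Real.exp C * |C₁| * Real.exp C', fun x hx => ?_⟩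
    rw [hprod, norm_mul, norm_mul]
    have e1 := (hexpn _ _ (hC x hx)).1
    have e2 := (hexpn _ _ (hC' x hx)).2
    have e3 : ‖z x‖ ≤ |C₁| * Real.exp (-(d' * D.f x)) * ‖∏ j ∈ S, zz j x‖ := by
      refine (hC₁ x hx).trans (mul_le_mul_of_nonneg_right ?_ (norm_nonneg _))
      exact mul_le_mul (le_abs_self _) (hexp x hx) (Real.exp_pos _).le (abs_nonneg _)
    set P := ‖∏ j ∈ S, zz j x‖ with hP
    have hP0 : 0 ≤ P := norm_nonneg _
    calc ‖z x‖ * ‖Complex.exp (v x)‖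
        ≤ (|C₁| * Real.exp (-(d' * D.f x)) * P) * Real.exp C :=
          mul_le_mul e3 e1 (norm_nonneg _) (by positivity)
      _ ≤ (|C₁| * Real.exp (-(d' * D.f x)) * P) * Real.exp C *
          (Real.exp C' * ‖Complex.exp (∑ j ∈ S, vv j x)‖) :=
          le_mul_of_one_le_right (by positivity) e2
      _ = _ := by ring
  · obtain ⟨C₂, hC₂⟩ := H.b2
    refine ⟨Real.exp C' * |C₂| * Real.exp C, fun x hx => ?_⟩
    rw [hprod, norm_mul, norm_mul]
    have e1 := (hexpn _ _ (hC' x hx)).1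
    have e2 := (hexpn _ _ (hC x hx)).2
    have e3 : ‖∏ j ∈ S, zz j x‖ ≤ |C₂| * Real.exp (-(d' * D.f x)) * ‖z x‖ := by
      refine (hC₂ x hx).trans (mul_le_mul_of_nonneg_right ?_ (norm_nonneg _))
      exact mul_le_mul (le_abs_self _) (hexp x hx) (Real.exp_pos _).le (abs_nonneg _)
    set P := ‖z x‖ with hP
    have hP0 : 0 ≤ P := norm_nonneg _
    calc ‖∏ j ∈ S, zz j x‖ * ‖Complex.exp (∑ j ∈ S, vv j x)‖
        ≤ (|C₂| * Real.exp (-(d' * D.f x)) * P) * Real.exp C' :=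
          mul_le_mul e3 e1 (norm_nonneg _) (by positivity)
      _ ≤ (|C₂| * Real.exp (-(d' * D.f x)) * P) * Real.exp C' *
          (Real.exp C * ‖Complex.exp (v x)‖) :=
          le_mul_of_one_le_right (by positivity) e2
      _ = _ := by ring

/-- change of gauge of the scalar data -/
theorem ScalIn.gauge {n : ℕ} {s : ℤ → ℕ} {z : ℤ → M → ℂ} {A : ℤ → M → Fin 2 → ℂ}
    {N d N' d' : ℝ} (hd : d ≤ d') (H : ScalIn D n s z A N d) {v : ℤ → M → ℂ}
    {A' : ℤ → M → Fin 2 → ℂ} (hv : ∀ l x, v (l + n) x = v l (D.sh (-1) x))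
    (hA' : ∀ l x, A' (l + n) x = A' l (D.sh (-1) x))
    (hcl : ∀ l, ∃ c : ℝ, ∀ x, D.f x < c → dbar1 0 (A' l) x = 0)
    (hg : ∀ l, ∃ c : ℝ, GaugeAt D N' c (A l) (A' l) (v l)) :
    ScalIn D n s (fun l x => z l x * Complex.exp (v l x)) A' N' d' where
  n_pos := H.n_pos
  s_per := H.s_per
  z_per l x := by simp only [H.z_per, hv]
  A_per := hA'
  cl := hcl
  step l := by
    classical
    choose c hc using hg
    obtain ⟨c₀, hc₀⟩ := H.step l
    obtain ⟨m, hm⟩ : ∃ m : ℝ, ∀ j ∈ insert l (Finset.Ico (l - s l) l), m ≤ c j := by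
      obtain ⟨j₀, -, hj₀⟩ := (insert l (Finset.Ico (l - s l) l)).exists_min_image c
        ⟨l, Finset.mem_insert_self _ _⟩
      exact ⟨c j₀, hj₀⟩
    refine ⟨min 0 (min c₀ m), ?_⟩
    have h1 : min 0 (min c₀ m) ≤ m := (min_le_right _ _).trans (min_le_right _ _)
    exact (hc₀.mono ((min_le_right _ _).trans (min_le_left _ _))).gauge (min_le_left _ _) hd
      ((hc l).mono (h1.trans (hm l (Finset.mem_insert_self _ _))))
      fun j hj => (hc j).mono (h1.trans (hm j (Finset.mem_insert_of_mem hj)))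

/-! ### the trivial ends of a bundle -/

variable {ι : Type} [Fintype ι] [DecidableEq ι]

theorem end_eq {L : LB M ι} {i₀ : ι} {a : M → Fin 2 → ℂ} {α : M → EuclideanSpace ℂ ι}
    (hα : Reg0 ∞ 0 α) (hs : L.Sec α) (hh : ∀ x i, L.db0 a 0 α x i = 0) {x : M}
    (hx : L.P x = Matrix.single i₀ i₀ 1) :
    (∀ i, dbar0 0 (fun y => α y i₀) x i = -(a x i) * α x i₀) ∧ ‖α x‖ = ‖α x i₀‖ := by
  constructor
  · intro i
    have h1 := hh x i
    rw [LB.db0, hx, H706.act_single] at h1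
    have h2 := congrArg (fun v : EuclideanSpace ℂ ι => v i₀) h1
    have h3 : dbar0 0 (fun y => H706.pr i₀ (α y)) x i = H706.pr i₀ (dbar0 0 α x i) :=
      dbar0_clm (H706.pr i₀) ((hα.at x).of_le H706.one_le_infty) i
    simp only [H706.pr_apply] at h3
    rw [h3]
    simp at h2
    linear_combination h2
  · have h1 := hs x
    rw [hx, H706.act_single] at h1
    conv_lhs => rw [← h1]
    rw [norm_smul, H706.norm_eb, mul_one]

end

end Vale.Agent.P267.H378
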