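import Vale.Agent.P267.H378.Pom1
import Vale.Agent.P116.FK.CT
import Vale.Agent.P272.GEO.Osgood

/-!
# P267 / H378: interior Hölder estimate for d-bar, several variables; limits; subsequences
-/

set_option linter.all false

open Set Filter Topology Metric MeasureTheory Complex
open scoped ContDiff Real

namespace Vale.Agent.P267.H378

open Vale.Agent.P116.FK (db pompeiu)

section Several

variable {E : Type*} [NormedAddCommGroup E] [NormedSpace ℂ E]

/-- twice the `d-bar` derivative of `u` at `x` in the direction `v` -/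
noncomputable def dbv (u : E → ℂ) (x v : E) : ℂ := fderiv ℝ u x v + I * fderiv ℝ u x (I • v)

theorem line_contDiff (x e : E) {n : WithTop ℕ∞} : ContDiff ℝ n (fun z : ℂ => x + z • e) :=
  contDiff_const.add (contDiff_id.smul contDiff_const)

/-- restriction of `d-bar` to a complex line -/
theorem db_line {u : E → ℂ} {x e : E} {z : ℂ} (h : DifferentiableAt ℝ u (x + z • e)) :
    db (fun z : ℂ => u (x + z • e)) z = dbv u (x + z • e) e := by
  have h1 : HasFDerivAt (fun z : ℂ => x + z • e)
      ((ContinuousLinearMap.toSpanSingleton ℂ e).restrictScalars ℝ) z := by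
    have h2 : HasFDerivAt (fun z : ℂ => z • e)
        ((ContinuousLinearMap.toSpanSingleton ℂ e).restrictScalars ℝ) z :=
      ((ContinuousLinearMap.toSpanSingleton ℂ e).hasFDerivAt (x := z)).restrictScalars ℝ
    exact h2.const_add x
  have h3 := (h.hasFDerivAt.comp z h1).fderiv
  have h4 : fderiv ℝ (fun z : ℂ => u (x + z • e)) z = (fderiv ℝ u (x + z • e)).comp
      ((ContinuousLinearMap.toSpanSingleton ℂ e).restrictScalars ℝ) := h3
  simp only [db, dbv, h4, ContinuousLinearMap.comp_apply,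
    ContinuousLinearMap.coe_restrictScalars', ContinuousLinearMap.toSpanSingleton_apply, one_smul]

/-- **Interior Hölder estimate**: the constant depends only on the radius. -/
theorem holder_ball {R : ℝ} (hR : 0 < R) : ∃ C : ℝ, 0 < C ∧
    ∀ {E : Type*} [NormedAddCommGroup E] [NormedSpace ℂ E] (x0 : E) (u : E → ℂ) (M N : ℝ),
    0 ≤ M → 0 ≤ N → ContDiffOn ℝ 1 u (ball x0 R) → (∀ x ∈ ball x0 R, ‖u x‖ ≤ M) →
    (∀ x ∈ ball x0 R, ∀ v, ‖dbv u x v‖ ≤ N * ‖v‖) →
    ∀ x ∈ ball x0 (R / 6), ∀ y ∈ ball x0 (R / 6),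
      ‖u x - u y‖ ≤ C * (M + N) * ‖x - y‖ ^ (1 / 2 : ℝ) := by
  obtain ⟨C, hC, hmain⟩ := holder_one (R := 3 * R / 4) (by positivity)
  refine ⟨C, hC, ?_⟩
  intro E _ _ x0 u M N hM hN hu huM huN x hx y hy
  by_cases hxy : x = y
  · rw [hxy, sub_self, sub_self, norm_zero, norm_zero]
    rw [Real.zero_rpow (by norm_num), mul_zero]
  have hd : 0 < ‖y - x‖ := norm_pos_iff.2 (sub_ne_zero.2 (Ne.symm hxy))
  set e : E := (‖y - x‖⁻¹ : ℂ) • (y - x) with he
  have hen : ‖e‖ = 1 := by
    rw [he, norm_smul, norm_inv, Complex.norm_real, norm_norm, inv_mul_cancel₀ hd.ne']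
  have hmem : ∀ z ∈ ball (0 : ℂ) (3 * R / 4), x + z • e ∈ ball x0 R := by
    intro z hz
    rw [mem_ball, dist_eq_norm] at hx ⊢
    have : x + z • e - x0 = (x - x0) + z • e := by abel
    rw [this]
    refine (norm_add_le _ _).trans_lt ?_
    rw [norm_smul, hen, mul_one]
    have := mem_ball_zero_iff.1 hz
    linarith
  have h1 := hmain (fun z => u (x + z • e)) M N hM hN
    (hu.comp (line_contDiff x e).contDiffOn hmem)
    (fun w hw => huM _ (hmem w hw))
    (fun w hw => by
      rw [db_line ((hu.contDiffAt (isOpen_ball.mem_nhds (hmem w hw))).differentiableAt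
        (by norm_num))]
      have := huN _ (hmem w hw) e
      rwa [hen, mul_one] at this)
    0 (mem_ball_self (by positivity)) (‖y - x‖ : ℂ) (by
      rw [mem_ball_zero_iff, Complex.norm_real, norm_norm]
      rw [mem_ball, dist_eq_norm] at hx hy
      have : ‖y - x‖ ≤ ‖y - x0‖ + ‖x - x0‖ := by
        calc ‖y - x‖ = ‖(y - x0) - (x - x0)‖ := by congr 1; abel
          _ ≤ _ := norm_sub_le _ _
      linarith)
  have h2 : x + (‖y - x‖ : ℂ) • e = y := by
    rw [he, smul_smul, mul_inv_cancel₀ (by exact_mod_cast hd.ne'), one_smul]; abel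
  simp only [zero_smul, add_zero, h2] at h1
  refine h1.trans (le_of_eq ?_)
  rw [zero_sub, norm_neg, Complex.norm_real, norm_norm, norm_sub_rev]

end Several

/-! ### limits -/

theorem inv_le_kernel (a : ℝ) (ha : 0 ≤ a) : a⁻¹ ≤ 1 + a ^ (-(3 / 2) : ℝ) := by
  have h0 := Real.rpow_nonneg ha (-(3 / 2) : ℝ)
  rcases le_total 1 a with h3 | h3
  · have : a⁻¹ ≤ 1 := inv_le_one_of_one_le₀ h3
    linarith
  · rcases ha.eq_or_lt with h4 | h4
    · rw [← h4]; simp
    · have : a⁻¹ ≤ a ^ (-(3 / 2) : ℝ) := by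
        rw [← Real.rpow_neg_one]
        exact Real.rpow_le_rpow_of_exponent_ge h4 h3 (by norm_num)
      linarith

theorem integrableOn_kernel_maj {y : ℂ} {R S D : ℝ} (hy : ‖y‖ ≤ S) :
    IntegrableOn (fun w : ℂ => D * (1 + ‖w - y‖ ^ (-(3 / 2) : ℝ))) (ball 0 R) := by
  refine Integrable.const_mul (Integrable.add ?_ (integrableOn_rpow_sub hy)) _
  exact integrableOn_const measure_ball_lt_top.ne

theorem integrable_kernel {g : ℂ → ℂ} (hg : AEStronglyMeasurable g) {R S D : ℝ} (hD : 0 ≤ D)
    (hb : ∀ w, ‖g w‖ ≤ D) (hs : ∀ w, w ∉ ball (0 : ℂ) R → g w = 0) {y : ℂ} (hy : ‖y‖ ≤ S) :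
    Integrable (fun w => (w - y)⁻¹ * g w) := by
  have h2 : IntegrableOn (fun w => (w - y)⁻¹ * g w) (ball 0 R) := by
    refine Integrable.mono' (integrableOn_kernel_maj (D := D) hy) ?_ ?_
    · exact (((measurable_id.sub_const y).inv).aestronglyMeasurable.mul hg).restrict
    · refine Eventually.of_forall fun w => ?_
      rw [norm_mul, mul_comm, norm_inv]
      exact mul_le_mul (hb w) (inv_le_kernel _ (norm_nonneg _)) (inv_nonneg.2 (norm_nonneg _)) hD
  rw [← integrableOn_iff_integrable_of_support_subset (s := ball (0 : ℂ) R)]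
  · exact h2
  · intro w hw
    by_contra hcon
    exact hw (by simp only [hs w hcon, mul_zero])

theorem norm_integral_kernel_le {g : ℂ → ℂ} {R S D : ℝ} (hD : 0 ≤ D)
    (hb : ∀ w, ‖g w‖ ≤ D) (hs : ∀ w, w ∉ ball (0 : ℂ) R → g w = 0) {y : ℂ} (hy : ‖y‖ ≤ S) :
    ‖∫ w, (w - y)⁻¹ * g w‖ ≤ D * ∫ w in ball (0 : ℂ) R, (1 + ‖w - y‖ ^ (-(3 / 2) : ℝ)) := by
  have e2 : ∫ w, (w - y)⁻¹ * g w = ∫ w in ball (0 : ℂ) R, (w - y)⁻¹ * g w := by
    rw [setIntegral_eq_integral_of_forall_compl_eq_zero]
    intro w hw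
    rw [hs w hw, mul_zero]
  rw [e2, ← integral_const_mul]
  refine norm_integral_le_of_norm_le (integrableOn_kernel_maj hy) ?_
  refine Eventually.of_forall fun w => ?_
  rw [norm_mul, mul_comm, norm_inv]
  exact mul_le_mul (hb w) (inv_le_kernel _ (norm_nonneg _)) (inv_nonneg.2 (norm_nonneg _)) hD

theorem limit_one {R : ℝ} (hR : 0 < R) {ι : Type*} {l : Filter ι} [l.NeBot] {u : ι → ℂ → ℂ}
    {U : ℂ → ℂ} (hu : ∀ᶠ m in l, ContDiffOn ℝ 1 (u m) (ball 0 R))
    (hlim : TendstoUniformlyOn u U l (closedBall 0 (3 * R / 4)))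
    (hdb : ∀ ε > 0, ∀ᶠ m in l, ∀ w ∈ closedBall (0 : ℂ) (3 * R / 4), ‖db (u m) w‖ ≤ ε) :
    DifferentiableOn ℂ U (ball 0 (R / 2)) := by
  let f : ContDiffBump (0 : ℂ) := ⟨R / 2, 3 * R / 4, by positivity, by linarith⟩
  let F : ℂ → ℂ := fun w => (f w : ℂ)
  have hF : ContDiff ℝ 1 F := Complex.ofRealCLM.contDiff.comp f.contDiff
  have hFs : HasCompactSupport F := f.hasCompactSupport.comp_left (g := ((↑) : ℝ → ℂ)) (by simp)
  have hFc : Continuous (db F) := by
    unfold db
    have := hF.continuous_fderiv (by norm_num)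
    fun_prop
  have hFds : HasCompactSupport (db F) := by
    have h1 : HasCompactSupport (fderiv ℝ F) := hFs.fderiv (𝕜 := ℝ)
    refine HasCompactSupport.mono h1 (fun w hw => ?_)
    intro hcon
    apply hw
    simp [db, hcon]
  obtain ⟨K, hK⟩ := hFc.bounded_above_of_compact_support hFds
  have hK0 : 0 ≤ K := (norm_nonneg _).trans (hK 0)
  have hF1 : ∀ w, ‖F w‖ ≤ 1 := by
    intro w
    simp only [F, Complex.norm_real, Real.norm_eq_abs, abs_of_nonneg f.nonneg]
    exact f.le_one
  have hsub : closedBall (0 : ℂ) (3 * R / 4) ⊆ ball 0 R := closedBall_subset_ball (by linarith)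
  have hF0 : ∀ w, w ∉ closedBall (0 : ℂ) (3 * R / 4) → ∀ᶠ y in 𝓝 w, F y = 0 := by
    intro w hw
    have : (closedBall (0 : ℂ) (3 * R / 4))ᶜ ∈ 𝓝 w := isClosed_closedBall.isOpen_compl.mem_nhds hw
    filter_upwards [this] with y hy
    simp only [F, Complex.ofReal_eq_zero]
    apply f.zero_of_le_dist
    change 3 * R / 4 ≤ dist y 0
    have := not_le.1 (fun hh => hy (mem_closedBall.2 hh))
    exact this.le
  have hdbF0 : ∀ w, w ∉ closedBall (0 : ℂ) (3 * R / 4) → db F w = 0 := by
    intro w hw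
    have h1 : F =ᶠ[𝓝 w] fun _ => 0 := hF0 w hw
    simp only [db]
    rw [h1.fderiv_eq]
    simp
  have hdbF1 : ∀ w ∈ ball (0 : ℂ) (R / 2), db F w = 0 := by
    intro w hw
    have h1 : F =ᶠ[𝓝 w] fun _ => 1 := by
      filter_upwards [isOpen_ball.mem_nhds hw] with y hy
      have : f y = 1 := f.one_of_mem_closedBall (ball_subset_closedBall hy)
      simp [F, this]
    simp only [db]
    rw [h1.fderiv_eq]
    simp
  -- continuity of the limit
  have hUc : ContinuousOn U (closedBall 0 (3 * R / 4)) := by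
    refine hlim.continuousOn (hu.mono fun m hm => ?_).frequently
    exact (hm.continuousOn).mono hsub
  let ν : ℂ → ℂ := fun w => U w * db F w
  have hνc : ContinuousOn ν (closedBall 0 (3 * R / 4)) := hUc.mul hFc.continuousOn
  have hν0 : ∀ w, w ∉ closedBall (0 : ℂ) (3 * R / 4) → ν w = 0 := by
    intro w hw
    simp [ν, hdbF0 w hw]
  have hνi : Integrable ν := by
    rw [← integrableOn_iff_integrable_of_support_subset (s := closedBall (0 : ℂ) (3 * R / 4))]
    · exact hνc.integrableOn_compact (isCompact_closedBall _ _)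
    · intro w hw
      by_contra hcon
      exact hw (hν0 w hcon)
  obtain ⟨B, hB⟩ := (isCompact_closedBall (0 : ℂ) (3 * R / 4)).exists_bound_of_continuousOn hνc
  have hνb : ∀ w, ‖ν w‖ ≤ |B| := by
    intro w
    by_cases hw : w ∈ closedBall (0 : ℂ) (3 * R / 4)
    · exact (hB w hw).trans (le_abs_self B)
    · rw [hν0 w hw, norm_zero]; exact abs_nonneg B
  have hdiff : DifferentiableOn ℂ (Vale.Agent.P116.FK.CT ν) (ball 0 (R / 2)) := by
    have := Vale.Agent.P116.FK.ct_diff hνi (S := (ball (0 : ℂ) (R / 2))ᶜ)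
      isOpen_ball.isClosed_compl (fun w hw => by
        have : w ∈ ball (0 : ℂ) (R / 2) := by simpa using hw
        simp [ν, hdbF1 w this])
    rwa [compl_compl] at this
  -- the formula
  have hform : ∀ z ∈ ball (0 : ℂ) (R / 2), -(2 * π : ℂ) * U z = Vale.Agent.P116.FK.CT ν z := by
    intro z hz
    have hzS : ‖z‖ ≤ R := by have := mem_ball_zero_iff.1 hz; linarith
    have hzc : z ∈ closedBall (0 : ℂ) (3 * R / 4) := by
      rw [mem_closedBall_zero_iff]; have := mem_ball_zero_iff.1 hz; linarith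
    have hlimz : Tendsto (fun m => -(2 * π : ℂ) * u m z) l (𝓝 (-(2 * π : ℂ) * U z)) :=
      (hlim.tendsto_at hzc).const_mul _
    refine tendsto_nhds_unique hlimz ?_
    rw [Metric.tendsto_nhds]
    intro ε hε
    set J := ∫ w in ball (0 : ℂ) R, (1 + ‖w - z‖ ^ (-(3 / 2) : ℝ)) with hJ
    have hJ0 : 0 ≤ J := integral_nonneg fun w =>
      add_nonneg zero_le_one (Real.rpow_nonneg (norm_nonneg _) _)
    set δ : ℝ := ε / (2 * (1 + K) * (J + 1)) with hδ
    have hδ0 : 0 < δ := by positivity
    have h1 := Metric.tendstoUniformlyOn_iff.1 hlim δ hδ0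
    filter_upwards [h1, hdb δ hδ0, hu] with m hm1 hm2 hm3
    let v : ℂ → ℂ := fun w => F w * u m w
    have hv : ContDiff ℝ 1 v := by
      rw [contDiff_iff_contDiffAt]
      intro w
      by_cases hw : w ∈ closedBall (0 : ℂ) (3 * R / 4)
      · exact hF.contDiffAt.mul (hm3.contDiffAt (isOpen_ball.mem_nhds (hsub hw)))
      · have h1 : v =ᶠ[𝓝 w] fun _ => 0 := by
          filter_upwards [hF0 w hw] with y hy
          simp [v, hy]
        exact contDiffAt_const.congr_of_eventuallyEq h1
    have hvs : HasCompactSupport v := hFs.mul_right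
    have hdbv : ∀ w ∈ ball (0 : ℂ) R, db v w = F w * db (u m) w + u m w * db F w := by
      intro w hw
      have h1 : HasFDerivAt F (fderiv ℝ F w) w := (hF.differentiable (by norm_num) w).hasFDerivAt
      have h2 : HasFDerivAt (u m) (fderiv ℝ (u m) w) w :=
        ((hm3.contDiffAt (isOpen_ball.mem_nhds hw)).differentiableAt (by norm_num)).hasFDerivAt
      have h3 := (h1.mul h2).fderiv
      simp only [db]
      have h4 : fderiv ℝ v w = F w • fderiv ℝ (u m) w + u m w • fderiv ℝ F w := h3
      rw [h4]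
      simp only [ContinuousLinearMap.add_apply, ContinuousLinearMap.smul_apply, smul_eq_mul]
      ring
    have hb0 : ∀ w, w ∉ closedBall (0 : ℂ) (3 * R / 4) → db v w = 0 := by
      intro w hw
      have h1 : v =ᶠ[𝓝 w] fun _ => 0 := by
        filter_upwards [hF0 w hw] with y hy
        simp [v, hy]
      simp only [db]
      rw [h1.fderiv_eq]
      simp
    have hvc : Continuous (db v) := by
      unfold db
      have := hv.continuous_fderiv (by norm_num)
      fun_prop
    have hvcs : HasCompactSupport (db v) :=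
      HasCompactSupport.of_support_subset_isCompact (isCompact_closedBall (0 : ℂ) (3 * R / 4))
        (fun w hw => by by_contra hcon; exact hw (hb0 w hcon))
    obtain ⟨B', hB'⟩ := hvc.bounded_above_of_compact_support hvcs
    have hB'0 : 0 ≤ B' := (norm_nonneg _).trans (hB' 0)
    have hp := pompeiu_at hv hvs z
    have hvz : v z = u m z := by
      have : f z = 1 := f.one_of_mem_closedBall (ball_subset_closedBall hz)
      simp [v, F, this]
    rw [hvz] at hp
    have hi1 := integrable_kernel (g := db v) hvc.aestronglyMeasurable hB'0 hB'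
      (fun w hw => hb0 w (fun hh => hw (hsub hh))) (y := z) hzS
    have hi2 := integrable_kernel (g := ν) hνi.1 (abs_nonneg B) hνb
      (fun w hw => hν0 w (fun hh => hw (hsub hh))) (y := z) hzS
    rw [dist_eq_norm]
    have e1 : -(2 * π : ℂ) * u m z - Vale.Agent.P116.FK.CT ν z =
        ∫ w, (w - z)⁻¹ * (db v w - ν w) := by
      rw [← hp, Vale.Agent.P116.FK.CT, ← integral_sub hi1 hi2]
      refine integral_congr_ae (Eventually.of_forall fun w => ?_)
      simp only
      ring
    rw [e1]
    have hbd : ∀ w, ‖db v w - ν w‖ ≤ δ * (1 + K) := by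
      intro w
      by_cases hw : w ∈ closedBall (0 : ℂ) (3 * R / 4)
      · rw [hdbv w (hsub hw)]
        have : F w * db (u m) w + u m w * db F w - ν w =
            F w * db (u m) w + (u m w - U w) * db F w := by simp only [ν]; ring
        rw [this]
        refine (norm_add_le _ _).trans ?_
        rw [norm_mul, norm_mul]
        have h5 : ‖u m w - U w‖ ≤ δ := by
          have := hm1 w hw
          rw [dist_comm, dist_eq_norm] at this
          exact this.le
        calc ‖F w‖ * ‖db (u m) w‖ + ‖u m w - U w‖ * ‖db F w‖ ≤ 1 * δ + δ * K :=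
              add_le_add (mul_le_mul (hF1 w) (hm2 w hw) (norm_nonneg _) zero_le_one)
                (mul_le_mul h5 (hK w) (norm_nonneg _) hδ0.le)
          _ = δ * (1 + K) := by ring
      · rw [hb0 w hw, hν0 w hw, sub_zero, norm_zero]; positivity
    have := norm_integral_kernel_le (g := fun w => db v w - ν w) (D := δ * (1 + K)) (R := R)
      (S := R) (y := z) (by positivity) hbd
      (fun w hw => by
        rw [hb0 w (fun hh => hw (hsub hh)), hν0 w (fun hh => hw (hsub hh)), sub_zero]) hzS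
    refine this.trans_lt ?_
    rw [← hJ, hδ]
    have h6 : ε / (2 * (1 + K) * (J + 1)) * (1 + K) * J = ε / 2 * (J / (J + 1)) := by
      field_simp
    rw [h6]
    have h7 : J / (J + 1) < 1 := (div_lt_one (by positivity)).2 (by linarith)
    have h8 : 0 ≤ J / (J + 1) := by positivity
    nlinarith
  have hpi : (2 * π : ℂ) ≠ 0 := by
    have := Real.pi_ne_zero
    exact mul_ne_zero two_ne_zero (by exact_mod_cast this)
  have hU : ∀ z ∈ ball (0 : ℂ) (R / 2), U z = -(2 * π : ℂ)⁻¹ * Vale.Agent.P116.FK.CT ν z := by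
    intro z hz
    rw [← hform z hz]
    field_simp
  exact (hdiff.const_mul (-(2 * π : ℂ)⁻¹)).congr hU

/-- **Limits of almost holomorphic functions are holomorphic** (open set version). -/
theorem limit_open {E : Type*} [NormedAddCommGroup E] [NormedSpace ℂ E] [FiniteDimensional ℂ E]
    {ι : Type*} {l : Filter ι} [l.NeBot] {V : Set E} (hV : IsOpen V) {u : ι → E → ℂ} {U : E → ℂ}
    (hu : ∀ᶠ m in l, ContDiffOn ℝ 1 (u m) V) (hlim : TendstoUniformlyOn u U l V)
    (hdb : ∀ ε > 0, ∀ᶠ m in l, ∀ x ∈ V, ∀ v, ‖dbv (u m) x v‖ ≤ ε * ‖v‖) :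
    DifferentiableOn ℂ U V := by
  have hUc : ContinuousOn U V :=
    hlim.continuousOn (hu.mono fun m hm => hm.continuousOn).frequently
  -- complex lines
  have hline : ∀ x ∈ V, ∀ e : E, DifferentiableAt ℂ (fun z : ℂ => U (x + z • e)) 0 := by
    intro x hx e
    obtain ⟨r, hr, hrV⟩ := Metric.isOpen_iff.1 hV x hx
    set ρ : ℝ := r / (‖e‖ + 1) with hρ
    have he1 : 0 < ‖e‖ + 1 := by positivity
    have hρ0 : 0 < ρ := by positivity
    have hmem : ∀ z ∈ ball (0 : ℂ) ρ, x + z • e ∈ V := by
      intro z hz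
      apply hrV
      rw [mem_ball, dist_eq_norm, add_sub_cancel_left, norm_smul]
      have hz' := mem_ball_zero_iff.1 hz
      calc ‖z‖ * ‖e‖ ≤ ‖z‖ * (‖e‖ + 1) := by
            refine mul_le_mul_of_nonneg_left ?_ (norm_nonneg _); linarith
        _ < ρ * (‖e‖ + 1) := mul_lt_mul_of_pos_right hz' he1
        _ = r := by rw [hρ]; field_simp
    have hsub : closedBall (0 : ℂ) (3 * ρ / 4) ⊆ ball 0 ρ := closedBall_subset_ball (by linarith)
    have h1 := limit_one (u := fun m z => u m (x + z • e)) (U := fun z => U (x + z • e)) hρ0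
      (hu.mono fun m hm => hm.comp (line_contDiff x e).contDiffOn hmem)
      (by
        rw [Metric.tendstoUniformlyOn_iff]
        intro ε hε
        filter_upwards [Metric.tendstoUniformlyOn_iff.1 hlim ε hε] with m hm z hz
        exact hm _ (hmem z (hsub hz)))
      (by
        intro ε hε
        filter_upwards [hdb (ε / (‖e‖ + 1)) (by positivity), hu] with m hm hum w hw
        rw [db_line ((hum.contDiffAt (hV.mem_nhds (hmem w (hsub hw)))).differentiableAt
          (by norm_num))]
        refine (hm _ (hmem w (hsub hw)) e).trans ?_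
        calc ε / (‖e‖ + 1) * ‖e‖ = ε * (‖e‖ / (‖e‖ + 1)) := by field_simp
          _ ≤ ε * 1 := by
              refine mul_le_mul_of_nonneg_left ?_ hε.le
              exact (div_le_one he1).2 (by linarith)
          _ = ε := mul_one ε)
    exact (h1 0 (mem_ball_self (by positivity))).differentiableAt
      (isOpen_ball.mem_nhds (mem_ball_self (by positivity)))
  -- Osgood
  let b := Module.finBasis ℂ E
  let L : E ≃L[ℂ] (Fin (Module.finrank ℂ E) → ℂ) := b.equivFun.toContinuousLinearEquiv
  have hV' : IsOpen (L.symm ⁻¹' V) := hV.preimage L.symm.continuous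
  have hO := Vale.Agent.P272.GEO.osgood hV' (g := fun y => U (L.symm y))
    (hUc.comp L.symm.continuous.continuousOn (fun y hy => hy))
    (by
      intro y hy i
      have h2 := hline (L.symm y) hy (L.symm (Pi.single i 1))
      have h3 : (fun τ : ℂ => U (L.symm (Function.update y i τ))) =
          (fun z : ℂ => U (L.symm y + z • L.symm (Pi.single i 1))) ∘ (fun τ => τ - y i) := by
        funext τ
        simp only [Function.comp_apply]
        congr 1
        rw [← map_smul, ← map_add]
        congr 1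
        funext j
        by_cases hj : j = i
        · subst hj
          simp
        · simp [Function.update_of_ne hj, Pi.single_eq_of_ne hj]
      rw [h3]
      refine DifferentiableAt.comp (y i) ?_ (differentiableAt_id.sub_const _)
      simp only [sub_self]
      exact h2)
  have h4 : DifferentiableOn ℂ (fun x => U (L.symm (L x))) V := by
    refine hO.comp L.differentiable.differentiableOn ?_
    intro x hx
    change L.symm (L x) ∈ V
    rwa [L.symm_apply_apply]
  simpa only [L.symm_apply_apply] using h4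

/-- **Diagonal extraction**: countably many compact sets. -/
theorem exists_common_subseq {ι : Type*} [Countable ι] {E F : Type*} [PseudoMetricSpace E]
    [MetricSpace F] [ProperSpace F] [Inhabited F] (K : ι → Set E) (hK : ∀ i, IsCompact (K i))
    (u : ι → ℕ → E → F)
    (hb : ∀ i, ∃ (c : F) (M : ℝ), ∀ᶠ m in atTop, ∀ x ∈ K i, dist (u i m x) c ≤ M)
    (he : ∀ i, ∀ ε > 0, ∃ δ > 0, ∀ᶠ m in atTop, ∀ x ∈ K i, ∀ y ∈ K i, dist x y < δ →
      dist (u i m x) (u i m y) < ε) :
    ∃ φ : ℕ → ℕ, StrictMono φ ∧ ∀ i, ∃ g : E → F, ContinuousOn g (K i) ∧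
      TendstoUniformlyOn (fun m => u i (φ m)) g atTop (K i) := by
  classical
  -- countable dense subsets
  have hdense : ∀ i, ∃ D : Set E, D ⊆ K i ∧ D.Countable ∧ K i ⊆ closure D := by
    intro i
    obtain ⟨D, hD1, hD2, hD3⟩ := (hK i).isSeparable.exists_countable_dense_subset
    exact ⟨D, hD1, hD2, hD3⟩
  choose D hD1 hD2 hD3 using hdense
  choose c M hM using hb
  have : ∀ i, Countable (D i) := fun i => (hD2 i).to_subtype
  let P := Σ i, D i
  let w : ℕ → (∀ p : P, F) := fun m p =>
    if dist (u p.1 m p.2) (c p.1) ≤ M p.1 then u p.1 m p.2 else c p.1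
  have hcomp : IsCompact (Set.univ.pi fun p : P => closedBall (c p.1) (|M p.1|)) :=
    isCompact_univ_pi fun p => isCompact_closedBall _ _
  have hwmem : ∀ m, w m ∈ Set.univ.pi fun p : P => closedBall (c p.1) (|M p.1|) := by
    intro m p _
    simp only [w]
    split_ifs with h
    · exact mem_closedBall.2 (h.trans (le_abs_self _))
    · exact mem_closedBall_self (abs_nonneg _)
  obtain ⟨a, -, φ, hφ, hlim⟩ := hcomp.isSeqCompact hwmem
  refine ⟨φ, hφ, fun i => ?_⟩
  -- pointwise convergence on the dense subset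
  have hpt : ∀ d ∈ D i, ∃ a : F, Tendsto (fun m => u i (φ m) d) atTop (𝓝 a) := by
    intro d hd
    have h1 := (tendsto_pi_nhds.1 hlim) ⟨i, ⟨d, hd⟩⟩
    refine ⟨_, h1.congr' ?_⟩
    have h2 := hφ.tendsto_atTop.eventually (hM i)
    filter_upwards [h2] with m hm
    simp only [Function.comp_apply, w]
    rw [if_pos (hm d (hD1 i hd))]
  -- uniformly Cauchy
  have hcau : UniformCauchySeqOn (fun m => u i (φ m)) atTop (K i) := by
    rw [Metric.uniformCauchySeqOn_iff]
    intro ε hε
    obtain ⟨δ, hδ, hev⟩ := he i (ε / 4) (by positivity)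
    have hev' := hφ.tendsto_atTop.eventually hev
    -- finite net
    obtain ⟨T, hTD, hTf, hTcov⟩ : ∃ T ⊆ D i, T.Finite ∧ K i ⊆ ⋃ x ∈ T, ball x δ := by
      have hcov : K i ⊆ ⋃ x ∈ D i, ball x δ := by
        intro x hx
        obtain ⟨d, hd, hxd⟩ := Metric.mem_closure_iff.1 (hD3 i hx) δ hδ
        exact mem_biUnion hd (mem_ball.2 hxd)
      obtain ⟨T, hT1, hT2, hT3⟩ := (hK i).elim_finite_subcover_image
        (b := D i) (c := fun x => ball x δ) (fun x _ => isOpen_ball) hcov
      exact ⟨T, hT1, hT2, hT3⟩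
    have hT : ∀ᶠ N in atTop, ∀ d ∈ T, ∀ m ≥ N, ∀ n ≥ N,
        dist (u i (φ m) d) (u i (φ n) d) < ε / 4 := by
      rw [hTf.eventually_all]
      intro d hd
      obtain ⟨a, ha⟩ := hpt d (hTD hd)
      obtain ⟨N, hN⟩ := Metric.cauchySeq_iff.1 ha.cauchySeq (ε / 4) (by positivity)
      filter_upwards [eventually_ge_atTop N] with N' hN' m hm n hn
      exact hN m (hN'.trans hm) n (hN'.trans hn)
    obtain ⟨N1, hN1⟩ := eventually_atTop.1 hev'
    obtain ⟨N2, hN2⟩ := hT.exists
    refine ⟨max N1 N2, fun m hm n hn x hx => ?_⟩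
    obtain ⟨d, hd, hxd⟩ := mem_iUnion₂.1 (hTcov hx)
    have hdK : d ∈ K i := hD1 i (hTD hd)
    have h1 := hN1 m ((le_max_left _ _).trans hm) x hx d hdK (mem_ball.1 hxd)
    have h2 := hN1 n ((le_max_left _ _).trans hn) x hx d hdK (mem_ball.1 hxd)
    have h3 := hN2 d hd m ((le_max_right _ _).trans hm) n ((le_max_right _ _).trans hn)
    have h4 := dist_triangle4 (u i (φ m) x) (u i (φ m) d) (u i (φ n) d) (u i (φ n) x)
    rw [dist_comm (u i (φ n) d)] at h4
    linarith
  -- the limit
  have hex : ∀ x ∈ K i, ∃ a : F, Tendsto (fun m => u i (φ m) x) atTop (𝓝 a) := by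
    intro x hx
    refine cauchySeq_tendsto_of_complete ?_
    rw [Metric.cauchySeq_iff]
    intro ε hε
    obtain ⟨N, hN⟩ := Metric.uniformCauchySeqOn_iff.1 hcau ε hε
    exact ⟨N, fun m hm n hn => hN m hm n hn x hx⟩
  let g : E → F := fun x => if h : x ∈ K i then (hex x h).choose else default
  have hg : ∀ x ∈ K i, Tendsto (fun m => u i (φ m) x) atTop (𝓝 (g x)) := by
    intro x hx
    simp only [g, dif_pos hx]
    exact (hex x hx).choose_spec
  have hunif : TendstoUniformlyOn (fun m => u i (φ m)) g atTop (K i) :=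
    hcau.tendstoUniformlyOn_of_tendsto hg
  refine ⟨g, ?_, hunif⟩
  -- continuity from the uniform modulus
  intro x hx
  rw [Metric.continuousWithinAt_iff]
  intro ε hε
  obtain ⟨δ, hδ, hev⟩ := he i (ε / 2) (by positivity)
  refine ⟨δ, hδ, fun {y} hy hxy => ?_⟩
  have h1 : Tendsto (fun m => dist (u i (φ m) y) (u i (φ m) x)) atTop (𝓝 (dist (g y) (g x))) :=
    (hg y hy).dist (hg x hx)
  have h2 : dist (g y) (g x) ≤ ε / 2 := by
    refine le_of_tendsto h1 ?_
    filter_upwards [hφ.tendsto_atTop.eventually hev] with m hm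
    exact (hm y hy x hx hxy).le
  linarith

end Vale.Agent.P267.H378
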