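import Vale.Agent.P267.H378.NFslab
import Vale.Agent.P267.H877.Iface

/-!
# P267 / H378: the property `NF` of the interface of block A
-/

set_option linter.all false

open Set Filter Topology Metric Complex
open scoped ContDiff Real ComplexConjugate Manifold Matrix ComplexOrder

namespace Vale.Agent.P267.H378

open Vale.Agent.P267.FL Vale.Agent.P267.XT

noncomputable section

section Reg

variable {X : Type*} [TopologicalSpace X] [ChartedSpace C2 X] [IsManifold 𝓘(ℂ, C2) ω X]
  {ι : Type} [Fintype ι] [DecidableEq ι]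

/-- smoothness of `P s` -/
theorem contDiffOn_act {P : C2 → Matrix ι ι ℂ} {v : C2 → EuclideanSpace ℂ ι} {U : Set C2}
    {n : WithTop ℕ∞} (hP : ∀ i j, ContDiffOn ℝ n (fun z => P z i j) U) (hv : ContDiffOn ℝ n v U) :
    ContDiffOn ℝ n (fun z => LB.act (P z) (v z)) U := by
  have hv' : ∀ l, ContDiffOn ℝ n (fun z => v z l) U := by
    intro l
    have h1 : ContDiff ℝ n (fun w : EuclideanSpace ℂ ι => w l) :=
      ((EuclideanSpace.proj (𝕜 := ℂ) l).restrictScalars ℝ).contDiff
    exact h1.comp_contDiffOn hv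
  have h2 : ContDiffOn ℝ n (fun z => ∑ k, (∑ l, P z k l * v z l) •
      (EuclideanSpace.single k (1 : ℂ) : EuclideanSpace ℂ ι)) U := by
    refine ContDiffOn.sum fun k _ => ?_
    have h3 : ContDiffOn ℝ n (fun z => ∑ l, P z k l * v z l) U :=
      ContDiffOn.sum fun l _ => (hP k l).mul (hv' l)
    exact h3.smul contDiffOn_const
  refine h2.congr fun z _ => ?_
  ext k
  simp [LB.act, Matrix.mulVec, dotProduct, Pi.single_apply]

/-- regularity of `∂̄_L s` -/
theorem reg1_db0 (L : LB X ι) {a : X → Fin 2 → ℂ} {κ : ℤ} {s : X → EuclideanSpace ℂ ι}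
    {m n : WithTop ℕ∞} (hn : n ≤ ∞) (ha : Reg1 n 0 a) (hs : Reg0 m κ s) (hmn : n + 1 ≤ m) :
    Reg1 n κ (LB.db0 L a κ s) := by
  intro e he
  have hsd : ∀ z ∈ e.target, DifferentiableAt ℝ (loc0 κ e s) z := fun z hz =>
    ((hs e he).contDiffAt (e.open_target.mem_nhds hz)).differentiableAt (by
      intro h0
      rw [h0] at hmn
      exact absurd (le_trans le_add_self hmn) (by simp))
  rw [contDiffOn_pi]
  intro i
  have h1 : ContDiffOn ℝ n (fun z => LB.act (L.P (e.symm z)) (dzb i (loc0 κ e s) z) +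
      loc1 0 e a z i • loc0 κ e s z) e.target := by
    have h2 : ContDiffOn ℝ n (fun z => LB.act (L.P (e.symm z)) (dzb i (loc0 κ e s) z))
        e.target := by
      refine contDiffOn_act (fun k l => ?_) (contDiffOn_dzb e.open_target (hs e he) hmn i)
      have := L.smooth k l e he
      rw [LB.loc0_zero] at this
      exact this.of_le hn
    have h3 : ContDiffOn ℝ n (fun z => loc1 0 e a z i) e.target := (contDiffOn_pi.1 (ha e he)) i
    have h4 : ContDiffOn ℝ n (loc0 κ e s) e.target := (hs e he).of_le (le_trans le_self_add hmn)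
    exact h2.add (h3.smul h4)
  exact h1.congr fun z hz => loc1_db0 L a he hz (hsd z hz) i

theorem reg1_sub {V : Type*} [NormedAddCommGroup V] [NormedSpace ℂ V] {n : WithTop ℕ∞} {κ : ℤ}
    {a b : X → Fin 2 → V} (ha : Reg1 n κ a) (hb : Reg1 n κ b) :
    Reg1 n κ (fun y i => a y i - b y i) := by
  intro e he
  have : loc1 κ e (fun y i => a y i - b y i) = fun z => loc1 κ e a z - loc1 κ e b z := by
    funext z
    exact loc1_sub κ e a b z
  rw [this]
  exact (ha e he).sub (hb e he)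

theorem reg1_of_le {V : Type*} [NormedAddCommGroup V] [NormedSpace ℂ V] {m n : WithTop ℕ∞} {κ : ℤ}
    {a : X → Fin 2 → V} (ha : Reg1 n κ a) (h : m ≤ n) : Reg1 m κ a :=
  fun e he => (ha e he).of_le h

end Reg

variable {M : Type} [TopologicalSpace M] [ChartedSpace C2 M] [IsManifold 𝓘(ℂ, C2) ω M]
  (D : XTData M)

/-- the property `NF` follows from the existence of local frames and local solutions -/
theorem nf_of
    (hF : ∀ (ι : Type) [Fintype ι] [DecidableEq ι] (L : LB M ι) (a : M → Fin 2 → ℂ), L.IsHol a →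
      HasFrames L a)
    (hS : ∀ (ι : Type) [Fintype ι] [DecidableEq ι] (L : LB M ι) (a : M → Fin 2 → ℂ), L.IsHol a →
      ∀ (κ : ℤ) (g : M → Fin 2 → EuclideanSpace ℂ ι), Reg1 ∞ κ g → L.Sec1 g →
        (∀ x, L.db1 a κ g x = 0) → LocSol L a κ g) : D.NF := by
  intro ι _ _ κ L a Lν aν g uν hL hLν hTL hTa hg hg1 hgc hu hsec hbd hTd
  have nn : (0 : WithTop ℕ∞) ≤ ∞ := by norm_num
  have hev : ∀ {F : ℕ → ℝ}, Tendsto F atTop (𝓝 0) → ∀ ε > 0, ∀ᶠ n in atTop, F n ≤ ε := by
    intro F hF ε hε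
    filter_upwards [(Metric.tendsto_nhds.1 hF) ε hε] with n hn
    rw [Real.dist_eq, sub_zero] at hn
    exact (le_abs_self _).trans hn.le
  obtain ⟨φ, hφ, v, h1, h2, h3, h4, h5, h6⟩ := normal_families_prof D (L := L) (a := a) (κ := κ)
    (g := g) (Ln := Lν) (an := aν) (u := uν) (hF ι L a hL) (hS ι L a hL κ g hg hg1 hgc) hTL
    (fun n => reg1_of_le (reg1_sub (hLν n).smooth hL.smooth) nn)
    (fun j ε hε => hev (hTa j) ε hε)
    (fun n => reg0_of_le (hu n) (by norm_num)) hsec
    (fun j => by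
      obtain ⟨B, hB⟩ := hbd j
      exact ⟨B, Eventually.of_forall hB⟩)
    (fun n => reg1_sub (reg1_db0 (Lν n) (m := ∞) (n := 0) nn (reg1_of_le (hLν n).smooth nn) (hu n)
      (by norm_num)) (reg1_of_le hg nn))
    (fun j ε hε => hev (hTd j) ε hε)
  refine ⟨φ, hφ, v, h1, h2, fun x i => by rw [h3], fun j => ?_⟩
  rw [Metric.tendsto_nhds]
  intro ε hε
  filter_upwards [h6 _ (D.isCompact_slab j) (ε / 2) (by positivity)] with n hn
  have e1 : 0 ≤ D.p0 κ (fun x => uν (φ n) x - v x) j :=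
    D.prof_nonneg (fun x => n0_nonneg (D.herm.posDef x) κ _) j
  have e2 : D.p0 κ (fun x => uν (φ n) x - v x) j ≤ ε / 2 := D.prof_le (by positivity) hn
  rw [Real.dist_eq, sub_zero, abs_of_nonneg e1]
  linarith

end

end Vale.Agent.P267.H378
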