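import Vale.Agent.P267.H399.Wirt
import Vale.Agent.P267.H378.Mont

/-!
# P267 / H378: normal families, the local (coordinate) part
-/

set_option linter.all false

open Set Filter Topology Metric Complex
open scoped ContDiff Real ComplexConjugate

namespace Vale.Agent.P267.H378

open Vale.Agent.P267.FL

section

variable {V : Type*} [NormedAddCommGroup V] [NormedSpace ℂ V]

/-- a vector of `ℂ²` as a real combination of the standard vectors -/
theorem vec_decomp (v : C2) : v = ∑ i, (((v i).re : ℝ) • (Pi.single i 1 : C2) +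
    ((v i).im : ℝ) • (Pi.single i Complex.I : C2)) := by
  funext j
  simp only [Fin.sum_univ_two, Pi.add_apply, Pi.smul_apply]
  fin_cases j
  · simp [Pi.single_apply, Complex.re_add_im]
  · simp [Pi.single_apply, Complex.re_add_im]

theorem dbv_eq (u : C2 → ℂ) (z v : C2) : dbv u z v = ∑ i, conj (v i) * (2 * dzb i u z) := by
  have h1 := vec_decomp v
  have h2 : Complex.I • v = ∑ i, (((v i).re : ℝ) • (Pi.single i Complex.I : C2) -
      ((v i).im : ℝ) • (Pi.single i 1 : C2)) := by
    funext j
    simp only [Fin.sum_univ_two, Pi.sub_apply, Pi.smul_apply, Pi.add_apply]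
    fin_cases j
    · simp [Pi.single_apply]
      apply Complex.ext <;> simp
    · simp [Pi.single_apply]
      apply Complex.ext <;> simp
  unfold dbv
  rw [h2]
  nth_rewrite 1 [h1]
  simp only [map_sum, map_add, map_sub, map_smul, Finset.mul_sum, ← Finset.sum_add_distrib]
  refine Finset.sum_congr rfl fun i _ => ?_
  simp only [dzb, smul_eq_mul, Complex.real_smul]
  have h3 : conj (v i) = ((v i).re : ℂ) - (v i).im * Complex.I := by
    apply Complex.ext <;> simp
  rw [h3]
  ring_nf
  rw [Complex.I_sq]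
  ring

theorem norm_dbv_le {u : C2 → ℂ} {z : C2} {ε : ℝ} (h : ∀ i, ‖dzb i u z‖ ≤ ε) (v : C2) :
    ‖dbv u z v‖ ≤ 4 * ε * ‖v‖ := by
  rw [dbv_eq]
  refine (norm_sum_le _ _).trans ?_
  rw [Fin.sum_univ_two]
  have h1 : ∀ i, ‖conj (v i) * (2 * dzb i u z)‖ ≤ ‖v‖ * (2 * ε) := by
    intro i
    rw [norm_mul, norm_mul, RCLike.norm_conj]
    have h2 := norm_le_pi_norm v i
    have h3 : ‖(2 : ℂ)‖ = 2 := by norm_num
    rw [h3]
    exact mul_le_mul h2 (by linarith [h i]) (by positivity) (norm_nonneg _)
  have := h1 0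
  have := h1 1
  linarith

end

section Frame

variable {ι : Type} [Fintype ι] [DecidableEq ι]

theorem act_smul (M : Matrix ι ι ℂ) (c : ℂ) (v : EuclideanSpace ℂ ι) :
    LB.act M (c • v) = c • LB.act M v := by
  simp only [LB.act]
  ext j
  simp [Matrix.mulVec_smul]

theorem act_add (M : Matrix ι ι ℂ) (v w : EuclideanSpace ℂ ι) :
    LB.act M (v + w) = LB.act M v + LB.act M w := by
  simp only [LB.act]
  ext j
  simp [Matrix.mulVec_add]

/-- a projector of trace one has one-dimensional range: if `P f = f`, `f ≠ 0` and `P s = s` then `s`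
is the multiple `⟪f, s⟫ / ‖f‖²` of `f` -/
theorem rank_one {P : Matrix ι ι ℂ} (hh : P.conjTranspose = P) (hP : P * P = P) (ht : P.trace = 1)
    {f s : EuclideanSpace ℂ ι} (hf : LB.act P f = f) (hf0 : f ≠ 0) (hs : LB.act P s = s) :
    s = (inner ℂ f s / (‖f‖ : ℂ) ^ 2) • f := by
  classical
  have hn : (‖f‖ : ℂ) ≠ 0 := by exact_mod_cast norm_ne_zero_iff.2 hf0
  set c : ℂ := inner ℂ f s / (‖f‖ : ℂ) ^ 2 with hc
  set t : EuclideanSpace ℂ ι := s - c • f with ht'
  have hort : inner ℂ f t = 0 := by
    rw [ht', inner_sub_right, inner_smul_right, inner_self_eq_norm_sq_to_K, hc]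
    simp only [Complex.coe_algebraMap]
    field_simp
    simp
  have hPt : LB.act P t = t := by
    have e1 : t = s + (-c) • f := by rw [ht']; module
    rw [e1, act_add, act_smul, hf, hs]
  by_contra hne
  have ht0 : t ≠ 0 := fun h0 => hne (sub_eq_zero.1 h0)
  -- the projector `P` as a linear map has trace at least two: contradiction
  let T : EuclideanSpace ℂ ι →ₗ[ℂ] EuclideanSpace ℂ ι :=
    { toFun := LB.act P
      map_add' := act_add P
      map_smul' := fun c v => act_smul P c v }
  have hidem : T ∘ₗ T = T := by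
    ext v j
    change (LB.act P (LB.act P _)) j = (LB.act P _) j
    simp only [LB.act]
    rw [Matrix.mulVec_mulVec, hP]
  have htr : LinearMap.trace ℂ _ T = 1 := by
    have e1 : LinearMap.toMatrix (EuclideanSpace.basisFun ι ℂ).toBasis
        (EuclideanSpace.basisFun ι ℂ).toBasis T = P := by
      ext i j
      rw [LinearMap.toMatrix_apply]
      simp only [OrthonormalBasis.coe_toBasis_repr_apply, OrthonormalBasis.coe_toBasis,
        EuclideanSpace.basisFun_repr, EuclideanSpace.basisFun_apply]
      change (LB.act P _) i = _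
      simp only [LB.act]
      simp [Matrix.mulVec_single]
    rw [LinearMap.trace_eq_matrix_trace ℂ (EuclideanSpace.basisFun ι ℂ).toBasis, e1, ht]
  have hproj : LinearMap.IsProj (LinearMap.range T) T := by
    refine ⟨fun x => LinearMap.mem_range_self T x, ?_⟩
    rintro _ ⟨y, rfl⟩
    exact LinearMap.congr_fun hidem y
  have hfin : LinearMap.trace ℂ _ T = (Module.finrank ℂ (LinearMap.range T) : ℂ) :=
    hproj.trace
  have h1 : Module.finrank ℂ (LinearMap.range T) = 1 := by
    rw [htr] at hfin
    exact_mod_cast hfin.symm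
  have hf' : f ∈ LinearMap.range T := ⟨f, hf⟩
  have ht'' : t ∈ LinearMap.range T := ⟨t, hPt⟩
  obtain ⟨v, hv⟩ := finrank_eq_one_iff'.1 h1 |>.imp fun v hv => hv.2
  obtain ⟨a, ha⟩ := hv ⟨f, hf'⟩
  obtain ⟨b, hb⟩ := hv ⟨t, ht''⟩
  have ha' : a • (v : EuclideanSpace ℂ ι) = f := by simpa using congrArg Subtype.val ha
  have hb' : b • (v : EuclideanSpace ℂ ι) = t := by simpa using congrArg Subtype.val hb
  have ha0 : a ≠ 0 := by rintro rfl; exact hf0 (by rw [← ha', zero_smul])
  have hv0 : (v : EuclideanSpace ℂ ι) ≠ 0 := by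
    intro h0; exact hf0 (by rw [← ha', h0, smul_zero])
  have : inner ℂ f t = conj a * b * (‖(v : EuclideanSpace ℂ ι)‖ : ℂ) ^ 2 := by
    rw [← ha', ← hb', inner_smul_left, inner_smul_right, inner_self_eq_norm_sq_to_K]
    simp only [Complex.coe_algebraMap]
    ring
  rw [hort] at this
  have hvn : (‖(v : EuclideanSpace ℂ ι)‖ : ℂ) ≠ 0 := by exact_mod_cast norm_ne_zero_iff.2 hv0
  have hb0 : b = 0 := by
    have h3 : conj a ≠ 0 := by simpa using ha0
    have h4 := this.symm
    rcases mul_eq_zero.1 h4 with h5 | h5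
    · rcases mul_eq_zero.1 h5 with h6 | h6
      · exact absurd h6 h3
      · exact h6
    · exact absurd h5 (pow_ne_zero 2 hvn)
  exact ht0 (by rw [← hb', hb0, zero_smul])

end Frame

end Vale.Agent.P267.H378
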