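import Vale.Agent.P267.H378.NF
import Vale.Agent.P267.H378.Met2

/-!
# P267 / H378: normal families, metric form
-/

set_option linter.all false

open Set Filter Topology Metric Complex
open scoped ContDiff Real ComplexConjugate Manifold Matrix ComplexOrder

namespace Vale.Agent.P267.H378

open Vale.Agent.P267.FL Vale.Agent.P267.XT

noncomputable section

section Lin

variable {V : Type*} [NormedAddCommGroup V] [NormedSpace ℂ V]
variable {X : Type*} [TopologicalSpace X] [ChartedSpace C2 X]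

theorem loc0_sub (κ : ℤ) (e : Ch X) (s t : X → V) (z : C2) :
    loc0 κ e (fun y => s y - t y) z = loc0 κ e s z - loc0 κ e t z := by
  simp only [loc0, smul_sub]

theorem loc1_sub (κ : ℤ) (e : Ch X) (s t : X → Fin 2 → V) (z : C2) :
    loc1 κ e (fun y i => s y i - t y i) z = loc1 κ e s z - loc1 κ e t z := by
  funext i
  simp only [loc1, smul_sub, Finset.sum_sub_distrib, Pi.sub_apply]

end Lin

variable {X : Type} [TopologicalSpace X] [ChartedSpace C2 X] [IsManifold 𝓘(ℂ, C2) ω X]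
  {ι : Type} [Fintype ι] [DecidableEq ι]
  {L : LB X ι} {a : X → Fin 2 → ℂ} {κ : ℤ} {g : X → Fin 2 → EuclideanSpace ℂ ι}
  {Ln : ℕ → LB X ι} {an : ℕ → X → Fin 2 → ℂ} {u : ℕ → X → EuclideanSpace ℂ ι}
  {h : X → Matrix (Fin 2) (Fin 2) ℂ}

/-- locally uniform convergence of forms in the metric norm, in charts -/
theorem unif1_of_metric {V : Type*} [NormedAddCommGroup V] [InnerProductSpace ℂ V]
    (hh : IsHerm h) {κ : ℤ} {w : ℕ → X → Fin 2 → V} {g : X → Fin 2 → V}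
    (H : ∀ K, IsCompact K → ∀ ε > 0, ∀ᶠ n in atTop, ∀ x ∈ K,
      n1 h κ (fun y i => w n y i - g y i) x ≤ ε) {e : Ch X} (he : e ∈ atlas C2 X) {K : Set C2}
    (hKt : K ⊆ e.target) (hK : IsCompact K) :
    TendstoUniformlyOn (fun n => loc1 κ e (w n)) (loc1 κ e g) atTop K := by
  rw [Metric.tendstoUniformlyOn_iff]
  intro ε hε
  obtain ⟨C, hC, hCK⟩ := n1_compare hh he hKt hK κ
  filter_upwards [H (e.symm '' K) (hK.image_of_continuousOn (e.continuousOn_symm.mono hKt))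
    (ε / (2 * C)) (by positivity)] with n hn z hz
  have h1 := hn (e.symm z) ⟨z, hz, rfl⟩
  have h2 := (hCK z hz (fun y i => w n y i - g y i)).1
  rw [loc1_sub] at h2
  rw [dist_comm, dist_eq_norm]
  calc ‖loc1 κ e (w n) z - loc1 κ e g z‖ ≤ C * (ε / (2 * C)) := h2.trans (by gcongr)
    _ = ε / 2 := by field_simp
    _ < ε := by linarith

theorem bdd0_of_metric {V : Type*} [NormedAddCommGroup V] [InnerProductSpace ℂ V]
    (hh : IsHerm h) {κ : ℤ} {w : ℕ → X → V}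
    (H : ∀ K, IsCompact K → ∃ M, ∀ᶠ n in atTop, ∀ x ∈ K, n0 h κ (w n) x ≤ M)
    {e : Ch X} (he : e ∈ atlas C2 X) {K : Set C2}
    (hKt : K ⊆ e.target) (hK : IsCompact K) : ∃ M, ∀ᶠ n in atTop, ∀ z ∈ K,
      ‖loc0 κ e (w n) z‖ ≤ M := by
  obtain ⟨C, hC, hCK⟩ := n0_compare hh he hKt hK κ
  obtain ⟨M, hM⟩ := H (e.symm '' K) (hK.image_of_continuousOn (e.continuousOn_symm.mono hKt))
  refine ⟨C * M, ?_⟩
  filter_upwards [hM] with n hn z hz
  exact ((hCK z hz (w n)).1).trans (by gcongr; exact hn _ ⟨z, hz, rfl⟩)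

/-- locally uniform convergence in charts implies locally uniform convergence in the metric norm -/
theorem metric_of_unif0 {V : Type*} [NormedAddCommGroup V] [InnerProductSpace ℂ V]
    (hh : IsHerm h) {κ : ℤ} {w : ℕ → X → V} {v : X → V}
    (H : ∀ e ∈ atlas C2 X, ∀ K ⊆ e.target, IsCompact K →
      TendstoUniformlyOn (fun n => loc0 κ e (w n)) (loc0 κ e v) atTop K)
    {K : Set X} (hK : IsCompact K) :
    ∀ ε > 0, ∀ᶠ n in atTop, ∀ x ∈ K, n0 h κ (fun y => w n y - v y) x ≤ ε := by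
  refine hK.induction_on (p := fun K => ∀ ε > 0, ∀ᶠ n in atTop, ∀ x ∈ K,
    n0 h κ (fun y => w n y - v y) x ≤ ε) ?_ ?_ ?_ ?_
  · intro ε hε
    simp
  · intro s t hst ht ε hε
    exact (ht ε hε).mono fun n hn x hx => hn x (hst hx)
  · intro s t hs ht ε hε
    filter_upwards [hs ε hε, ht ε hε] with n h1 h2 x hx
    exact hx.elim (h1 x) (h2 x)
  · intro x hx
    set e := chartAt C2 x with he'
    have he : e ∈ atlas C2 X := chart_mem_atlas C2 x
    obtain ⟨r, hr, hrt⟩ := Metric.nhds_basis_closedBall.mem_iff.1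
      (e.open_target.mem_nhds (mem_chart_target C2 x))
    have hKc : IsCompact (closedBall (e x) r) := isCompact_closedBall _ _
    refine ⟨e.source ∩ e ⁻¹' closedBall (e x) r, mem_nhdsWithin_of_mem_nhds
      (inter_mem (chart_source_mem_nhds C2 x) ((e.continuousAt (mem_chart_source C2 x)).preimage_mem_nhds
        (closedBall_mem_nhds _ hr))), ?_⟩
    intro ε hε
    obtain ⟨C, hC, hCK⟩ := n0_compare hh he hrt hKc κ
    have h1 := Metric.tendstoUniformlyOn_iff.1 (H e he _ hrt hKc) (ε / C) (by positivity)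
    filter_upwards [h1] with n hn y hy
    have h2 := (hCK (e y) hy.2 (fun y => w n y - v y)).2
    rw [e.left_inv hy.1, loc0_sub] at h2
    have h3 := hn (e y) hy.2
    rw [dist_comm, dist_eq_norm] at h3
    calc n0 h κ (fun y => w n y - v y) y ≤ C * (ε / C) := h2.trans (by gcongr)
      _ = ε := by field_simp

theorem NFHyp.of_metric (hh : IsHerm h) (frames : HasFrames L a) (sol : LocSol L a κ g)
    (eqL : ∀ K, IsCompact K → ∀ᶠ n in atTop, ∀ x ∈ K, (Ln n).P x = L.P x)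
    (lima : ∀ K, IsCompact K → ∀ ε > 0, ∀ᶠ n in atTop, ∀ x ∈ K,
      n1 h 0 (fun y i => an n y i - a y i) x ≤ ε)
    (reg : ∀ n, Reg0 1 κ (u n)) (sec : ∀ n, (Ln n).Sec (u n))
    (bdd : ∀ K, IsCompact K → ∃ M, ∀ᶠ n in atTop, ∀ x ∈ K, n0 h κ (u n) x ≤ M)
    (db : ∀ K, IsCompact K → ∀ ε > 0, ∀ᶠ n in atTop, ∀ x ∈ K,
      n1 h κ (fun y i => LB.db0 (Ln n) (an n) κ (u n) y i - g y i) x ≤ ε) :
    NFHyp L a κ g Ln an u where
  frames := frames
  sol := sol
  eqL := eqL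
  lima e he K hKt hK := unif1_of_metric hh lima he hKt hK
  reg := reg
  sec := sec
  bdd e he K hKt hK := bdd0_of_metric hh bdd he hKt hK
  db e he K hKt hK := unif1_of_metric hh db he hKt hK

/-- **Normal families, metric form.** -/
theorem normal_families [SigmaCompactSpace X] (hh : IsHerm h) (frames : HasFrames L a)
    (sol : LocSol L a κ g)
    (eqL : ∀ K, IsCompact K → ∀ᶠ n in atTop, ∀ x ∈ K, (Ln n).P x = L.P x)
    (lima : ∀ K, IsCompact K → ∀ ε > 0, ∀ᶠ n in atTop, ∀ x ∈ K,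
      n1 h 0 (fun y i => an n y i - a y i) x ≤ ε)
    (reg : ∀ n, Reg0 1 κ (u n)) (sec : ∀ n, (Ln n).Sec (u n))
    (bdd : ∀ K, IsCompact K → ∃ M, ∀ᶠ n in atTop, ∀ x ∈ K, n0 h κ (u n) x ≤ M)
    (db : ∀ K, IsCompact K → ∀ ε > 0, ∀ᶠ n in atTop, ∀ x ∈ K,
      n1 h κ (fun y i => LB.db0 (Ln n) (an n) κ (u n) y i - g y i) x ≤ ε) :
    ∃ φ : ℕ → ℕ, StrictMono φ ∧ ∃ v : X → EuclideanSpace ℂ ι, Reg0 ∞ κ v ∧ L.Sec v ∧
      LB.db0 L a κ v = g ∧ (∀ x, Tendsto (fun n => u (φ n) x) atTop (𝓝 (v x))) ∧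
      ∀ K, IsCompact K → ∀ ε > 0, ∀ᶠ n in atTop, ∀ x ∈ K,
        n0 h κ (fun y => u (φ n) y - v y) x ≤ ε := by
  obtain ⟨φ, hφ, v, h1, h2, h3, h4, h5⟩ :=
    (NFHyp.of_metric hh frames sol eqL lima reg sec bdd db).exists_subseq
  exact ⟨φ, hφ, v, h1, h2, h3, h4, fun K hK => metric_of_unif0 hh h5 hK⟩

/-- **Normal families, metric form, homogeneous.** -/
theorem normal_families_zero [SigmaCompactSpace X] (hh : IsHerm h) (frames : HasFrames L a)
    (eqL : ∀ K, IsCompact K → ∀ᶠ n in atTop, ∀ x ∈ K, (Ln n).P x = L.P x)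
    (lima : ∀ K, IsCompact K → ∀ ε > 0, ∀ᶠ n in atTop, ∀ x ∈ K,
      n1 h 0 (fun y i => an n y i - a y i) x ≤ ε)
    (reg : ∀ n, Reg0 1 κ (u n)) (sec : ∀ n, (Ln n).Sec (u n))
    (bdd : ∀ K, IsCompact K → ∃ M, ∀ᶠ n in atTop, ∀ x ∈ K, n0 h κ (u n) x ≤ M)
    (db : ∀ K, IsCompact K → ∀ ε > 0, ∀ᶠ n in atTop, ∀ x ∈ K,
      n1 h κ (LB.db0 (Ln n) (an n) κ (u n)) x ≤ ε) :
    ∃ φ : ℕ → ℕ, StrictMono φ ∧ ∃ v : X → EuclideanSpace ℂ ι, Reg0 ∞ κ v ∧ L.Sec v ∧
      LB.db0 L a κ v = 0 ∧ (∀ x, Tendsto (fun n => u (φ n) x) atTop (𝓝 (v x))) ∧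
      ∀ K, IsCompact K → ∀ ε > 0, ∀ᶠ n in atTop, ∀ x ∈ K,
        n0 h κ (fun y => u (φ n) y - v y) x ≤ ε := by
  refine normal_families hh frames (locSol_zero L a κ) eqL lima reg sec bdd ?_
  intro K hK ε hε
  filter_upwards [db K hK ε hε] with n hn x hx
  simpa using hn x hx

end

end Vale.Agent.P267.H378
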