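import Vale.Agent.P267.H378.NFmet

/-!
# P267 / H378: normal families on the infinite cyclic covering, in terms of slab profiles
-/

set_option linter.all false

open Set Filter Topology Metric Complex
open scoped ContDiff Real ComplexConjugate Manifold Matrix ComplexOrder

namespace Vale.Agent.P267.H378

open Vale.Agent.P267.FL Vale.Agent.P267.XT

noncomputable section

/-- continuity of functions of class `C^0` -/
theorem continuous_of_reg0 {V : Type*} [NormedAddCommGroup V] [NormedSpace ℂ V] {X : Type*}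
    [TopologicalSpace X] [ChartedSpace C2 X] {s : X → V} (hs : Reg0 0 0 s) : Continuous s := by
  rw [continuous_iff_continuousAt]
  intro x
  have h1 := hs _ (chart_mem_atlas C2 x)
  rw [LB.loc0_zero] at h1
  have h2 : ContinuousAt (s ∘ (chartAt C2 x).symm) (chartAt C2 x x) :=
    h1.continuousOn.continuousAt ((chartAt C2 x).open_target.mem_nhds (mem_chart_target C2 x))
  have h3 : ContinuousAt (fun y => (s ∘ (chartAt C2 x).symm) (chartAt C2 x y)) x :=
    ContinuousAt.comp (f := chartAt C2 x) h2 ((chartAt C2 x).continuousAt (mem_chart_source C2 x))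
  refine h3.congr ?_
  filter_upwards [chart_source_mem_nhds C2 x] with y hy
  simp [(chartAt C2 x).left_inv hy]

theorem reg0_of_le {V : Type*} [NormedAddCommGroup V] [NormedSpace ℂ V] {X : Type*}
    [TopologicalSpace X] [ChartedSpace C2 X] {m n : WithTop ℕ∞} {κ : ℤ} {s : X → V}
    (hs : Reg0 n κ s) (h : m ≤ n) : Reg0 m κ s := fun e he => (hs e he).of_le h

variable {M : Type} [TopologicalSpace M] [ChartedSpace C2 M] (D : XTData M)

theorem continuous_f : Continuous D.f := by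
  have h := continuous_of_reg0 (reg0_of_le D.f_smooth (by norm_num : (0 : WithTop ℕ∞) ≤ ∞))
  have : D.f = fun x => ((D.f x : ℂ)).re := by
    funext x
    simp
  rw [this]
  exact Complex.continuous_re.comp h

/-- a compact set meets finitely many slabs -/
theorem exists_slabs {K : Set M} (hK : IsCompact K) :
    ∃ F : Finset ℤ, ∀ x ∈ K, ∃ j ∈ F, x ∈ D.slab j := by
  obtain ⟨a, ha⟩ := hK.bddBelow_image (continuous_f D).continuousOn
  obtain ⟨b, hb⟩ := hK.bddAbove_image (continuous_f D).continuousOn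
  refine ⟨Finset.Icc ⌊a⌋ ⌊b⌋, fun x hx => ⟨⌊D.f x⌋, ?_, D.mem_slab_floor x⟩⟩
  rw [Finset.mem_Icc]
  exact ⟨Int.floor_le_floor (ha ⟨x, hx, rfl⟩), Int.floor_le_floor (hb ⟨x, hx, rfl⟩)⟩

include D in
theorem sigmaCompactSpace : SigmaCompactSpace M := by
  refine ⟨⟨fun n : ℕ => D.f ⁻¹' Icc (-(n : ℝ)) n, fun n => D.f_proper _ _, ?_⟩⟩
  refine eq_univ_of_forall fun x => mem_iUnion.2 ?_
  obtain ⟨n, hn⟩ := exists_nat_ge |D.f x|
  exact ⟨n, abs_le.1 hn⟩

variable {V : Type*} [NormedAddCommGroup V] [InnerProductSpace ℂ V]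

theorem forall_compact_of_slab {P : ℕ → M → Prop} (H : ∀ j, ∀ᶠ n in atTop, ∀ x ∈ D.slab j, P n x)
    {K : Set M} (hK : IsCompact K) : ∀ᶠ n in atTop, ∀ x ∈ K, P n x := by
  obtain ⟨F, hF⟩ := exists_slabs D hK
  have h1 : ∀ᶠ n in atTop, ∀ j ∈ F, ∀ x ∈ D.slab j, P n x := by
    rw [Filter.eventually_all_finset]
    exact fun j _ => H j
  filter_upwards [h1] with n hn x hx
  obtain ⟨j, hj, hxj⟩ := hF x hx
  exact hn j hj x hxj

theorem bdd_of_prof {n : ℕ → M → ℝ} (hc : ∀ m, Continuous (n m))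
    (H : ∀ j, ∃ B, ∀ᶠ m in atTop, D.prof (n m) j ≤ B) {K : Set M} (hK : IsCompact K) :
    ∃ B, ∀ᶠ m in atTop, ∀ x ∈ K, n m x ≤ B := by
  choose B hB using H
  obtain ⟨F, hF⟩ := exists_slabs D hK
  have h1 : ∀ᶠ m in atTop, ∀ j ∈ F, D.prof (n m) j ≤ B j := by
    rw [Filter.eventually_all_finset]
    exact fun j _ => hB j
  refine ⟨∑ j ∈ F, |B j|, ?_⟩
  filter_upwards [h1] with m hm x hx
  obtain ⟨j, hj, hxj⟩ := hF x hx
  calc n m x ≤ D.prof (n m) j := D.le_prof (hc m) hxj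
    _ ≤ |B j| := (hm j hj).trans (le_abs_self _)
    _ ≤ ∑ j ∈ F, |B j| := Finset.single_le_sum (f := fun j => |B j|) (fun _ _ => abs_nonneg _) hj

theorem small_of_prof {n : ℕ → M → ℝ} (hc : ∀ m, Continuous (n m))
    (H : ∀ j, ∀ ε > 0, ∀ᶠ m in atTop, D.prof (n m) j ≤ ε) {K : Set M} (hK : IsCompact K) :
    ∀ ε > 0, ∀ᶠ m in atTop, ∀ x ∈ K, n m x ≤ ε := by
  intro ε hε
  refine forall_compact_of_slab D (P := fun m x => n m x ≤ ε) (fun j => ?_) hK
  filter_upwards [H j ε hε] with m hm x hx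
  exact (D.le_prof (hc m) hx).trans hm

section
variable [IsManifold 𝓘(ℂ, C2) ω M]
  {ι : Type} [Fintype ι] [DecidableEq ι]
  {L : LB M ι} {a : M → Fin 2 → ℂ} {κ : ℤ} {g : M → Fin 2 → EuclideanSpace ℂ ι}
  {Ln : ℕ → LB M ι} {an : ℕ → M → Fin 2 → ℂ} {u : ℕ → M → EuclideanSpace ℂ ι}

/-- profiles converge -/
theorem tendsto_p0 {w : ℕ → M → V} {v : M → V} (hw : ∀ n, Reg0 0 κ (w n)) (hv : Reg0 0 κ v)
    (H : ∀ K, IsCompact K → ∀ ε > 0, ∀ᶠ n in atTop, ∀ x ∈ K,
      n0 D.h κ (fun y => w n y - v y) x ≤ ε) (j : ℤ) :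
    Tendsto (fun n => D.p0 κ (w n) j) atTop (𝓝 (D.p0 κ v j)) := by
  rw [Metric.tendsto_nhds]
  intro ε hε
  filter_upwards [H _ (D.isCompact_slab j) (ε / 2) (by positivity)] with n hn
  have h1 : D.p0 κ (w n) j ≤ D.p0 κ v j + ε / 2 := by
    refine D.prof_le (add_nonneg (D.prof_nonneg (fun x => n0_nonneg (D.herm.posDef x) κ v) j)
      (by positivity)) fun x hx => ?_
    have h2 := n0_add_le (D.herm.posDef x) κ (fun y => w n y - v y) v
    simp only [sub_add_cancel] at h2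
    have h3 := D.le_prof (continuous_n0 D.herm hv) hx
    have h4 := hn x hx
    have h5 : D.prof (n0 D.h κ v) j = D.p0 κ v j := rfl
    linarith
  have h1' : D.p0 κ v j ≤ D.p0 κ (w n) j + ε / 2 := by
    refine D.prof_le (add_nonneg (D.prof_nonneg (fun x => n0_nonneg (D.herm.posDef x) κ (w n)) j)
      (by positivity)) fun x hx => ?_
    have h2 := n0_sub_le (D.herm.posDef x) κ (w n) (fun y => w n y - v y)
    simp only [sub_sub_cancel] at h2
    have h3 := D.le_prof (continuous_n0 D.herm (hw n)) hx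
    have h4 := hn x hx
    have h5 : D.prof (n0 D.h κ (w n)) j = D.p0 κ (w n) j := rfl
    linarith
  rw [Real.dist_eq, abs_lt]
  constructor <;> linarith

/-- **Normal families in terms of profiles.** -/
theorem normal_families_prof (frames : HasFrames L a) (sol : LocSol L a κ g)
    (eqL : ∀ j, ∀ᶠ n in atTop, ∀ x ∈ D.slab j, (Ln n).P x = L.P x)
    (rega : ∀ n, Reg1 0 0 (fun y i => an n y i - a y i))
    (lima : ∀ j, ∀ ε > 0, ∀ᶠ n in atTop, D.p1 0 (fun y i => an n y i - a y i) j ≤ ε)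
    (reg : ∀ n, Reg0 1 κ (u n)) (sec : ∀ n, (Ln n).Sec (u n))
    (bdd : ∀ j, ∃ B, ∀ᶠ n in atTop, D.p0 κ (u n) j ≤ B)
    (regd : ∀ n, Reg1 0 κ (fun y i => LB.db0 (Ln n) (an n) κ (u n) y i - g y i))
    (db : ∀ j, ∀ ε > 0, ∀ᶠ n in atTop,
      D.p1 κ (fun y i => LB.db0 (Ln n) (an n) κ (u n) y i - g y i) j ≤ ε) :
    ∃ φ : ℕ → ℕ, StrictMono φ ∧ ∃ v : M → EuclideanSpace ℂ ι, Reg0 ∞ κ v ∧ L.Sec v ∧
      LB.db0 L a κ v = g ∧ (∀ x, Tendsto (fun n => u (φ n) x) atTop (𝓝 (v x))) ∧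
      (∀ j, Tendsto (fun n => D.p0 κ (u (φ n)) j) atTop (𝓝 (D.p0 κ v j))) ∧
      ∀ K, IsCompact K → ∀ ε > 0, ∀ᶠ n in atTop, ∀ x ∈ K,
        n0 D.h κ (fun y => u (φ n) y - v y) x ≤ ε := by
  have hσ := sigmaCompactSpace D
  have hreg : ∀ n, Reg0 0 κ (u n) := fun n => reg0_of_le (reg n) (by norm_num)
  obtain ⟨φ, hφ, v, h1, h2, h3, h4, h5⟩ := normal_families (L := L) (a := a) (κ := κ) (g := g)
    (Ln := Ln) (an := an) (u := u) D.herm frames sol
    (fun K hK => forall_compact_of_slab D (P := fun n x => (Ln n).P x = L.P x) eqL hK)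
    (fun K hK => small_of_prof D (fun n => continuous_n1 D.herm (rega n)) lima hK)
    reg sec
    (fun K hK => bdd_of_prof D (fun n => continuous_n0 D.herm (hreg n)) bdd hK)
    (fun K hK => small_of_prof D (fun n => continuous_n1 D.herm (regd n)) db hK)
  exact ⟨φ, hφ, v, h1, h2, h3, h4, fun j =>
    tendsto_p0 D (fun n => hreg (φ n)) (reg0_of_le h1 (by norm_num)) h5 j, h5⟩

end

end

end Vale.Agent.P267.H378
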