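import Vale.Agent.P267.H378.Step
import Vale.Agent.P267.H585.Rate

/-!
# P267 / H378 (GX-FRAME): exact holomorphic frames at the inner end, scalar form

`ScalIn`: a periodic sequence `z l` of functions (components of the sections `α_l`), `∂̄z_l = -A_l z_l`
at the inner end, with the factorisation `z_l = (nonvanishing) ∏_{l - s l ≤ j < l} z_j`.
`ScalIn.frames`: exact primitives `ψ l` of `A l`, such that `ζ_l = z_l e^{ψ_l}` satisfy
`ζ_l = κ_l ∏_{l - s l ≤ j < l} ζ_j` with constants `κ_l`.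
-/

set_option linter.all false

open Set Filter Topology Metric Complex
open scoped ContDiff Real ComplexConjugate Manifold Matrix ComplexOrder

namespace Vale.Agent.P267.H378

open Vale.Agent.P267.FL Vale.Agent.P267.XT Vale.Agent.P267.H585

noncomputable section

variable {M : Type} [TopologicalSpace M] [ChartedSpace C2 M]

/-- scalar data at the inner end -/
structure ScalIn (D : XTData M) (n : ℕ) (s : ℤ → ℕ) (z : ℤ → M → ℂ) (A : ℤ → M → Fin 2 → ℂ)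
    (N d : ℝ) : Prop where
  n_pos : 0 < n
  s_per : ∀ l, s (l + n) = s l
  z_per : ∀ l x, z (l + n) x = z l (D.sh (-1) x)
  A_per : ∀ l x, A (l + n) x = A l (D.sh (-1) x)
  cl : ∀ l, ∃ c : ℝ, ∀ x, D.f x < c → dbar1 0 (A l) x = 0
  step : ∀ l, ∃ c : ℝ, StepIn D (Finset.Ico (l - s l) l) N d c (z l) (A l) z A

theorem StepIn.mono {D : XTData M} {S : Finset ℤ} {N d c c' : ℝ} {z : M → ℂ}
    {A : M → Fin 2 → ℂ} {zz : ℤ → M → ℂ} {AA : ℤ → M → Fin 2 → ℂ}
    (H : StepIn D S N d c z A zz AA) (hc : c' ≤ c) : StepIn D S N d c' z A zz AA where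
  hz x hx := H.hz x (hx.trans_le hc)
  hzz j hj x hx := H.hzz j hj x (hx.trans_le hc)
  hA x hx := H.hA x (hx.trans_le hc)
  hAA j hj x hx := H.hAA j hj x (hx.trans_le hc)
  bA := by obtain ⟨C, hC⟩ := H.bA; exact ⟨C, fun x hx => hC x (hx.trans_le hc)⟩
  bAA j hj := by obtain ⟨C, hC⟩ := H.bAA j hj; exact ⟨C, fun x hx => hC x (hx.trans_le hc)⟩
  dense x hx := H.dense x (hx.trans_le hc)
  loc x hx := H.loc x (hx.trans_le hc)
  b1 := by obtain ⟨C, hC⟩ := H.b1; exact ⟨C, fun x hx => hC x (hx.trans_le hc)⟩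
  b2 := by obtain ⟨C, hC⟩ := H.b2; exact ⟨C, fun x hx => hC x (hx.trans_le hc)⟩

/-- periodicity, iterated -/
theorem per_int {D : XTData M} {V : Type*} {n : ℕ} {z : ℤ → M → V}
    (h : ∀ l x, z (l + n) x = z l (D.sh (-1) x)) (k : ℤ) :
    ∀ l x, z (l + n * k) x = z l (D.sh (-k) x) := by
  revert k
  apply XTData.sh_induction
  · intro l x; simp
  · intro k ih l x
    have e1 : l + n * (k + 1) = (l + n * k) + n := by ring
    rw [e1, h, ih, ← D.sh_add]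
    congr 2; ring
  · intro k ih l x
    have e1 : l + n * k = (l + n * (k - 1)) + n := by ring
    have h1 := ih l (D.sh 1 x)
    rw [e1, h, ← D.sh_add, ← D.sh_add] at h1
    rw [show (-1 : ℤ) + 1 = 0 by norm_num, D.sh_zero, show -k + 1 = -(k - 1) by ring] at h1
    exact h1

theorem per_nat {n : ℕ} {V : Type*} {s : ℤ → V} (h : ∀ l, s (l + n) = s l) (k : ℤ) :
    ∀ l, s (l + n * k) = s l := by
  revert k
  apply XTData.sh_induction
  · intro l; simp
  · intro k ih l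
    rw [show l + n * (k + 1) = (l + n * k) + n by ring, h, ih]
  · intro k ih l
    have h1 := ih l
    rw [show l + n * k = (l + n * (k - 1)) + n by ring, h] at h1
    exact h1

theorem prod_Ico_shift {V : Type*} [CommMonoid V] (F : ℤ → V) (a b k : ℤ) :
    ∏ j ∈ Finset.Ico (a + k) (b + k), F j = ∏ j ∈ Finset.Ico a b, F (j + k) := by
  rw [← Finset.prod_image (s := Finset.Ico a b) (g := fun j => j + k) (f := F)
    (fun x _ y _ h => add_right_cancel h)]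
  congr 1
  ext j
  simp only [Finset.mem_Ico, Finset.mem_image]
  constructor
  · rintro ⟨h1, h2⟩
    exact ⟨j - k, ⟨by linarith, by linarith⟩, by ring⟩
  · rintro ⟨i, ⟨h1, h2⟩, rfl⟩
    exact ⟨by linarith, by linarith⟩

theorem sum_Ico_shift {V : Type*} [AddCommMonoid V] (F : ℤ → V) (a b k : ℤ) :
    ∑ j ∈ Finset.Ico (a + k) (b + k), F j = ∑ j ∈ Finset.Ico a b, F (j + k) := by
  rw [← Finset.sum_image (s := Finset.Ico a b) (g := fun j => j + k) (f := F)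
    (fun x _ y _ h => add_right_cancel h)]
  congr 1
  ext j
  simp only [Finset.mem_Ico, Finset.mem_image]
  constructor
  · rintro ⟨h1, h2⟩
    exact ⟨j - k, ⟨by linarith, by linarith⟩, by ring⟩
  · rintro ⟨i, ⟨h1, h2⟩, rfl⟩
    exact ⟨by linarith, by linarith⟩

/-- lower bounds of finitely many numbers -/
theorem exists_le_all (n : ℕ) (F : ℤ → ℝ) (P : ℝ → Prop) (hP : ∀ a b, P a → P b → P (min a b))
    (h0 : ∃ a, P a) (hF : ∀ r : ℤ, P (F r)) :
    ∃ m, P m ∧ ∀ r : ℤ, 0 ≤ r → r < n → m ≤ F r := by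
  induction n with
  | zero =>
    obtain ⟨a, ha⟩ := h0
    exact ⟨a, ha, fun r h1 h2 => by push_cast at h2; omega⟩
  | succ n ih =>
    obtain ⟨m, hm, hm'⟩ := ih
    refine ⟨min m (F n), hP _ _ hm (hF _), fun r h1 h2 => ?_⟩
    rcases eq_or_ne r n with rfl | hne
    · exact min_le_right _ _
    · exact (min_le_left _ _).trans (hm' r h1 (by push_cast at h2; omega))

variable [IsManifold 𝓘(ℂ, C2) ω M] {D : XTData M}

/-- the logarithms for all indices, periodic -/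
theorem ScalIn.exists_g [Nonempty M] {n : ℕ} {s : ℤ → ℕ} {z : ℤ → M → ℂ}
    {A : ℤ → M → Fin 2 → ℂ} {N d lo ε₁ : ℝ} (H : ScalIn D n s z A N d) (hL : LimP D lo d ε₁)
    (hlo : 0 ≤ lo) (hN : d + ε₁ ≤ N) (hN0 : 0 ≤ N) :
    ∃ (g : ℤ → M → ℂ) (κ : ℤ → ℂ) (ε c C : ℝ), lo < ε ∧ c ≤ 0 ∧ (∀ l, κ l ≠ 0) ∧
      (∀ l, κ (l + n) = κ l) ∧ (∀ l x, g (l + n) x = g l (D.sh (-1) x)) ∧
      ∀ l x, D.f x < c + (l / n : ℤ) → At0 ∞ 0 (g l) x ∧
        (∀ i, dbar0 0 (g l) x i = A l x i - ∑ j ∈ Finset.Ico (l - s l) l, A j x i) ∧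
        ‖g l x‖ ≤ C * Real.exp (ε * (D.f x - (l / n : ℤ))) ∧
        z l x * Complex.exp (g l x) = κ l * ∏ j ∈ Finset.Ico (l - s l) l, z j x ∧
        At1 ∞ 0 (A l) x ∧ dbar1 0 (A l) x = 0 ∧
        n1 D.h 0 (A l) x ≤ C * Real.exp (N * (D.f x - (l / n : ℤ))) := by
  classical
  have hn : (0 : ℤ) < n := by exact_mod_cast H.n_pos
  choose c₁ hc₁ using H.step
  choose c₂ hc₂ using H.cl
  have hstep : ∀ l, StepIn D (Finset.Ico (l - s l) l) N d (min 0 (c₁ l)) (z l) (A l) z A :=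
    fun l => (hc₁ l).mono (min_le_right _ _)
  choose g₀ κ₀ ε₀ C₀ c₀ hκ hε hcc hg using fun l =>
    (hstep l).exists_log hL hlo hN (min_le_left _ _)
  choose C₁ hC₁ using fun l => (hstep l).bA
  obtain ⟨ε, hε1, hε2⟩ := exists_le_all n ε₀ (fun e => lo < e) (fun a b => lt_min)
    ⟨lo + 1, by linarith⟩ hε
  obtain ⟨c, -, hc⟩ := exists_le_all n (fun l => min (c₀ l) (c₂ l)) (fun _ => True)
    (fun _ _ _ _ => trivial) ⟨0, trivial⟩ (fun _ => trivial)
  obtain ⟨mC, -, hmC⟩ := exists_le_all n (fun l => -max |C₀ l| |C₁ l|) (fun _ => True)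
    (fun _ _ _ _ => trivial) ⟨0, trivial⟩ (fun _ => trivial)
  have hc0 : min 0 c ≤ 0 := min_le_left _ _
  refine ⟨fun l x => g₀ (l % n) (D.sh (-(l / n)) x), fun l => κ₀ (l % n), ε, min 0 c, -mC, hε1,
    hc0, fun l => hκ _, fun l => ?_, fun l x => ?_, fun l x hx => ?_⟩
  · simp only [Int.add_emod_right]
  · simp only [Int.add_emod_right]
    rw [Int.add_ediv_of_dvd_right (dvd_refl _), Int.ediv_self hn.ne', ← D.sh_add]
    congr 2
    ring
  set r := l % n with hr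
  set k := l / n with hk
  have hr0 : 0 ≤ r := Int.emod_nonneg l hn.ne'
  have hrn : r < n := Int.emod_lt_of_pos l hn
  have hl : l = r + n * k := (Int.emod_add_mul_ediv l n).symm
  set y := D.sh (-k) x with hy
  have hfy : D.f y = D.f x - k := by rw [hy, D.f_sh]; push_cast; ring
  have hyc : D.f y < min 0 c := by rw [hfy]; linarith
  have hy0 : D.f y < 0 := hyc.trans_le (min_le_left _ _)
  have hyc0 : D.f y < c₀ r := hyc.trans_le ((min_le_right _ _).trans ((hc r hr0 hrn).trans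
    (min_le_left _ _)))
  have hyc2 : D.f y < c₂ r := hyc.trans_le ((min_le_right _ _).trans ((hc r hr0 hrn).trans
    (min_le_right _ _)))
  have hys : D.f y < min 0 (c₁ r) := hyc0.trans_le (hcc r)
  obtain ⟨h1, h2, h3, h4⟩ := hg r y hyc0
  have hsl : s l = s r := by rw [hl]; exact per_nat H.s_per k r
  have hA : ∀ j, A (j + n * k) = fun x => A j (D.sh (-k) x) := fun j => by
    funext x; exact per_int H.A_per k j x
  have hz : ∀ j, z (j + n * k) = fun x => z j (D.sh (-k) x) := fun j => by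
    funext x; exact per_int H.z_per k j x
  have hI : Finset.Ico (l - s l) l = Finset.Ico (r - s r + n * k) (r + n * k) := by
    rw [hsl, hl]; congr 1; ring
  have hAl : A l = fun x => A r (D.sh (-k) x) := by
    conv_lhs => rw [hl]
    exact hA r
  have hzl : z l = fun x => z r (D.sh (-k) x) := by
    conv_lhs => rw [hl]
    exact hz r
  have hCr : max |C₀ r| |C₁ r| ≤ -mC := by linarith [hmC r hr0 hrn]
  refine ⟨at0_sh D (-k) h1, fun i => ?_, ?_, ?_, ?_, ?_, ?_⟩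
  · rw [(D.chartMap_sh (-k)).dbar0_comp]
    rw [h2 i, hI, sum_Ico_shift, hAl]
    congr 1
    refine Finset.sum_congr rfl fun j _ => ?_
    rw [hA j]
  · rw [← hfy]
    refine h3.trans ?_
    have e1 : C₀ r ≤ -mC := (le_abs_self _).trans ((le_max_left _ _).trans hCr)
    have e2 : 0 ≤ -mC := (abs_nonneg _).trans ((le_max_left _ _).trans hCr)
    have e3 : Real.exp (ε₀ r * D.f y) ≤ Real.exp (ε * D.f y) :=
      Real.exp_le_exp.2 (mul_le_mul_of_nonpos_right (hε2 r hr0 hrn) hy0.le)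
    exact mul_le_mul e1 e3 (Real.exp_pos _).le e2
  · rw [hI, prod_Ico_shift, hzl]
    refine h4.trans ?_
    congr 1
    refine Finset.prod_congr rfl fun j _ => ?_
    rw [hz j]
  · rw [hAl]
    exact at1_sh D (-k) ((hstep r).hA y hys)
  · rw [hAl, (D.chartMap_sh (-k)).dbar1_comp]
    exact hc₂ r y hyc2
  · rw [hAl, ← hfy]
    have e0 : n1 D.h 0 (fun x => A r (D.sh (-k) x)) x = n1 D.h 0 (A r) y := D.n1_comp_sh 0 (-k) _ x
    rw [e0]
    refine (hC₁ r y hys).trans (mul_le_mul_of_nonneg_right ?_ (Real.exp_pos _).le)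
    exact (le_abs_self _).trans ((le_max_right _ _).trans hCr)

theorem ediv_mono' {n : ℕ} (hn : 0 < n) {i l : ℤ} (h : i < l) : i / (n : ℤ) ≤ l / n :=
  Int.ediv_le_ediv (by exact_mod_cast hn) h.le

/-- the combinatorial data of the recursion above the index `i` -/
structure BaseIn (n : ℕ) (s : ℤ → ℕ) (i : ℤ) (Bs : Finset ℤ) (nn : ℤ → ℤ → ℕ)
    (Nn : Matrix Bs Bs ℂ) (K lam : ℝ) : Prop where
  lt : ∀ b ∈ Bs, i < b
  sub : ∀ l, i < l → l ∉ Bs → Finset.Ico (l - s l) l ⊆ Finset.Ioo i l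
  ne : ∀ l, i < l → l ∉ Bs → (Finset.Ico (l - s l) l).Nonempty
  nn0 : ∀ b ∈ Bs, ∀ c, nn b c = if b = c then 1 else 0
  nn1 : ∀ l, i < l → l ∉ Bs → ∀ c, nn l c = ∑ j ∈ Finset.Ico (l - s l) l, nn j c
  inv : Nn * DSys.perM Bs nn n = 1
  lam_pos : 0 < lam
  bd : ∀ k b c, ‖(Nn ^ k) b c‖ ≤ K * lam ^ k

/-- **GX-FRAME, scalar form.** -/
theorem ScalIn.frames [Nonempty M] {n : ℕ} {s : ℤ → ℕ} {z : ℤ → M → ℂ}
    {A : ℤ → M → Fin 2 → ℂ} {N d lo ε₁ : ℝ} (H : ScalIn D n s z A N d) (hL : LimP D lo d ε₁)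
    (hlo : 0 ≤ lo) (hN : d + ε₁ ≤ N) (hN0 : 0 ≤ N) {i : ℤ} {Bs : Finset ℤ} {nn : ℤ → ℤ → ℕ}
    {Nn : Matrix Bs Bs ℂ} {K lam : ℝ} (hB : BaseIn n s i Bs nn Nn K lam)
    (hlamN : lam * Real.exp (-N) < 1) (hlamlo : lam * Real.exp (-lo) ≤ 1) :
    ∃ (c ε : ℝ) (ψ : ℤ → M → ℂ) (κ : ℤ → ℂ), lo < ε ∧ c ≤ 0 ∧ (∀ l, κ l ≠ 0) ∧
      (∀ l, κ (l + n) = κ l) ∧
      (∀ l, i < l → DbarOn (inner D c) (ψ l) (A l)) ∧
      (∀ l, i < l → ∃ C, 0 ≤ C ∧ ∀ x ∈ inner D c, ‖ψ l x‖ ≤ C * Real.exp (ε * D.f x)) ∧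
      (∀ l, i < l → l ∉ Bs → ∀ x ∈ inner D c, z l x * Complex.exp (ψ l x) =
        κ l * ∏ j ∈ Finset.Ico (l - s l) l, (z j x * Complex.exp (ψ j x))) ∧
      (∀ b ∈ Bs, ∀ x ∈ inner D c, ψ (b + n) x = ψ b (D.sh (-1) x)) := by
  classical
  obtain ⟨g, κ, ε, c₀, C, hε, hc₀, hκ, hκp, hgp, hg⟩ := H.exists_g hL hlo hN hN0
  have hεp : 0 < ε := lt_of_le_of_lt hlo hε
  set c : ℝ := min 0 (c₀ + (i / n : ℤ)) with hc
  have hreg : ∀ l, i < l → ∀ x ∈ inner D c, D.f x < c₀ + (l / n : ℤ) := by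
    intro l hl x hx
    have h1 : ((i / n : ℤ) : ℝ) ≤ ((l / n : ℤ) : ℝ) := by
      exact_mod_cast ediv_mono' H.n_pos hl
    have h2 : D.f x < c := hx
    have h3 : c ≤ c₀ + (i / n : ℤ) := min_le_right _ _
    linarith
  have hexp : ∀ (r : ℝ) (l : ℤ) (x : M), C * Real.exp (r * (D.f x - (l / n : ℤ))) ≤
      (|C| * Real.exp (-(r * (l / n : ℤ)))) * Real.exp (r * D.f x) := by
    intro r l x
    rw [mul_assoc, ← Real.exp_add]
    have : -(r * (l / n : ℤ)) + r * D.f x = r * (D.f x - (l / n : ℤ)) := by ring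
    rw [this]
    exact mul_le_mul_of_nonneg_right (le_abs_self _) (Real.exp_pos _).le
  obtain ⟨ψ, h1, h2, h3, h4, -⟩ := H585.frames D (R := c) (n := n) (Bs := Bs)
    (I := fun l => Finset.Ico (l - s l) l) hB.sub hB.ne hB.lt (A := A) (g := g)
    (fun l hl x hx => ⟨(hg l x (hreg l hl x hx)).2.2.2.2.1, (hg l x (hreg l hl x hx)).2.2.2.2.2.1⟩)
    (fun b _ x => H.A_per b x)
    (fun l hl _ x hx => by
      refine ⟨(hg l x (hreg l hl x hx)).1, fun k => ?_⟩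
      rw [(hg l x (hreg l hl x hx)).2.1 k]
      simp [Finset.sum_apply])
    (nn := nn) hB.nn0 hB.nn1 (Nn := Nn) hB.inv (K := K) (lam := lam) (N := N) (ε := ε)
    hB.lam_pos.le hB.bd hlamN
    (lt_of_lt_of_le (mul_lt_mul_of_pos_left (Real.exp_lt_exp.2 (by linarith)) hB.lam_pos) hlamlo)
    hN0 hεp.le
    (fun b hb => ⟨|C| * Real.exp (-(N * (b / n : ℤ))), fun x hx =>
      ((hg b x (hreg b (hB.lt b hb) x hx)).2.2.2.2.2.2).trans (hexp N b x)⟩)
    (fun l hl _ => ⟨|C| * Real.exp (-(ε * (l / n : ℤ))), fun x hx =>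
      ((hg l x (hreg l hl x hx)).2.2.1).trans (hexp ε l x)⟩)
  refine ⟨c, ε, ψ, κ, hε, min_le_left _ _, hκ, hκp, h1, h2, fun l hl hlB x hx => ?_, h4⟩
  have e1 := h3 l hl hlB
  have e2 : ψ l x = ∑ j ∈ Finset.Ico (l - s l) l, ψ j x + g l x := by
    rw [e1]; simp [Finset.sum_apply]
  rw [e2, add_comm, Complex.exp_add, ← mul_assoc, (hg l x (hreg l hl x hx)).2.2.2.1,
    Complex.exp_sum, mul_assoc, ← Finset.prod_mul_distrib]

end

end Vale.Agent.P267.H378
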