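import Vale.Agent.P267.H378.Lim
import Vale.Agent.P267.H399.Calc3
import Vale.Agent.P267.H706.Lim

/-!
# P267 / H378 (GX-FRAME): one step `z = σ ∏ z_j` of the factorisation, logarithms at the inner end
-/

set_option linter.all false

open Set Filter Topology Metric Complex
open scoped ContDiff Real ComplexConjugate Manifold Matrix ComplexOrder

namespace Vale.Agent.P267.H378

open Vale.Agent.P267.FL Vale.Agent.P267.XT

noncomputable section

section glue

variable {M : Type} [TopologicalSpace M] [ChartedSpace C2 M] [IsManifold 𝓘(ℂ, C2) ω M]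

/-- gluing the local quotients -/
theorem exists_glue {W : Set M} (hW : IsOpen W) {z y : M → ℂ}
    (hd : ∀ x ∈ W, ∃ᶠ w in 𝓝 x, y w ≠ 0)
    (hloc : ∀ x ∈ W, ∃ τ : M → ℂ, At0 ∞ 0 τ x ∧ τ x ≠ 0 ∧ ∀ᶠ w in 𝓝 x, z w = τ w * y w) :
    ∃ σ : M → ℂ, ∀ x ∈ W, At0 ∞ 0 σ x ∧ σ x ≠ 0 ∧ z x = σ x * y x := by
  classical
  choose! τ h1 h2 h3 using hloc
  refine ⟨fun x => τ x x, fun x hx => ?_⟩
  have hc : ∀ᶠ w in 𝓝 x, τ w w = τ x w := by
    have h4 : ∀ᶠ w in 𝓝 x, At0 1 0 (τ x) w :=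
      ((h1 x hx).of_le H706.one_le_infty).eventually (by norm_num)
    filter_upwards [h4, hW.mem_nhds hx, (h3 x hx).eventually_nhds] with w hw hwW hzw
    have c1 : ContinuousAt (τ x) w := hw.continuousAt
    have c2 : ContinuousAt (τ w) w := (h1 w hwW).continuousAt
    have hfr : ∃ᶠ v in 𝓝 w, τ w v = τ x v := by
      refine ((hd w hwW).and_eventually ((h3 w hwW).and hzw)).mono ?_
      rintro v ⟨hv, hv1, hv2⟩
      exact mul_right_cancel₀ hv (hv1.symm.trans hv2)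
    by_contra hne
    have : ∀ᶠ v in 𝓝 w, τ w v ≠ τ x v := by
      have h5 : ContinuousAt (fun v => τ w v - τ x v) w := c2.sub c1
      have h6 : (fun v => τ w v - τ x v) w ≠ 0 := sub_ne_zero.2 hne
      exact (h5.eventually_ne h6).mono fun v hv => sub_ne_zero.1 hv
    exact hfr (this.mono fun v hv h => hv h)
  refine ⟨(h1 x hx).congr hc, h2 x hx, (h3 x hx).self_of_nhds⟩

/-- a continuous form which vanishes on a set accumulating at `x` vanishes at `x` -/
theorem at1_eq_zero {κ : ℤ} {V : Type*} [NormedAddCommGroup V] [NormedSpace ℂ V]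
    {G : M → Fin 2 → V} {x : M} (hG : At1 0 κ G x) (h : ∃ᶠ w in 𝓝 x, G w = 0) : G x = 0 := by
  set e := chartAt C2 x with he
  have hxs : x ∈ e.source := mem_chart_source C2 x
  have hc : ContinuousAt (fun w => loc1 κ e G (e w)) x :=
    ContinuousAt.comp (g := loc1 κ e G) hG.continuousAt (e.continuousAt hxs)
  have h0 : ∃ᶠ w in 𝓝 x, loc1 κ e G (e w) = 0 := by
    refine (h.and_eventually (e.open_source.mem_nhds hxs)).mono ?_
    rintro w ⟨hw, hws⟩
    funext i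
    simp [loc1, e.left_inv hws, hw]
  have h1 : loc1 κ e G (e x) = 0 := by
    by_contra hne
    exact h0 ((hc.eventually_ne hne).mono fun w hw h => hw h)
  rwa [he, loc1_chartAt] at h1

theorem dbar0_prod {S : Finset ℤ} {z : ℤ → M → ℂ} {A : ℤ → M → Fin 2 → ℂ} {x : M}
    (hz : ∀ j ∈ S, At0 ∞ 0 (z j) x) (h : ∀ j ∈ S, ∀ i, dbar0 0 (z j) x i = -(A j x i) * z j x) :
    At0 ∞ 0 (fun y => ∏ j ∈ S, z j y) x ∧
      ∀ i, dbar0 0 (fun y => ∏ j ∈ S, z j y) x i = -(∑ j ∈ S, A j x i) * ∏ j ∈ S, z j x := by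
  classical
  induction S using Finset.induction_on with
  | empty =>
    refine ⟨by simpa using at0_const, fun i => ?_⟩
    simp
  | insert a S ha ih =>
    obtain ⟨h1, h2⟩ := ih (fun j hj => hz j (Finset.mem_insert_of_mem hj))
      (fun j hj => h j (Finset.mem_insert_of_mem hj))
    have ha1 := hz a (Finset.mem_insert_self _ _)
    have e1 : (fun y => ∏ j ∈ insert a S, z j y) = fun y => z a y * ∏ j ∈ S, z j y := by
      funext y; rw [Finset.prod_insert ha]
    rw [e1]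
    refine ⟨ha1.mul h1, fun i => ?_⟩
    rw [dbar0_mul (ha1.of_le H706.one_le_infty) (h1.of_le H706.one_le_infty), h2,
      h a (Finset.mem_insert_self _ _), Finset.sum_insert ha, Finset.prod_insert ha]
    ring

/-- the equation of the quotient -/
theorem dbar0_quot {W : Set M} (hW : IsOpen W) {z y σ : M → ℂ} {A B : M → Fin 2 → ℂ}
    (hz : ∀ x ∈ W, ∀ i, dbar0 0 z x i = -(A x i) * z x)
    (hy : ∀ x ∈ W, At0 ∞ 0 y x ∧ ∀ i, dbar0 0 y x i = -(B x i) * y x)
    (hA : ∀ x ∈ W, At1 ∞ 0 A x) (hB : ∀ x ∈ W, At1 ∞ 0 B x)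
    (hd : ∀ x ∈ W, ∃ᶠ w in 𝓝 x, y w ≠ 0)
    (hσ : ∀ x ∈ W, At0 ∞ 0 σ x ∧ σ x ≠ 0 ∧ z x = σ x * y x) :
    ∀ x ∈ W, ∀ i, dbar0 0 σ x i = -(A x i - B x i) * σ x := by
  have key : ∀ x ∈ W, ∀ i, (dbar0 0 σ x i + (A x i - B x i) * σ x) * y x = 0 := by
    intro x hx i
    have h1 : dbar0 0 z x i = dbar0 0 (fun w => σ w * y w) x i := by
      rw [dbar0_congr]
      filter_upwards [hW.mem_nhds hx] with w hw
      exact (hσ w hw).2.2
    rw [hz x hx, dbar0_mul ((hσ x hx).1.of_le H706.one_le_infty)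
      ((hy x hx).1.of_le H706.one_le_infty), (hy x hx).2, (hσ x hx).2.2] at h1
    linear_combination -h1
  intro x hx
  have h2 : At1 ∞ 0 (fun w i => dbar0 0 σ w i + (A w i - B w i) * σ w) x := by
    have e1 : At1 ∞ 0 (dbar0 0 σ) x := (hσ x hx).1.dbar infty_add_one_le
    have e2 : At1 ∞ 0 (fun w i => σ w • (A w i - B w i)) x :=
      At1.smul (hσ x hx).1 ((hA x hx).sub (hB x hx))
    refine (e1.add e2).congr (Eventually.of_forall fun w => ?_)
    funext i
    simp [mul_comm]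
  have h3 : (fun i => dbar0 0 σ x i + (A x i - B x i) * σ x) = 0 := by
    refine at1_eq_zero (h2.of_le (by norm_num)) ?_
    refine ((hd x hx).and_eventually (hW.mem_nhds hx)).mono ?_
    rintro w ⟨hw, hwW⟩
    funext i
    exact (mul_eq_zero.1 (key w hwW i)).resolve_right hw
  intro i
  have := congrFun h3 i
  simp only [Pi.zero_apply] at this
  linear_combination this

end glue

section limit

variable {M : Type} [TopologicalSpace M] [ChartedSpace C2 M]

theorem n1_congr_pt {h : M → Matrix (Fin 2) (Fin 2) ℂ} {κ : ℤ} {V : Type*}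
    [NormedAddCommGroup V] [InnerProductSpace ℂ V] {a b : M → Fin 2 → V} {x : M}
    (hab : a x = b x) : n1 h κ a x = n1 h κ b x := by
  simp only [n1, nsq1, hab]

variable [IsManifold 𝓘(ℂ, C2) ω M] (D : XTData M)

/-- limits at the inner end, with rate better than `lo` -/
def LimP (lo d ε₁ : ℝ) : Prop :=
  ∀ u : M → ℂ, Reg0 ∞ 0 u → (∃ C : ℝ, ∀ x, ‖u x‖ ≤ C * Real.exp (-(d * D.f x))) →
    (∃ C : ℝ, ∀ x, D.f x ≤ 0 → n1 D.h 0 (dbar0 0 u) x ≤ C * Real.exp (ε₁ * D.f x)) →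
    ∃ (b : ℂ) (ε A : ℝ), lo < ε ∧ ∀ x, D.f x ≤ 0 → ‖u x - b‖ ≤ A * Real.exp (ε * D.f x)

variable {D}

theorem LimP.germ {lo d ε₁ : ℝ} (hL : LimP D lo d ε₁) {c : ℝ} {u : M → ℂ}
    (hu : ∀ x, D.f x < c → At0 ∞ 0 u x)
    (hg : ∃ C : ℝ, ∀ x, D.f x < c → ‖u x‖ ≤ C * Real.exp (-(d * D.f x)))
    (hb : ∃ C : ℝ, ∀ x, D.f x < c → n1 D.h 0 (dbar0 0 u) x ≤ C * Real.exp (ε₁ * D.f x)) :
    ∃ (b : ℂ) (ε A : ℝ), lo < ε ∧ ∀ x, D.f x ≤ 0 → D.f x ≤ c - 2 →
      ‖u x - b‖ ≤ A * Real.exp (ε * D.f x) := by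
  obtain ⟨C, hC⟩ := hg
  obtain ⟨C', hC'⟩ := hb
  set w : M → ℂ := fun x => H706.cutI D (c - 2) x * u x with hw
  have hw0 : ∀ x, c - 1 ≤ D.f x → w x = 0 := by
    intro x hx
    rw [hw]
    simp only
    rw [H706.cutI_eq_zero D (by linarith), zero_mul]
  have hw1 : ∀ x, D.f x ≤ c - 2 → w x = u x := by
    intro x hx
    rw [hw]
    simp only
    rw [H706.cutI_eq_one D hx, one_mul]
  have hreg : Reg0 ∞ 0 w := by
    rw [reg0_iff_at]
    intro x
    rcases lt_or_ge (D.f x) c with hx | hx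
    · exact ((H706.reg_cutI D (c - 2)).at x).mul (hu x hx)
    · refine (at0_zero (V := ℂ)).congr ?_
      filter_upwards [H706.gt_nhds D (show c - 1 < D.f x by linarith)] with y hy
      exact hw0 y hy.le
  have hcont : Continuous (n1 D.h 0 (dbar0 0 w)) :=
    continuous_n1 D.herm ((hreg.dbar infty_add_one_le).of_le (by norm_num))
  obtain ⟨C₁, hC₁, hC₁'⟩ := H706.bdd_on D hcont (c - 2) 0
  have hres : (∃ C : ℝ, ∀ x, ‖w x‖ ≤ C * Real.exp (-(d * D.f x))) →
      (∃ C : ℝ, ∀ x, D.f x ≤ 0 → n1 D.h 0 (dbar0 0 w) x ≤ C * Real.exp (ε₁ * D.f x)) →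
      ∃ (b : ℂ) (ε A : ℝ), lo < ε ∧ ∀ x, D.f x ≤ 0 → D.f x ≤ c - 2 →
      ‖u x - b‖ ≤ A * Real.exp (ε * D.f x) := by
    intro g1 g2
    obtain ⟨b, ε, A, h1, h2⟩ := hL w hreg g1 g2
    exact ⟨b, ε, A, h1, fun x hx hx' => by rw [← hw1 x hx']; exact h2 x hx⟩
  refine hres ⟨|C|, fun x => ?_⟩
    ⟨|C'| + C₁ * Real.exp (|ε₁| * |c - 2|), fun x hx => ?_⟩
  · rcases lt_or_ge (D.f x) c with hx | hx
    · rw [hw]
      simp only
      rw [norm_mul]
      calc ‖H706.cutI D (c - 2) x‖ * ‖u x‖ ≤ 1 * (C * Real.exp (-(d * D.f x))) :=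
            mul_le_mul (H706.norm_cutI_le D _ x) (hC x hx) (norm_nonneg _) zero_le_one
        _ ≤ |C| * Real.exp (-(d * D.f x)) := by
            rw [one_mul]
            exact mul_le_mul_of_nonneg_right (le_abs_self _) (Real.exp_pos _).le
    · rw [hw0 x (by linarith), norm_zero]
      positivity
  · rcases lt_or_ge (D.f x) (c - 2) with hxc | hxc
    · have e1 : dbar0 0 w x = dbar0 0 u x := by
        apply dbar0_congr
        filter_upwards [H706.lt_nhds D hxc] with y hy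
        exact hw1 y hy.le
      rw [n1_congr_pt e1]
      refine (hC' x (by linarith)).trans (mul_le_mul_of_nonneg_right ?_ (Real.exp_pos _).le)
      have : 0 ≤ C₁ * Real.exp (|ε₁| * |c - 2|) := by positivity
      linarith [le_abs_self C']
    · refine (hC₁' x hxc hx).trans ?_
      have e2 : 1 ≤ Real.exp (|ε₁| * |c - 2|) * Real.exp (ε₁ * D.f x) := by
        rw [← Real.exp_add]
        refine Real.one_le_exp ?_
        have e3 : |D.f x| ≤ |c - 2| := by
          rw [abs_of_nonpos hx, abs_of_nonpos (hxc.trans hx)]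
          linarith
        have e4 : |ε₁ * D.f x| ≤ |ε₁| * |c - 2| := by
          rw [abs_mul]
          exact mul_le_mul_of_nonneg_left e3 (abs_nonneg _)
        have := neg_abs_le (ε₁ * D.f x)
        linarith
      calc C₁ ≤ C₁ * (Real.exp (|ε₁| * |c - 2|) * Real.exp (ε₁ * D.f x)) :=
            le_mul_of_one_le_right hC₁ e2
        _ = (C₁ * Real.exp (|ε₁| * |c - 2|)) * Real.exp (ε₁ * D.f x) := by ring
        _ ≤ _ := by
            refine mul_le_mul_of_nonneg_right ?_ (Real.exp_pos _).le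
            linarith [abs_nonneg C']

/-- there are points arbitrarily far inward -/
theorem exists_inner [Nonempty M] (R : ℝ) : ∃ x, D.f x < R := by
  obtain ⟨y⟩ := ‹Nonempty M›
  refine ⟨D.sh (⌊R - D.f y⌋ - 1) y, ?_⟩
  rw [D.f_sh]
  have := Int.floor_le (R - D.f y)
  push_cast
  linarith

/-- a nonvanishing function with `∂̄u = -ωu` and moderate growth has a nonzero limit -/
theorem LimP.unit [Nonempty M] {lo d ε₁ N : ℝ} (hL : LimP D lo d ε₁) (hlo : 0 ≤ lo)
    (hN : d + ε₁ ≤ N) {c : ℝ} (hc : c ≤ 0) {u : M → ℂ} {om : M → Fin 2 → ℂ}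
    (hu : ∀ x, D.f x < c → At0 ∞ 0 u x ∧ u x ≠ 0)
    (he : ∀ x, D.f x < c → ∀ i, dbar0 0 u x i = -(om x i) * u x)
    (ho : ∃ C : ℝ, ∀ x, D.f x < c → n1 D.h 0 om x ≤ C * Real.exp (N * D.f x))
    (hb1 : ∃ C : ℝ, ∀ x, D.f x < c → ‖u x‖ ≤ C * Real.exp (-(d * D.f x)))
    (hb2 : ∃ C : ℝ, ∀ x, D.f x < c → 1 ≤ C * Real.exp (-(d * D.f x)) * ‖u x‖) :
    ∃ (b : ℂ) (ε A c' : ℝ), b ≠ 0 ∧ lo < ε ∧ c' ≤ c ∧ ∀ x, D.f x < c' →
      ‖u x - b‖ ≤ A * Real.exp (ε * D.f x) := by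
  obtain ⟨C, hC⟩ := ho
  obtain ⟨C₁, hC₁⟩ := hb1
  obtain ⟨C₂, hC₂⟩ := hb2
  have hpt : ∀ x, D.f x < c → ∀ r K : ℝ, r ≤ |K| * Real.exp (-(d * D.f x)) → 0 ≤ r →
      r * n1 D.h 0 om x ≤ |K| * |C| * Real.exp (ε₁ * D.f x) := by
    intro x hx r K hr hr0
    have h1 : n1 D.h 0 om x ≤ |C| * Real.exp (N * D.f x) :=
      (hC x hx).trans (mul_le_mul_of_nonneg_right (le_abs_self _) (Real.exp_pos _).le)
    calc r * n1 D.h 0 om x ≤ (|K| * Real.exp (-(d * D.f x))) * (|C| * Real.exp (N * D.f x)) :=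
          mul_le_mul hr h1 (n1_nonneg (D.herm.posDef x) _ _) (by positivity)
      _ = |K| * |C| * Real.exp ((N - d) * D.f x) := by
          have : Real.exp ((N - d) * D.f x) = Real.exp (-(d * D.f x)) * Real.exp (N * D.f x) := by
            rw [← Real.exp_add]; congr 1; ring
          rw [this]; ring
      _ ≤ |K| * |C| * Real.exp (ε₁ * D.f x) := by
          refine mul_le_mul_of_nonneg_left (Real.exp_le_exp.2 ?_) (by positivity)
          exact mul_le_mul_of_nonpos_right (by linarith) (by linarith)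
  have hu1 : ∀ x, D.f x < c → ‖u x‖ ≤ |C₁| * Real.exp (-(d * D.f x)) := fun x hx =>
    (hC₁ x hx).trans (mul_le_mul_of_nonneg_right (le_abs_self _) (Real.exp_pos _).le)
  have hu2 : ∀ x, D.f x < c → ‖(u x)⁻¹‖ ≤ |C₂| * Real.exp (-(d * D.f x)) := by
    intro x hx
    have h0 : 0 < ‖u x‖ := norm_pos_iff.2 (hu x hx).2
    rw [norm_inv, inv_le_iff_one_le_mul₀ h0]
    refine (hC₂ x hx).trans (mul_le_mul_of_nonneg_right ?_ h0.le)
    exact mul_le_mul_of_nonneg_right (le_abs_self _) (Real.exp_pos _).le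
  obtain ⟨b, ε, A, hε, hA⟩ := hL.germ (u := u) (fun x hx => (hu x hx).1) ⟨_, hu1⟩
    ⟨|C₁| * |C|, fun x hx => by
      have e1 : dbar0 0 u x = (fun y i => (-(u y)) • om y i : M → Fin 2 → ℂ) x := by
        funext i
        rw [he x hx]
        simp only [smul_eq_mul]
        ring
      rw [n1_congr_pt (b := fun y i => (-(u y)) • om y i) e1, n1_smul, norm_neg]
      exact hpt x hx _ C₁ (hu1 x hx) (norm_nonneg _)⟩
  obtain ⟨b', ε', A', hε', hA'⟩ := hL.germ (u := fun x => (u x)⁻¹)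
    (fun x hx => (hu x hx).1.inv0 (hu x hx).2) ⟨_, hu2⟩
    ⟨|C₂| * |C|, fun x hx => by
      have e1 : dbar0 0 (fun x => (u x)⁻¹) x = (fun y i => (u y)⁻¹ • om y i : M → Fin 2 → ℂ) x := by
        funext i
        have := dbar0_inv (κ := 0) ((hu x hx).1.of_le H706.one_le_infty) (hu x hx).2 i
        rw [neg_zero] at this
        rw [this, he x hx]
        have h0 := (hu x hx).2
        simp only [smul_eq_mul]
        field_simp
      rw [n1_congr_pt (b := fun y i => (u y)⁻¹ • om y i) e1, n1_smul]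
      exact hpt x hx _ C₂ (hu2 x hx) (norm_nonneg _)⟩
  -- the product of the limits is one
  have hbb : b * b' = 1 := by
    by_contra hne
    have hpos : 0 < ‖b * b' - 1‖ := norm_pos_iff.2 (sub_ne_zero.2 hne)
    -- for all x far inward ‖b b' - 1‖ ≤ K e^{ε₂ f x}
    set ε₂ := min ε ε' with hε₂
    have hε₂0 : 0 < ε₂ := lt_min (by linarith) (by linarith)
    set K : ℝ := |A'| * ‖b‖ + |A| * ‖b'‖ + |A| * |A'| with hK
    have hK0 : 0 ≤ K := by positivity
    obtain ⟨t, ht⟩ : ∃ t : ℝ, K * Real.exp (ε₂ * t) < ‖b * b' - 1‖ := by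
      have h1 : Tendsto (fun t : ℝ => K * Real.exp (ε₂ * t)) atBot (𝓝 (K * 0)) := by
        refine Tendsto.const_mul _ (Real.tendsto_exp_atBot.comp ?_)
        exact tendsto_id.const_mul_atBot hε₂0
      rw [mul_zero] at h1
      exact (h1.eventually_lt_const hpos).exists
    obtain ⟨x, hx⟩ := exists_inner (D := D) (min t (min 0 (c - 2)))
    have hxt : D.f x < t := hx.trans_le (min_le_left _ _)
    have hx0 : D.f x < 0 := hx.trans_le ((min_le_right _ _).trans (min_le_left _ _))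
    have hxc : D.f x < c - 2 := hx.trans_le ((min_le_right _ _).trans (min_le_right _ _))
    have hxc' : D.f x < c := by linarith
    have e0 : Real.exp (ε₂ * D.f x) ≤ 1 := Real.exp_le_one_iff.2 (by nlinarith)
    have e1 : ‖u x - b‖ ≤ |A| * Real.exp (ε₂ * D.f x) := by
      refine (hA x hx0.le hxc.le).trans (mul_le_mul (le_abs_self _) (Real.exp_le_exp.2 ?_)
        (Real.exp_pos _).le (abs_nonneg _))
      exact mul_le_mul_of_nonpos_right (min_le_left _ _) hx0.le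
    have e2 : ‖(u x)⁻¹ - b'‖ ≤ |A'| * Real.exp (ε₂ * D.f x) := by
      refine (hA' x hx0.le hxc.le).trans (mul_le_mul (le_abs_self _) (Real.exp_le_exp.2 ?_)
        (Real.exp_pos _).le (abs_nonneg _))
      exact mul_le_mul_of_nonpos_right (min_le_right _ _) hx0.le
    have e3 : b * b' - 1 = -(b * ((u x)⁻¹ - b')) - (u x - b) * b' -
        (u x - b) * ((u x)⁻¹ - b') := by
      have h0 := (hu x hxc').2
      field_simp
      ring
    have e4 : ‖b * b' - 1‖ ≤ K * Real.exp (ε₂ * D.f x) := by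
      rw [e3]
      refine (norm_sub_le _ _).trans ?_
      refine (add_le_add_left (norm_sub_le _ _) _).trans ?_
      rw [norm_neg, norm_mul, norm_mul, norm_mul, hK]
      have f1 : ‖b‖ * ‖(u x)⁻¹ - b'‖ ≤ ‖b‖ * (|A'| * Real.exp (ε₂ * D.f x)) :=
        mul_le_mul_of_nonneg_left e2 (norm_nonneg _)
      have f2 : ‖u x - b‖ * ‖b'‖ ≤ (|A| * Real.exp (ε₂ * D.f x)) * ‖b'‖ :=
        mul_le_mul_of_nonneg_right e1 (norm_nonneg _)
      have f3 : ‖u x - b‖ * ‖(u x)⁻¹ - b'‖ ≤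
          (|A| * Real.exp (ε₂ * D.f x)) * (|A'| * 1) :=
        mul_le_mul e1 (e2.trans (mul_le_mul_of_nonneg_left e0 (abs_nonneg _))) (norm_nonneg _)
          (by positivity)
      nlinarith
    have e5 : K * Real.exp (ε₂ * D.f x) ≤ K * Real.exp (ε₂ * t) :=
      mul_le_mul_of_nonneg_left (Real.exp_le_exp.2 (by nlinarith)) hK0
    linarith
  refine ⟨b, ε, A, min 0 (c - 2), left_ne_zero_of_mul_eq_one hbb, hε, ?_, fun x hx => ?_⟩
  · exact (min_le_right _ _).trans (by linarith)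
  · exact hA x (hx.le.trans (min_le_left _ _)) (hx.le.trans (min_le_right _ _))

end limit

end

end Vale.Agent.P267.H378
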