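import Vale.Agent.P267.H378.Sig

/-!
# P267 / H378 (GX-FRAME): one step of the recursion: `A = ∑ A_j + ∂̄g`
-/

set_option linter.all false

open Set Filter Topology Metric Complex
open scoped ContDiff Real ComplexConjugate Manifold Matrix ComplexOrder

namespace Vale.Agent.P267.H378

open Vale.Agent.P267.FL Vale.Agent.P267.XT

noncomputable section

variable {M : Type} [TopologicalSpace M] [ChartedSpace C2 M] [IsManifold 𝓘(ℂ, C2) ω M]
  {D : XTData M}

theorem n1_sum_le {x : M} (hh : (D.h x).PosDef) (κ : ℤ) {V : Type*} [NormedAddCommGroup V]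
    [InnerProductSpace ℂ V] (S : Finset ℤ) (A : ℤ → M → Fin 2 → V) :
    n1 D.h κ (fun y i => ∑ j ∈ S, A j y i) x ≤ ∑ j ∈ S, n1 D.h κ (A j) x := by
  classical
  induction S using Finset.induction_on with
  | empty =>
    simp only [Finset.sum_empty]
    rw [show (fun (_ : M) (_ : Fin 2) => (0 : V)) = fun _ _ => 0 from rfl]
    rw [n1]
    have : nsq1 D.h (fun (_ : M) (_ : Fin 2) => (0 : V)) x = 0 := by simp [nsq1]
    rw [this]
    simp
  | insert a S ha ih =>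
    simp only [Finset.sum_insert ha]
    exact (n1_add_le hh κ (A a) (fun y i => ∑ j ∈ S, A j y i)).trans (by gcongr)

/-- the data of one step at the inner end -/
structure StepIn (D : XTData M) (S : Finset ℤ) (N d c : ℝ) (z : M → ℂ) (A : M → Fin 2 → ℂ)
    (zz : ℤ → M → ℂ) (AA : ℤ → M → Fin 2 → ℂ) : Prop where
  hz : ∀ x, D.f x < c → At0 ∞ 0 z x ∧ ∀ i, dbar0 0 z x i = -(A x i) * z x
  hzz : ∀ j ∈ S, ∀ x, D.f x < c → At0 ∞ 0 (zz j) x ∧ ∀ i, dbar0 0 (zz j) x i = -(AA j x i) * zz j x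
  hA : ∀ x, D.f x < c → At1 ∞ 0 A x
  hAA : ∀ j ∈ S, ∀ x, D.f x < c → At1 ∞ 0 (AA j) x
  bA : ∃ C : ℝ, ∀ x, D.f x < c → n1 D.h 0 A x ≤ C * Real.exp (N * D.f x)
  bAA : ∀ j ∈ S, ∃ C : ℝ, ∀ x, D.f x < c → n1 D.h 0 (AA j) x ≤ C * Real.exp (N * D.f x)
  dense : ∀ x, D.f x < c → ∃ᶠ w in 𝓝 x, ∏ j ∈ S, zz j w ≠ 0
  loc : ∀ x, D.f x < c → ∃ τ : M → ℂ, At0 ∞ 0 τ x ∧ τ x ≠ 0 ∧
    ∀ᶠ w in 𝓝 x, z w = τ w * ∏ j ∈ S, zz j w
  b1 : ∃ C : ℝ, ∀ x, D.f x < c → ‖z x‖ ≤ C * Real.exp (-(d * D.f x)) * ‖∏ j ∈ S, zz j x‖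
  b2 : ∃ C : ℝ, ∀ x, D.f x < c → ‖∏ j ∈ S, zz j x‖ ≤ C * Real.exp (-(d * D.f x)) * ‖z x‖

theorem norm_le_of_freq {σ : M → ℂ} {r : M → ℝ} {x : M} (hσ : ContinuousAt σ x)
    (hr : ContinuousAt r x) (h : ∃ᶠ w in 𝓝 x, ‖σ w‖ ≤ r w) : ‖σ x‖ ≤ r x := by
  by_contra hne
  push Not at hne
  have : ∀ᶠ w in 𝓝 x, 0 < ‖σ w‖ - r w :=
    (hσ.norm.sub hr).eventually (lt_mem_nhds (sub_pos.2 hne))
  exact h (this.mono fun w hw hle => by linarith)

theorem StepIn.exists_log [Nonempty M] {S : Finset ℤ} {lo N d c ε₁ : ℝ} {z : M → ℂ}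
    {A : M → Fin 2 → ℂ} {zz : ℤ → M → ℂ} {AA : ℤ → M → Fin 2 → ℂ}
    (H : StepIn D S N d c z A zz AA) (hL : LimP D lo d ε₁) (hlo : 0 ≤ lo) (hN : d + ε₁ ≤ N)
    (hc : c ≤ 0) :
    ∃ (g : M → ℂ) (κ : ℂ) (ε C c' : ℝ), κ ≠ 0 ∧ lo < ε ∧ c' ≤ c ∧ ∀ x, D.f x < c' →
      At0 ∞ 0 g x ∧ (∀ i, dbar0 0 g x i = A x i - ∑ j ∈ S, AA j x i) ∧
      ‖g x‖ ≤ C * Real.exp (ε * D.f x) ∧ z x * Complex.exp (g x) = κ * ∏ j ∈ S, zz j x := by
  classical
  have hfc : Continuous D.f := H706.continuous_f D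
  set W : Set M := {x | D.f x < c} with hWdef
  have hW : IsOpen W := isOpen_lt hfc continuous_const
  set y : M → ℂ := fun x => ∏ j ∈ S, zz j x with hy
  set B : M → Fin 2 → ℂ := fun x i => ∑ j ∈ S, AA j x i with hB
  obtain ⟨σ, hσ⟩ := exists_glue hW (z := z) (y := y) (fun x hx => H.dense x hx)
    (fun x hx => H.loc x hx)
  have hy' : ∀ x ∈ W, At0 ∞ 0 y x ∧ ∀ i, dbar0 0 y x i = -(B x i) * y x := fun x hx =>
    dbar0_prod (fun j hj => (H.hzz j hj x hx).1) (fun j hj => (H.hzz j hj x hx).2)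
  have hBs : ∀ x ∈ W, At1 ∞ 0 B x := by
    intro x hx
    refine (At1.sum (S := S) (s := AA) fun j hj => H.hAA j hj x hx).congr
      (Eventually.of_forall fun w => ?_)
    funext i
    simp [hB, Finset.sum_apply]
  have hσe := dbar0_quot hW (fun x hx => (H.hz x hx).2) hy' (fun x hx => H.hA x hx) hBs
    (fun x hx => H.dense x hx) hσ
  -- bounds
  have hsum : ∃ C : ℝ, ∀ x, D.f x < c → n1 D.h 0 B x ≤ C * Real.exp (N * D.f x) := by
    choose! CC hCC using H.bAA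
    refine ⟨∑ j ∈ S, CC j, fun x hx => ?_⟩
    refine (n1_sum_le (D.herm.posDef x) 0 S AA).trans ?_
    rw [Finset.sum_mul]
    exact Finset.sum_le_sum fun j hj => hCC j hj x hx
  obtain ⟨CA, hCA⟩ := H.bA
  obtain ⟨CB, hCB⟩ := hsum
  obtain ⟨C₁, hC₁⟩ := H.b1
  obtain ⟨C₂, hC₂⟩ := H.b2
  have hexpc : ∀ K : ℝ, Continuous fun x => K * Real.exp (-(d * D.f x)) := fun K =>
    continuous_const.mul (Real.continuous_exp.comp (continuous_const.mul hfc).neg)
  obtain ⟨b, ε, A₀, c', hb0, hε, hcc, hA₀⟩ := hL.unit (N := N) hlo hN hc (u := σ)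
    (om := fun x i => A x i - B x i) (fun x hx => ⟨(hσ x hx).1, (hσ x hx).2.1⟩)
    (fun x hx i => hσe x hx i)
    ⟨CA + CB, fun x hx => by
      have h1 := n1_add_le (D.herm.posDef x) 0 A (fun y i => -(B y i))
      have h2 : n1 D.h 0 (fun y i => -(B y i)) x = n1 D.h 0 B x := by
        have := n1_smul (h := D.h) (x := x) 0 (fun _ => (-1 : ℂ)) B
        simp only [norm_neg, norm_one, one_mul, smul_eq_mul, neg_mul] at this
        exact this
      rw [h2] at h1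
      have h3 : n1 D.h 0 (fun y i => A y i - B y i) x = n1 D.h 0 (fun y i => A y i + -(B y i)) x :=
        n1_congr_pt (by funext i; ring)
      rw [h3, add_mul]
      exact h1.trans (add_le_add (hCA x hx) (hCB x hx))⟩
    ⟨C₁, fun x hx => by
      refine norm_le_of_freq (hσ x hx).1.continuousAt (hexpc C₁).continuousAt ?_
      refine ((H.dense x hx).and_eventually (hW.mem_nhds hx)).mono ?_
      rintro w ⟨hw, hwW⟩
      have h1 := hC₁ w hwW
      rw [(hσ w hwW).2.2, norm_mul] at h1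
      exact le_of_mul_le_mul_right h1 (norm_pos_iff.2 hw)⟩
    ⟨C₂, fun x hx => by
      have h0 := (hσ x hx).2.1
      have h1 : ‖(σ x)⁻¹‖ ≤ C₂ * Real.exp (-(d * D.f x)) := by
        refine norm_le_of_freq (σ := fun w => (σ w)⁻¹)
          ((hσ x hx).1.continuousAt.inv₀ h0) (hexpc C₂).continuousAt ?_
        refine ((H.dense x hx).and_eventually (hW.mem_nhds hx)).mono ?_
        rintro w ⟨hw, hwW⟩
        have h1 := hC₂ w hwW
        rw [(hσ w hwW).2.2, norm_mul, ← mul_assoc] at h1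
        have h2 := le_of_mul_le_mul_right (a := ‖y w‖) (b := 1)
          (c := C₂ * Real.exp (-(d * D.f w)) * ‖σ w‖) (by rw [one_mul]; exact h1)
          (norm_pos_iff.2 hw)
        rw [norm_inv, inv_le_iff_one_le_mul₀ (norm_pos_iff.2 (hσ w hwW).2.1)]
        exact h2
      rw [norm_inv, inv_le_iff_one_le_mul₀ (norm_pos_iff.2 h0)] at h1
      exact h1⟩
  -- the logarithm
  have hbn : 0 < ‖b‖ := norm_pos_iff.2 hb0
  have hεp : 0 < ε := lt_of_le_of_lt hlo hε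
  obtain ⟨t, ht⟩ : ∃ t : ℝ, |A₀| / ‖b‖ * Real.exp (ε * t) < 1 / 2 := by
    have h1 : Tendsto (fun t : ℝ => |A₀| / ‖b‖ * Real.exp (ε * t)) atBot
        (𝓝 (|A₀| / ‖b‖ * 0)) := by
      refine Tendsto.const_mul _ (Real.tendsto_exp_atBot.comp ?_)
      exact tendsto_id.const_mul_atBot hεp
    rw [mul_zero] at h1
    exact (h1.eventually_lt_const (by norm_num)).exists
  have hw : ∀ x, D.f x < min c' t → ‖σ x / b - 1‖ ≤ |A₀| / ‖b‖ * Real.exp (ε * D.f x) ∧
      ‖σ x / b - 1‖ ≤ 1 / 2 := by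
    intro x hx
    have h1 : ‖σ x / b - 1‖ ≤ |A₀| / ‖b‖ * Real.exp (ε * D.f x) := by
      have : σ x / b - 1 = (σ x - b) / b := by field_simp
      rw [this, norm_div, div_mul_eq_mul_div]
      refine div_le_div_of_nonneg_right ?_ hbn.le
      exact (hA₀ x (hx.trans_le (min_le_left _ _))).trans
        (mul_le_mul_of_nonneg_right (le_abs_self _) (Real.exp_pos _).le)
    refine ⟨h1, h1.trans (le_trans ?_ ht.le)⟩
    refine mul_le_mul_of_nonneg_left (Real.exp_le_exp.2 ?_) (by positivity)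
    exact mul_le_mul_of_nonneg_left (hx.le.trans (min_le_right _ _)) hεp.le
  refine ⟨fun x => -Complex.log (σ x / b), b, ε, 3 / 2 * (|A₀| / ‖b‖), min c' t, hb0, hε,
    (min_le_left _ _).trans hcc, fun x hx => ?_⟩
  obtain ⟨h1, h2⟩ := hw x hx
  have hxc : D.f x < c := (hx.trans_le (min_le_left _ _)).trans_le hcc
  obtain ⟨hs1, hs2, hs3⟩ := hσ x hxc
  have hslit : σ x / b ∈ slitPlane := by
    have h3 : |(σ x / b - 1).re| ≤ 1 / 2 := (Complex.abs_re_le_norm _).trans h2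
    rw [Complex.mem_slitPlane_iff]
    left
    have := (abs_le.1 h3).1
    simp only [Complex.sub_re, Complex.one_re] at this
    linarith
  have hq : At0 ∞ 0 (fun x => σ x / b) x := by
    refine (hs1.const_smul b⁻¹).congr (Eventually.of_forall fun w => ?_)
    simp [div_eq_inv_mul]
  have hqd : ∀ i, dbar0 0 (fun x => σ x / b) x i = -(A x i - B x i) * (σ x / b) := by
    intro i
    have e1 : dbar0 0 (fun x => σ x / b) x = dbar0 0 (fun x => b⁻¹ • σ x) x :=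
      dbar0_congr (Eventually.of_forall fun w => by simp [div_eq_inv_mul])
    rw [e1, dbar0_const_smul _ (hs1.of_le H706.one_le_infty), hσe x hxc, smul_eq_mul,
      div_eq_inv_mul]
    ring
  have hqne : σ x / b ≠ 0 := div_ne_zero hs2 hb0
  refine ⟨?_, fun i => ?_, ?_, ?_⟩
  · have h4 : ContDiffAt ℝ ∞ (fun w : ℂ => -Complex.log w) (σ x / b) :=
      ((contDiffAt_log (n := ∞) hslit).restrict_scalars ℝ).neg
    exact hq.comp (g := fun w : ℂ => -Complex.log w) h4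
  · have h4 : DifferentiableAt ℂ (fun w : ℂ => -Complex.log w) (σ x / b) :=
      (Complex.differentiableAt_log hslit).neg
    rw [dbar0_comp_deriv (hq.of_le H706.one_le_infty) (g := fun w : ℂ => -Complex.log w) h4, hqd]
    have h5 : deriv (fun w : ℂ => -Complex.log w) (σ x / b) = -(σ x / b)⁻¹ :=
      ((Complex.hasDerivAt_log hslit).neg).deriv
    rw [h5]
    field_simp
    ring
  · rw [norm_neg]
    have h4 : Complex.log (σ x / b) = Complex.log (1 + (σ x / b - 1)) := by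
      congr 1; ring
    rw [h4]
    refine (Complex.norm_log_one_add_half_le_self h2).trans ?_
    calc 3 / 2 * ‖σ x / b - 1‖ ≤ 3 / 2 * (|A₀| / ‖b‖ * Real.exp (ε * D.f x)) := by gcongr
      _ = _ := by ring
  · rw [Complex.exp_neg, Complex.exp_log hqne, hs3, hy]
    field_simp

end

end Vale.Agent.P267.H378
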